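import Mathlib

/-!
# P347: Gaussian concentration and the Gaussian Poincaré inequality

Rotating two independent copies into each other (Maurey and Pisier) compares a convex function of
`f y - f x` with the same function of the derivative at one copy applied to the other.
-/

open MeasureTheory ProbabilityTheory Set Filter Topology
open scoped ENNReal NNReal RealInnerProductSpace

namespace P347

noncomputable section

variable {E : Type} [NormedAddCommGroup E] [InnerProductSpace ℝ E] [FiniteDimensional ℝ E]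
  [MeasurableSpace E] [BorelSpace E]

local instance : CompleteSpace E := FiniteDimensional.complete ℝ E

/-- The Maurey-Pisier comparison, without any integrability assumption. -/
theorem lintegral_convex_diff {f : E → ℝ} (hf : ContDiff ℝ 1 f) {Φ : ℝ → ℝ}
    (hΦ : ConvexOn ℝ univ Φ) (hc : Continuous Φ) (h0 : ∀ t, 0 ≤ Φ t) :
    ∫⁻ z, ENNReal.ofReal (Φ (f z.2 - f z.1)) ∂(stdGaussian E).prod (stdGaussian E) ≤
      ∫⁻ z, ENNReal.ofReal (Φ (Real.pi / 2 * fderiv ℝ f z.1 z.2))
        ∂(stdGaussian E).prod (stdGaussian E) := by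
  set μ := (stdGaussian E).prod (stdGaussian E) with hμ
  set G : E × E → ℝ := fun z => Φ (Real.pi / 2 * fderiv ℝ f z.1 z.2) with hG
  set c : ℝ := Real.pi / 2 with hc0
  have hcpos : 0 < c := by positivity
  have hD : Continuous fun z : E × E => fderiv ℝ f z.1 z.2 :=
    ((hf.continuous_fderiv one_ne_zero).comp continuous_fst).clm_apply continuous_snd
  have hGc : Continuous G := hc.comp (continuous_const.mul hD)
  set R : ℝ → E × E → E × E := fun θ z =>
    (Real.cos θ • z.1 + Real.sin θ • z.2, -Real.sin θ • z.1 + Real.cos θ • z.2) with hR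
  have hRc : Continuous fun p : (E × E) × ℝ => R p.2 p.1 := by simp only [hR]; fun_prop
  have hrot : ∀ θ, MeasurePreserving (R θ) μ μ := by
    intro θ
    have hm : ⇑(ContinuousLinearMap.rotation (E := E) θ) = R θ := by
      funext z; simp [hR, ContinuousLinearMap.rotation_apply]
    refine ⟨by simp only [hR]; fun_prop, ?_⟩
    rw [← hm]
    exact IsGaussian.map_rotation_eq_self (by simp) θ
  have hpt : ∀ z : E × E, ENNReal.ofReal (Φ (f z.2 - f z.1)) ≤
      ENNReal.ofReal c⁻¹ * ∫⁻ θ in Icc 0 c, ENNReal.ofReal (G (R θ z)) := by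
    intro z
    set h : ℝ → ℝ := fun θ => fderiv ℝ f (R θ z).1 (R θ z).2 with hh
    have hRz : Continuous fun θ => R θ z := by simp only [hR]; fun_prop
    have hhc : Continuous h := hD.comp hRz
    have hder : ∀ θ, HasDerivAt (fun θ => f (R θ z).1) (h θ) θ := by
      intro θ
      have h1 : HasDerivAt (fun θ => (R θ z).1) (R θ z).2 θ :=
        ((Real.hasDerivAt_cos θ).smul_const z.1).add ((Real.hasDerivAt_sin θ).smul_const z.2)
      exact ((hf.differentiable one_ne_zero) _).hasFDerivAt.comp_hasDerivAt θ h1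
    have hFTC : ∫ θ in (0 : ℝ)..c, h θ = f z.2 - f z.1 := by
      rw [intervalIntegral.integral_eq_sub_of_hasDerivAt (fun θ _ => hder θ)
        (hhc.intervalIntegrable _ _)]
      simp [hR, hc0]
    have hvol : (volume : Measure ℝ) (Icc 0 c) = ENNReal.ofReal c := by simp
    have hint : IntegrableOn (fun θ => Φ (c * h θ)) (Icc 0 c) :=
      (hc.comp (continuous_const.mul hhc)).continuousOn.integrableOn_Icc
    have hJ := hΦ.map_set_average_le hc.continuousOn isClosed_univ
      (show (volume : Measure ℝ) (Icc 0 c) ≠ 0 by simp [hcpos])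
      (show (volume : Measure ℝ) (Icc 0 c) ≠ ⊤ by simp)
      (f := fun θ => c * h θ) (Eventually.of_forall fun _ => mem_univ _)
      (continuous_const.mul hhc).continuousOn.integrableOn_Icc hint
    rw [setAverage_eq, setAverage_eq, measureReal_def, hvol,
      ENNReal.toReal_ofReal hcpos.le, smul_eq_mul, smul_eq_mul, integral_const_mul,
      inv_mul_cancel_left₀ hcpos.ne', integral_Icc_eq_integral_Ioc,
      ← intervalIntegral.integral_of_le hcpos.le, hFTC] at hJ
    refine (ENNReal.ofReal_le_ofReal hJ).trans (le_of_eq ?_)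
    rw [ENNReal.ofReal_mul (inv_nonneg.2 hcpos.le),
      ofReal_integral_eq_lintegral_ofReal hint (Eventually.of_forall fun θ => h0 _)]
  have hGR : Measurable fun p : (E × E) × ℝ => ENNReal.ofReal (G (R p.2 p.1)) :=
    (hGc.comp hRc).measurable.ennreal_ofReal
  calc ∫⁻ z, ENNReal.ofReal (Φ (f z.2 - f z.1)) ∂μ
      ≤ ∫⁻ z, (ENNReal.ofReal c⁻¹ * ∫⁻ θ in Icc 0 c, ENNReal.ofReal (G (R θ z))) ∂μ :=
        lintegral_mono hpt
    _ = ENNReal.ofReal c⁻¹ * ∫⁻ θ in Icc 0 c, (∫⁻ z, ENNReal.ofReal (G (R θ z)) ∂μ) := by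
        rw [lintegral_const_mul _ hGR.lintegral_prod_right',
          lintegral_lintegral_swap hGR.aemeasurable]
    _ = ENNReal.ofReal c⁻¹ * ∫⁻ θ in Icc 0 c, (∫⁻ z, ENNReal.ofReal (G z) ∂μ) := by
        congr 1
        refine setLIntegral_congr_fun measurableSet_Icc fun θ _ => ?_
        exact (hrot θ).lintegral_comp hGc.measurable.ennreal_ofReal
    _ = ∫⁻ z, ENNReal.ofReal (G z) ∂μ := by
        rw [setLIntegral_const, Real.volume_Icc, sub_zero, ← mul_assoc,
          mul_comm (ENNReal.ofReal c⁻¹), mul_assoc, ← ENNReal.ofReal_mul (inv_nonneg.2 hcpos.le),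
          inv_mul_cancel₀ hcpos.ne', ENNReal.ofReal_one, mul_one]

/-- A linear functional of a standard Gaussian vector is a centred Gaussian. -/
theorem map_dual_stdGaussian (L : StrongDual ℝ E) :
    (stdGaussian E).map L = gaussianReal 0 (‖L‖₊ ^ 2) := by
  rw [IsGaussian.map_eq_gaussianReal, variance_dual_stdGaussian, integral_strongDual_stdGaussian]
  congr 1
  ext
  simp

theorem lintegral_exp_dual (L : StrongDual ℝ E) :
    ∫⁻ y, ENNReal.ofReal (Real.exp (L y)) ∂stdGaussian E =
      ENNReal.ofReal (Real.exp (‖L‖ ^ 2 / 2)) := by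
  have hm : ∫⁻ t, ENNReal.ofReal (Real.exp t) ∂gaussianReal 0 (‖L‖₊ ^ 2) =
      ENNReal.ofReal (Real.exp (‖L‖ ^ 2 / 2)) := by
    rw [← ofReal_integral_eq_lintegral_ofReal
      (by simpa using integrable_exp_mul_gaussianReal (μ := 0) (v := ‖L‖₊ ^ 2) 1)
      (Eventually.of_forall fun t => (Real.exp_pos t).le)]
    have h := congrFun (mgf_id_gaussianReal (μ := 0) (v := ‖L‖₊ ^ 2)) 1
    simp only [mgf, id_eq, one_mul] at h
    rw [h]
    simp
  rw [← hm, ← map_dual_stdGaussian, lintegral_map (by fun_prop) L.continuous.measurable]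

theorem lintegral_sq_dual (L : StrongDual ℝ E) :
    ∫⁻ y, ENNReal.ofReal (L y ^ 2) ∂stdGaussian E = ENNReal.ofReal (‖L‖ ^ 2) := by
  have hL : MemLp (fun y => L y) 2 (stdGaussian E) := IsGaussian.memLp_dual _ L 2 (by simp)
  rw [← ofReal_integral_eq_lintegral_ofReal hL.integrable_sq
    (Eventually.of_forall fun y => sq_nonneg _)]
  congr 1
  rw [← variance_dual_stdGaussian L, variance_of_integral_eq_zero L.continuous.aemeasurable
    (integral_strongDual_stdGaussian L)]

/-- Exponential moment of the difference of two independent copies. -/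
theorem lintegral_exp_diff_le {f : E → ℝ} (hf : ContDiff ℝ 1 f) {L : ℝ}
    (hL : ∀ x, ‖fderiv ℝ f x‖ ≤ L) (t : ℝ) :
    ∫⁻ z, ENNReal.ofReal (Real.exp (t * (f z.2 - f z.1)))
        ∂(stdGaussian E).prod (stdGaussian E) ≤
      ENNReal.ofReal (Real.exp (Real.pi ^ 2 / 8 * t ^ 2 * L ^ 2)) := by
  have hconv : ConvexOn ℝ univ fun u : ℝ => Real.exp (t * u) := by
    simpa [Function.comp_def] using convexOn_exp.comp_linearMap (LinearMap.mulLeft ℝ t)
  refine (lintegral_convex_diff hf hconv (by fun_prop) fun u => (Real.exp_pos _).le).trans ?_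
  have hD : Continuous fun z : E × E => fderiv ℝ f z.1 z.2 :=
    ((hf.continuous_fderiv one_ne_zero).comp continuous_fst).clm_apply continuous_snd
  rw [lintegral_prod _ (Continuous.measurable (by fun_prop)).ennreal_ofReal.aemeasurable]
  refine (lintegral_mono (g := fun _ => ENNReal.ofReal
    (Real.exp (Real.pi ^ 2 / 8 * t ^ 2 * L ^ 2))) fun x => ?_).trans (le_of_eq (by simp))
  have he : ∀ y, t * (Real.pi / 2 * fderiv ℝ f x y) = ((t * (Real.pi / 2)) • fderiv ℝ f x) y :=
    fun y => by simp; ring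
  simp only [he, lintegral_exp_dual]
  refine ENNReal.ofReal_le_ofReal (Real.exp_le_exp.2 ?_)
  rw [norm_smul, mul_pow, Real.norm_eq_abs, sq_abs]
  have := mul_le_mul_of_nonneg_left (pow_le_pow_left₀ (norm_nonneg _) (hL x) 2)
    (sq_nonneg (t * (Real.pi / 2)))
  linarith

/-- Second moment of the difference of two independent copies. -/
theorem lintegral_sq_diff_le {f : E → ℝ} (hf : ContDiff ℝ 1 f) :
    ∫⁻ z, ENNReal.ofReal ((f z.2 - f z.1) ^ 2) ∂(stdGaussian E).prod (stdGaussian E) ≤
      ENNReal.ofReal (Real.pi ^ 2 / 4) *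
        ∫⁻ x, ENNReal.ofReal (‖fderiv ℝ f x‖ ^ 2) ∂stdGaussian E := by
  refine (lintegral_convex_diff hf (even_two.convexOn_pow) (by fun_prop) fun u => sq_nonneg _).trans
    ?_
  have hD : Continuous fun z : E × E => fderiv ℝ f z.1 z.2 :=
    ((hf.continuous_fderiv one_ne_zero).comp continuous_fst).clm_apply continuous_snd
  rw [lintegral_prod _ (Continuous.measurable (by fun_prop)).ennreal_ofReal.aemeasurable,
    ← lintegral_const_mul' _ _ ENNReal.ofReal_ne_top]
  refine lintegral_mono fun x => le_of_eq ?_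
  have he : ∀ y, Real.pi / 2 * fderiv ℝ f x y = ((Real.pi / 2) • fderiv ℝ f x) y :=
    fun y => by simp
  simp only [he, lintegral_sq_dual, norm_smul, Real.norm_eq_abs, mul_pow, sq_abs]
  rw [← ENNReal.ofReal_mul (by positivity)]
  congr 1
  ring

/-- Lipschitz functions are integrable. -/
theorem integrable_of_lip {f : E → ℝ} {L : ℝ} (hf : ∀ x y, |f x - f y| ≤ L * ‖x - y‖)
    (hm : Continuous f) : Integrable f (stdGaussian E) := by
  have hi : Integrable (fun x : E => |f 0| + L * ‖x‖) (stdGaussian E) :=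
    (integrable_const _).add ((IsGaussian.integrable_id.norm).const_mul L)
  refine hi.mono' hm.aestronglyMeasurable (Eventually.of_forall fun x => ?_)
  have h1 := hf x 0
  rw [sub_zero] at h1
  rw [Real.norm_eq_abs]
  have h2 := abs_sub_abs_le_abs_sub (f x) (f 0)
  linarith

omit [InnerProductSpace ℝ E] [FiniteDimensional ℝ E] [MeasurableSpace E] [BorelSpace E] in
theorem continuous_of_lip {f : E → ℝ} {L : ℝ} (hL : 0 ≤ L)
    (hf : ∀ x y, |f x - f y| ≤ L * ‖x - y‖) : Continuous f :=
  (LipschitzWith.of_dist_le_mul (K := L.toNNReal) fun x y => by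
    simpa [Real.dist_eq, dist_eq_norm, Real.coe_toNNReal L hL] using hf x y).continuous

/-- A Lipschitz function is a uniform limit of smooth ones with the same constant. -/
theorem exists_smooth_near {f : E → ℝ} {L : ℝ} (hL : 0 ≤ L)
    (hf : ∀ x y, |f x - f y| ≤ L * ‖x - y‖) {ε : ℝ} (hε : 0 < ε) :
    ∃ g : E → ℝ, ContDiff ℝ 1 g ∧ (∀ x y, |g x - g y| ≤ L * ‖x - y‖) ∧
      (∀ x, ‖fderiv ℝ g x‖ ≤ L) ∧ ∀ x, |g x - f x| ≤ ε := by
  have hc := continuous_of_lip hL hf
  set r : ℝ := ε / (L + 1) with hr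
  have hrpos : 0 < r := by positivity
  set φ : ContDiffBump (0 : E) := ⟨r / 2, r, by positivity, by linarith⟩ with hφ
  set μ : Measure E := stdOrthonormalBasis ℝ E |>.toBasis.addHaar with hμdef
  set ρ : E → ℝ := φ.normed μ with hρ
  set g : E → ℝ := fun x => ∫ t, ρ t * f (x - t) ∂μ with hg
  have hg' : g = convolution ρ f (ContinuousLinearMap.lsmul ℝ ℝ) μ := by
    funext x; simp [hg, convolution_def]
  have hint : ∀ x, Integrable (fun t => ρ t * f (x - t)) μ := fun x =>
    (φ.continuous_normed.mul (hc.comp (continuous_const.sub continuous_id))).integrable_of_hasCompactSupport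
      φ.hasCompactSupport_normed.mul_right
  have hlip : ∀ x y, |g x - g y| ≤ L * ‖x - y‖ := by
    intro x y
    rw [hg, ← integral_sub (hint x) (hint y)]
    calc |∫ t, (ρ t * f (x - t) - ρ t * f (y - t)) ∂μ|
        ≤ ∫ t, |ρ t * f (x - t) - ρ t * f (y - t)| ∂μ := abs_integral_le_integral_abs
      _ ≤ ∫ t, ρ t * (L * ‖x - y‖) ∂μ := by
          refine integral_mono ((hint x).sub (hint y)).abs (φ.integrable_normed.mul_const _)
            fun t => ?_
          rw [← mul_sub, abs_mul, abs_of_nonneg (φ.nonneg_normed t)]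
          refine mul_le_mul_of_nonneg_left ?_ (φ.nonneg_normed t)
          simpa using hf (x - t) (y - t)
      _ = L * ‖x - y‖ := by rw [integral_mul_const, φ.integral_normed, one_mul]
  refine ⟨g, ?_, hlip, fun x => ?_, fun x => ?_⟩
  · rw [hg']
    exact φ.hasCompactSupport_normed.contDiff_convolution_left _ φ.contDiff_normed
      hc.locallyIntegrable
  · exact norm_fderiv_le_of_lip' ℝ hL (Eventually.of_forall fun y => hlip y x)
  · have h := φ.dist_normed_convolution_le (μ := μ) (g := f) (x₀ := x) hc.aestronglyMeasurable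
      (ε := L * r) fun y hy => by
        rw [Metric.mem_ball] at hy
        rw [Real.dist_eq]
        exact (hf y x).trans (mul_le_mul_of_nonneg_left (by rw [← dist_eq_norm]; exact hy.le) hL)
    rw [← hg', Real.dist_eq] at h
    refine h.trans ?_
    rw [hr, mul_div_assoc', div_le_iff₀ (by positivity)]
    nlinarith

/-- Gaussian concentration: the exponential moment of a Lipschitz function. -/
theorem integral_exp_lip_le {f : E → ℝ} {L : ℝ} (hL : 0 ≤ L)
    (hf : ∀ x y, |f x - f y| ≤ L * ‖x - y‖) (t : ℝ) :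
    Integrable (fun x => Real.exp (t * (f x - ∫ y, f y ∂stdGaussian E))) (stdGaussian E) ∧
      ∫ x, Real.exp (t * (f x - ∫ y, f y ∂stdGaussian E)) ∂stdGaussian E ≤
        Real.exp (Real.pi ^ 2 / 8 * t ^ 2 * L ^ 2) := by
  have hc := continuous_of_lip hL hf
  set m := ∫ y, f y ∂stdGaussian E with hm
  set B := Real.exp (Real.pi ^ 2 / 8 * t ^ 2 * L ^ 2) with hB
  have hmeas : Continuous fun x => Real.exp (t * (f x - m)) := by fun_prop
  have key : ∀ ε : ℝ, 0 < ε → ∫⁻ x, ENNReal.ofReal (Real.exp (t * (f x - m))) ∂stdGaussian E ≤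
      ENNReal.ofReal (Real.exp (2 * |t| * ε) * B) := by
    intro ε hε
    obtain ⟨g, hg, hgl, hgd, hge⟩ := exists_smooth_near hL hf hε
    have hgi := integrable_of_lip hgl hg.continuous
    have hfi := integrable_of_lip hf hc
    set m' := ∫ y, g y ∂stdGaussian E
    have hmm : |m' - m| ≤ ε := by
      rw [hm, ← integral_sub hgi hfi]
      refine abs_integral_le_integral_abs.trans
        ((integral_mono (hgi.sub hfi).abs (integrable_const ε) hge).trans (le_of_eq (by simp)))
    have hdiff := lintegral_exp_diff_le hg hgd t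
    rw [lintegral_prod_symm _ (Continuous.measurable (by fun_prop)).ennreal_ofReal.aemeasurable]
      at hdiff
    calc ∫⁻ y, ENNReal.ofReal (Real.exp (t * (f y - m))) ∂stdGaussian E
        ≤ ∫⁻ y, ENNReal.ofReal (Real.exp (2 * |t| * ε)) *
            ∫⁻ x, ENNReal.ofReal (Real.exp (t * (g y - g x))) ∂stdGaussian E ∂stdGaussian E := by
          refine lintegral_mono fun y => ?_
          by_cases htop :
              ∫⁻ x, ENNReal.ofReal (Real.exp (t * (g y - g x))) ∂stdGaussian E = ⊤
          · simp [htop, Real.exp_pos]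
          have hi : Integrable (fun x => Real.exp (t * (g y - g x))) (stdGaussian E) :=
            (lintegral_ofReal_ne_top_iff_integrable
              (Continuous.aestronglyMeasurable (by fun_prop))
              (Eventually.of_forall fun x => (Real.exp_pos _).le)).1 htop
          rw [← ofReal_integral_eq_lintegral_ofReal hi
            (Eventually.of_forall fun x => (Real.exp_pos _).le),
            ← ENNReal.ofReal_mul (Real.exp_nonneg _)]
          refine ENNReal.ofReal_le_ofReal ?_
          have hJ := convexOn_exp.map_integral_le Real.continuous_exp.continuousOn isClosed_univ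
            (f := fun x => t * (g y - g x)) (μ := stdGaussian E)
            (Eventually.of_forall fun _ => mem_univ _)
            (((integrable_const (g y)).sub hgi).const_mul t) hi
          rw [integral_const_mul, integral_sub (integrable_const _) hgi, integral_const] at hJ
          simp only [probReal_univ, one_smul] at hJ
          refine le_trans ?_ (mul_le_mul_of_nonneg_left hJ (Real.exp_nonneg _))
          rw [← Real.exp_add]
          refine Real.exp_le_exp.2 ?_
          have h1 : |t * ((f y - g y) + (m' - m))| ≤ |t| * (2 * ε) := by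
            rw [abs_mul]
            refine mul_le_mul_of_nonneg_left ((abs_add_le _ _).trans ?_) (abs_nonneg t)
            rw [abs_sub_comm]
            linarith [hge y]
          linarith [(abs_le.1 h1).2]
      _ ≤ ENNReal.ofReal (Real.exp (2 * |t| * ε) * B) := by
          rw [lintegral_const_mul' _ _ ENNReal.ofReal_ne_top, ENNReal.ofReal_mul (Real.exp_nonneg _)]
          exact mul_le_mul' le_rfl hdiff
  have hfin : ∫⁻ x, ENNReal.ofReal (Real.exp (t * (f x - m))) ∂stdGaussian E ≠ ⊤ :=
    ne_top_of_le_ne_top ENNReal.ofReal_ne_top (key 1 one_pos)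
  have hi : Integrable (fun x => Real.exp (t * (f x - m))) (stdGaussian E) :=
    (lintegral_ofReal_ne_top_iff_integrable hmeas.aestronglyMeasurable
      (Eventually.of_forall fun x => (Real.exp_pos _).le)).1 hfin
  refine ⟨hi, ?_⟩
  have hlim : Tendsto (fun ε => Real.exp (2 * |t| * ε) * B) (𝓝[>] 0) (𝓝 B) := by
    have : Tendsto (fun ε => Real.exp (2 * |t| * ε) * B) (𝓝 0)
        (𝓝 (Real.exp (2 * |t| * 0) * B)) := Continuous.tendsto (by fun_prop) 0
    simpa using this.mono_left nhdsWithin_le_nhds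
  refine ge_of_tendsto hlim ?_
  filter_upwards [self_mem_nhdsWithin] with ε hε
  have h := key ε hε
  rw [← ofReal_integral_eq_lintegral_ofReal hi (Eventually.of_forall fun x => (Real.exp_pos _).le)]
    at h
  exact (ENNReal.ofReal_le_ofReal_iff (by positivity)).1 h

/-- The Gaussian Poincaré inequality. -/
theorem integral_sq_center_le {f : E → ℝ} (hf : ContDiff ℝ 1 f)
    (hd : Integrable (fun x => ‖fderiv ℝ f x‖ ^ 2) (stdGaussian E)) :
    MemLp f 2 (stdGaussian E) ∧
      ∫ x, (f x - ∫ y, f y ∂stdGaussian E) ^ 2 ∂stdGaussian E ≤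
        Real.pi ^ 2 / 8 * ∫ x, ‖fderiv ℝ f x‖ ^ 2 ∂stdGaussian E := by
  set γ := stdGaussian E with hγ
  have hc := hf.continuous
  have h := lintegral_sq_diff_le hf
  rw [← ofReal_integral_eq_lintegral_ofReal hd (Eventually.of_forall fun x => sq_nonneg _),
    ← ENNReal.ofReal_mul (by positivity)] at h
  have hsq : Continuous fun z : E × E => (f z.2 - f z.1) ^ 2 := by fun_prop
  have hi2 : Integrable (fun z : E × E => (f z.2 - f z.1) ^ 2) (γ.prod γ) :=
    (lintegral_ofReal_ne_top_iff_integrable hsq.aestronglyMeasurable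
      (Eventually.of_forall fun z => sq_nonneg _)).1 (ne_top_of_le_ne_top ENNReal.ofReal_ne_top h)
  obtain ⟨x₀, hx₀⟩ := hi2.prod_right_ae.exists
  have hmem0 : MemLp (fun y => f y - f x₀) 2 γ :=
    (memLp_two_iff_integrable_sq (hc.sub continuous_const).aestronglyMeasurable).2 hx₀
  have hmem : MemLp f 2 γ := by
    refine (hmem0.add (memLp_const (f x₀))).ae_eq (Eventually.of_forall fun y => ?_)
    simp
  refine ⟨hmem, ?_⟩
  have hf1 : Integrable f γ := hmem.integrable (by norm_num)
  have hf2 : Integrable (fun x => f x ^ 2) γ := hmem.integrable_sq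
  set m := ∫ y, f y ∂γ
  have hpair : ∫ z, (f z.2 - f z.1) ^ 2 ∂γ.prod γ = 2 * ∫ x, (f x - m) ^ 2 ∂γ := by
    have hin : ∀ a : ℝ, ∫ y, (f y - a) ^ 2 ∂γ = ∫ y, f y ^ 2 ∂γ - 2 * a * m + a ^ 2 := by
      intro a
      have e : (fun y => (f y - a) ^ 2) = fun y => f y ^ 2 - 2 * a * f y + a ^ 2 := by
        funext y; ring
      have i1 : Integrable (fun y => f y ^ 2 - 2 * a * f y) γ := hf2.sub (hf1.const_mul _)
      rw [e, integral_add i1 (integrable_const _),
        integral_sub hf2 (hf1.const_mul _), integral_const_mul, integral_const]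
      simp [m]
    rw [integral_prod _ hi2]
    simp only [hin]
    have e2 : (fun x => ∫ y, f y ^ 2 ∂γ - 2 * f x * m + f x ^ 2)
        = fun x => ∫ y, f y ^ 2 ∂γ - (2 * m) * f x + f x ^ 2 := by funext x; ring
    have i2 : Integrable (fun x => ∫ y, f y ^ 2 ∂γ - (2 * m) * f x) γ :=
      (integrable_const _).sub (hf1.const_mul _)
    rw [e2, integral_add i2 hf2,
      integral_sub (integrable_const _) (hf1.const_mul _), integral_const_mul, integral_const]
    simp
    ring
  rw [← ofReal_integral_eq_lintegral_ofReal hi2 (Eventually.of_forall fun z => sq_nonneg _),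
    ENNReal.ofReal_le_ofReal_iff (mul_nonneg (by positivity)
      (integral_nonneg fun x => sq_nonneg _)), hpair] at h
  linarith

/-- The variance of a Lipschitz function. -/
theorem integral_sq_center_lip_le {f : E → ℝ} {L : ℝ} (hL : 0 ≤ L)
    (hf : ∀ x y, |f x - f y| ≤ L * ‖x - y‖) :
    MemLp f 2 (stdGaussian E) ∧
      ∫ x, (f x - ∫ y, f y ∂stdGaussian E) ^ 2 ∂stdGaussian E ≤ Real.pi ^ 2 / 8 * L ^ 2 := by
  set γ := stdGaussian E with hγ
  have hc := continuous_of_lip hL hf
  set B := Real.pi ^ 2 / 8 * L ^ 2 with hB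
  set m := ∫ y, f y ∂γ
  have hfi := integrable_of_lip hf hc
  have key : ∀ ε, 0 < ε → MemLp f 2 γ ∧
      ∫ x, (f x - m) ^ 2 ∂γ ≤ (1 + 2 * ε) * B + (2 * ε + 4 * ε ^ 2) := by
    intro ε hε
    obtain ⟨g, hg, hgl, hgd, hge⟩ := exists_smooth_near hL hf hε
    have hd : Integrable (fun x => ‖fderiv ℝ g x‖ ^ 2) γ :=
      (integrable_const (L ^ 2)).mono'
        ((hg.continuous_fderiv one_ne_zero).norm.pow 2).aestronglyMeasurable
        (Eventually.of_forall fun x => by
          rw [Real.norm_eq_abs, abs_of_nonneg (sq_nonneg _)]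
          exact pow_le_pow_left₀ (norm_nonneg _) (hgd x) 2)
    obtain ⟨hmem, hvar⟩ := integral_sq_center_le hg hd
    have hdm : MemLp (fun x => f x - g x) 2 γ :=
      MemLp.of_bound (hc.sub hg.continuous).aestronglyMeasurable ε (Eventually.of_forall fun x => by
        rw [Real.norm_eq_abs, abs_sub_comm]; exact hge x)
    have hfm : MemLp f 2 γ := (hmem.add hdm).ae_eq (Eventually.of_forall fun x => by simp)
    refine ⟨hfm, ?_⟩
    have hgi := integrable_of_lip hgl hg.continuous
    set m' := ∫ y, g y ∂γ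
    have hmm : |m' - m| ≤ ε := by
      rw [← integral_sub hgi hfi]
      refine abs_integral_le_integral_abs.trans
        ((integral_mono (hgi.sub hfi).abs (integrable_const ε) hge).trans (le_of_eq (by simp)))
    have hg2 : ∫ x, (g x - m') ^ 2 ∂γ ≤ B := hvar.trans (mul_le_mul_of_nonneg_left
      ((integral_mono hd (integrable_const _) fun x =>
        pow_le_pow_left₀ (norm_nonneg _) (hgd x) 2).trans (le_of_eq (by simp))) (by positivity))
    have hg2i : Integrable (fun x => (g x - m') ^ 2) γ := (hmem.sub (memLp_const m')).integrable_sq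
    calc ∫ x, (f x - m) ^ 2 ∂γ
        ≤ ∫ x, ((1 + 2 * ε) * (g x - m') ^ 2 + (2 * ε + 4 * ε ^ 2)) ∂γ := by
          refine integral_mono (hfm.sub (memLp_const m)).integrable_sq
            ((hg2i.const_mul _).add (integrable_const _)) fun x => ?_
          have h1 := abs_le.1 (hge x)
          have h2 := abs_le.1 hmm
          have h3 : |f x - m| ≤ |g x - m'| + 2 * ε := by
            rw [abs_le]
            constructor <;> linarith [le_abs_self (g x - m'), neg_abs_le (g x - m')]
          have h4 := pow_le_pow_left₀ (abs_nonneg _) h3 2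
          rw [sq_abs] at h4
          nlinarith [sq_nonneg (|g x - m'| - 1), sq_abs (g x - m')]
      _ ≤ (1 + 2 * ε) * B + (2 * ε + 4 * ε ^ 2) := by
          rw [integral_add (hg2i.const_mul _) (integrable_const _), integral_const_mul,
            integral_const]
          simp only [probReal_univ, one_smul]
          linarith [mul_le_mul_of_nonneg_left hg2 (show 0 ≤ 1 + 2 * ε by positivity)]
  refine ⟨(key 1 one_pos).1, ?_⟩
  have hlim : Tendsto (fun ε => (1 + 2 * ε) * B + (2 * ε + 4 * ε ^ 2)) (𝓝[>] 0) (𝓝 B) := by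
    have : Tendsto (fun ε : ℝ => (1 + 2 * ε) * B + (2 * ε + 4 * ε ^ 2)) (𝓝 0)
        (𝓝 ((1 + 2 * 0) * B + (2 * 0 + 4 * 0 ^ 2))) := Continuous.tendsto (by fun_prop) 0
    simpa using this.mono_left nhdsWithin_le_nhds
  refine ge_of_tendsto hlim ?_
  filter_upwards [self_mem_nhdsWithin] with ε hε using (key ε hε).2

/-- The Poincaré inequality coordinate by coordinate, for maps with values in a Euclidean space. -/
theorem integral_sq_norm_center_le {F : Type} [NormedAddCommGroup F] [InnerProductSpace ℝ F]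
    [FiniteDimensional ℝ F] {ι : Type} [Fintype ι] (b : OrthonormalBasis ι ℝ F) {G : E → F}
    (hG : ContDiff ℝ 1 G)
    (hd : ∀ i, Integrable (fun x => ‖(innerSL ℝ (b i)).comp (fderiv ℝ G x)‖ ^ 2) (stdGaussian E)) :
    ∫ x, ‖G x - ∫ y, G y ∂stdGaussian E‖ ^ 2 ∂stdGaussian E ≤
      Real.pi ^ 2 / 8 *
        ∑ i, ∫ x, ‖(innerSL ℝ (b i)).comp (fderiv ℝ G x)‖ ^ 2 ∂stdGaussian E := by
  set γ := stdGaussian E with hγ
  have hder : ∀ i, fderiv ℝ (fun x => ⟪b i, G x⟫) = fun x => (innerSL ℝ (b i)).comp (fderiv ℝ G x) :=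
    fun i => funext fun x =>
      ((innerSL ℝ (b i)).hasFDerivAt.comp x ((hG.differentiable one_ne_zero) x).hasFDerivAt).fderiv
  have hres : ∀ i, MemLp (fun x => ⟪b i, G x⟫) 2 γ ∧
      ∫ x, (⟪b i, G x⟫ - ∫ y, ⟪b i, G y⟫ ∂γ) ^ 2 ∂γ ≤
        Real.pi ^ 2 / 8 * ∫ x, ‖(innerSL ℝ (b i)).comp (fderiv ℝ G x)‖ ^ 2 ∂γ := fun i => by
    have h := integral_sq_center_le (f := fun x => ⟪b i, G x⟫) (contDiff_const.inner ℝ hG)
      (by simpa [hder i] using hd i)
    simpa [hder i] using h
  have hGi : Integrable G γ := by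
    have h : Integrable (fun x => ∑ i, ⟪b i, G x⟫ • b i) γ :=
      integrable_finsetSum _ fun i _ => ((hres i).1.integrable (by norm_num)).smul_const _
    simpa [b.sum_repr'] using h
  have hexp : ∀ x, ‖G x - ∫ y, G y ∂γ‖ ^ 2 = ∑ i, (⟪b i, G x⟫ - ∫ y, ⟪b i, G y⟫ ∂γ) ^ 2 := by
    intro x
    rw [← b.sum_sq_inner_right]
    refine Finset.sum_congr rfl fun i _ => ?_
    rw [inner_sub_right, ← integral_inner hGi]
  simp only [hexp]
  have hint : ∀ i, Integrable (fun x => (⟪b i, G x⟫ - ∫ y, ⟪b i, G y⟫ ∂γ) ^ 2) γ :=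
    fun i => ((hres i).1.sub (memLp_const _)).integrable_sq
  rw [integral_finsetSum _ fun i _ => hint i, Finset.mul_sum]
  exact Finset.sum_le_sum fun i _ => (hres i).2

end

end P347
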