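import Vale.Agent.P347.Quarter.Gauss

/-!
# P347: functions of moderate growth, Gaussian integration by parts and the covariance identity
-/

open MeasureTheory ProbabilityTheory Set Filter Topology
open scoped ENNReal NNReal RealInnerProductSpace Gradient

namespace P347

noncomputable section

/-- A C^1 map which grows, with its derivative, at most polynomially. -/
def Tame {E F : Type} [NormedAddCommGroup E] [NormedSpace ℝ E] [NormedAddCommGroup F]
    [NormedSpace ℝ F] (h : E → F) : Prop :=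
  ContDiff ℝ 1 h ∧ ∃ C : ℝ, ∃ n : ℕ, ∀ x, ‖h x‖ + ‖fderiv ℝ h x‖ ≤ C * (1 + ‖x‖) ^ n

section Closure

variable {E F G : Type} [NormedAddCommGroup E] [NormedSpace ℝ E] [NormedAddCommGroup F]
  [NormedSpace ℝ F] [NormedAddCommGroup G] [NormedSpace ℝ G]

theorem Tame.continuous {h : E → F} (hh : Tame h) : Continuous h := hh.1.continuous

theorem Tame.differentiable {h : E → F} (hh : Tame h) : Differentiable ℝ h :=
  hh.1.differentiable one_ne_zero

theorem Tame.continuous_fderiv {h : E → F} (hh : Tame h) : Continuous (fderiv ℝ h) :=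
  hh.1.continuous_fderiv one_ne_zero

theorem Tame.bound {h : E → F} (hh : Tame h) : ∃ C : ℝ, ∃ n : ℕ, 1 ≤ C ∧ ∀ x,
    ‖h x‖ ≤ C * (1 + ‖x‖) ^ n ∧ ‖fderiv ℝ h x‖ ≤ C * (1 + ‖x‖) ^ n := by
  obtain ⟨-, C, n, hb⟩ := hh
  refine ⟨max C 1, n, le_max_right _ _, fun x => ?_⟩
  have h1 := hb x
  have h2 := mul_le_mul_of_nonneg_right (le_max_left C 1) (show 0 ≤ (1 + ‖x‖) ^ n by positivity)
  constructor <;> linarith [norm_nonneg (h x), norm_nonneg (fderiv ℝ h x)]

theorem Tame.of_bounds {h : E → F} (hc : ContDiff ℝ 1 h) {C D : ℝ} {n k : ℕ} (hC : 0 ≤ C)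
    (hD : 0 ≤ D) (h1 : ∀ x, ‖h x‖ ≤ C * (1 + ‖x‖) ^ n)
    (h2 : ∀ x, ‖fderiv ℝ h x‖ ≤ D * (1 + ‖x‖) ^ k) : Tame h := by
  refine ⟨hc, C + D, n + k, fun x => ?_⟩
  have hb : 1 ≤ 1 + ‖x‖ := by linarith [norm_nonneg x]
  have e1 := mul_le_mul_of_nonneg_left
    (pow_le_pow_right₀ hb (show n ≤ n + k by omega)) hC
  have e2 := mul_le_mul_of_nonneg_left
    (pow_le_pow_right₀ hb (show k ≤ n + k by omega)) hD
  linarith [h1 x, h2 x]

theorem tame_const (c : F) : Tame fun _ : E => c :=
  Tame.of_bounds contDiff_const (norm_nonneg c) (le_refl 0) (n := 0) (k := 0) (fun x => by simp)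
    fun x => by simp

theorem tame_clm (L : E →L[ℝ] F) : Tame L := by
  refine Tame.of_bounds L.contDiff (norm_nonneg L) (norm_nonneg L) (n := 1) (k := 0)
    (fun x => ?_) fun x => by simp
  rw [pow_one]
  exact (L.le_opNorm x).trans (mul_le_mul_of_nonneg_left (by linarith) (norm_nonneg L))

theorem tame_of_lip {h : E → F} (hc : ContDiff ℝ 1 h) {L : ℝ} (hL : ∀ x, ‖fderiv ℝ h x‖ ≤ L) :
    Tame h := by
  have hL0 : 0 ≤ L := le_trans (norm_nonneg _) (hL 0)
  refine Tame.of_bounds hc (C := ‖h 0‖ + L) (D := L) (n := 1) (k := 0) (by positivity) hL0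
    (fun x => ?_) fun x => by simpa using hL x
  have := Convex.norm_image_sub_le_of_norm_fderiv_le (s := univ)
    (fun y _ => (hc.differentiable one_ne_zero) y) (fun y _ => hL y) convex_univ (mem_univ (0 : E))
    (mem_univ x)
  rw [sub_zero] at this
  have e := norm_le_norm_add_norm_sub' (h x) (h 0)
  rw [pow_one]
  linarith [mul_nonneg (norm_nonneg (h 0)) (norm_nonneg x)]

theorem Tame.add {f g : E → F} (hf : Tame f) (hg : Tame g) : Tame fun x => f x + g x := by
  obtain ⟨C, n, hC, hfb⟩ := hf.bound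
  obtain ⟨D, k, hD, hgb⟩ := hg.bound
  refine Tame.of_bounds (hf.1.add hg.1) (C := C + D) (D := C + D) (n := n + k) (k := n + k)
    (by linarith) (by linarith) (fun x => ?_) fun x => ?_
  all_goals
    have hb : 1 ≤ 1 + ‖x‖ := by linarith [norm_nonneg x]
    have e1 := mul_le_mul_of_nonneg_left (pow_le_pow_right₀ hb (show n ≤ n + k by omega))
      (zero_le_one.trans hC)
    have e2 := mul_le_mul_of_nonneg_left (pow_le_pow_right₀ hb (show k ≤ n + k by omega))
      (zero_le_one.trans hD)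
  · exact (norm_add_le _ _).trans (by linarith [(hfb x).1, (hgb x).1])
  · rw [fderiv_fun_add (hf.differentiable x) (hg.differentiable x)]
    exact (norm_add_le _ _).trans (by linarith [(hfb x).2, (hgb x).2])

theorem Tame.comp {g : F → G} {f : E → F} (hg : Tame g) (hf : Tame f) :
    Tame fun x => g (f x) := by
  obtain ⟨C, n, hC, hfb⟩ := hf.bound
  obtain ⟨D, k, hD, hgb⟩ := hg.bound
  refine Tame.of_bounds (hg.1.comp hf.1) (C := D * (1 + C) ^ k)
    (D := D * (1 + C) ^ k * C) (n := n * k) (k := n * k + n)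
    (by positivity) (by positivity) (fun x => ?_) fun x => ?_
  all_goals
    have hb : 1 ≤ (1 + ‖x‖) ^ n := one_le_pow₀ (by linarith [norm_nonneg x])
    have e1 : (1 + ‖f x‖) ^ k ≤ ((1 + C) * (1 + ‖x‖) ^ n) ^ k :=
      pow_le_pow_left₀ (by positivity) (by linarith [(hfb x).1]) k
    rw [mul_pow, ← pow_mul] at e1
    have e2 := mul_le_mul_of_nonneg_left e1 (zero_le_one.trans hD)
  · exact (hgb (f x)).1.trans (by linarith)
  · rw [show (fun x => g (f x)) = g ∘ f from rfl,
      fderiv_comp x (hg.differentiable (f x)) (hf.differentiable x)]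
    refine (ContinuousLinearMap.opNorm_comp_le _ _).trans ?_
    refine (mul_le_mul (hgb (f x)).2 (hfb x).2 (norm_nonneg _) (by positivity)).trans ?_
    refine (mul_le_mul_of_nonneg_right e2 (by positivity)).trans (le_of_eq ?_)
    rw [pow_add]; ring

theorem Tame.prodMk {f : E → F} {g : E → G} (hf : Tame f) (hg : Tame g) :
    Tame fun x => (f x, g x) := by
  obtain ⟨C, n, hC, hfb⟩ := hf.bound
  obtain ⟨D, k, hD, hgb⟩ := hg.bound
  refine Tame.of_bounds (hf.1.prodMk hg.1) (C := C + D) (D := C + D) (n := n + k) (k := n + k)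
    (by linarith) (by linarith) (fun x => ?_) fun x => ?_
  all_goals
    have hb : 1 ≤ 1 + ‖x‖ := by linarith [norm_nonneg x]
    have e1 := mul_le_mul_of_nonneg_left (pow_le_pow_right₀ hb (show n ≤ n + k by omega))
      (zero_le_one.trans hC)
    have e2 := mul_le_mul_of_nonneg_left (pow_le_pow_right₀ hb (show k ≤ n + k by omega))
      (zero_le_one.trans hD)
  · rw [Prod.norm_mk]
    exact max_le (by linarith [(hfb x).1, norm_nonneg (g x), (hgb x).1])
      (by linarith [(hgb x).1, norm_nonneg (f x), (hfb x).1])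
  · rw [(hf.differentiable x).fderiv_prodMk (hg.differentiable x), ContinuousLinearMap.opNorm_prod,
      Prod.norm_mk]
    exact max_le (by linarith [(hfb x).2, norm_nonneg (fderiv ℝ g x), (hgb x).2])
      (by linarith [(hgb x).2, norm_nonneg (fderiv ℝ f x), (hfb x).2])

theorem tame_mul : Tame fun p : ℝ × ℝ => p.1 * p.2 := by
  refine Tame.of_bounds (contDiff_fst.mul contDiff_snd) zero_le_one (C := 1) (D := 2) (n := 2)
    (k := 1) (by norm_num) (fun p => ?_) fun p => ?_
  · rw [norm_mul, one_mul, sq]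
    exact mul_le_mul ((norm_fst_le p).trans (by linarith)) ((norm_snd_le p).trans (by linarith))
      (norm_nonneg _) (by positivity)
  · rw [fderiv_fun_mul differentiableAt_fst differentiableAt_snd, fderiv_fst, fderiv_snd]
    refine (norm_add_le _ _).trans ?_
    rw [norm_smul, norm_smul, pow_one]
    have a1 := mul_le_mul (norm_fst_le p) (ContinuousLinearMap.norm_snd_le ℝ ℝ ℝ)
      (norm_nonneg _) (norm_nonneg _)
    have a2 := mul_le_mul (norm_snd_le p) (ContinuousLinearMap.norm_fst_le ℝ ℝ ℝ)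
      (norm_nonneg _) (norm_nonneg _)
    linarith

theorem Tame.mul {f g : E → ℝ} (hf : Tame f) (hg : Tame g) : Tame fun x => f x * g x :=
  tame_mul.comp (hf.prodMk hg)

theorem Tame.clm_comp (L : F →L[ℝ] G) {f : E → F} (hf : Tame f) : Tame fun x => L (f x) :=
  (tame_clm L).comp hf

theorem Tame.sub {f g : E → F} (hf : Tame f) (hg : Tame g) : Tame fun x => f x - g x := by
  simpa [sub_eq_add_neg] using hf.add (hg.clm_comp (-(ContinuousLinearMap.id ℝ F)))

end Closure

section Gaussian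

variable {E : Type} [NormedAddCommGroup E] [InnerProductSpace ℝ E] [FiniteDimensional ℝ E]
  [MeasurableSpace E] [BorelSpace E]

/-- The standard Gaussian pair. -/
abbrev gauss2 (E : Type) [NormedAddCommGroup E] [InnerProductSpace ℝ E] [FiniteDimensional ℝ E]
    [MeasurableSpace E] [BorelSpace E] : Measure (E × E) :=
  (stdGaussian E).prod (stdGaussian E)

theorem integrable_poly {F : Type} [NormedAddCommGroup F] [NormedSpace ℝ F] [CompleteSpace F]
    [SecondCountableTopology F] [MeasurableSpace F] [BorelSpace F] (μ : Measure F) [IsGaussian μ]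
    (C : ℝ) (n : ℕ) : Integrable (fun x : F => C * (1 + ‖x‖) ^ n) μ := by
  have h1 : Integrable (fun x : F => ‖x‖ ^ n) μ :=
    (IsGaussian.memLp_id μ n (by simp)).integrable_norm_pow'
  refine Integrable.const_mul ?_ C
  refine (((integrable_const (1 : ℝ)).add h1).const_mul ((2 : ℝ) ^ (n - 1))).mono' (by fun_prop)
    (Eventually.of_forall fun x => ?_)
  rw [Real.norm_eq_abs, abs_of_nonneg (by positivity)]
  simpa using add_pow_le zero_le_one (norm_nonneg x) n

theorem integrable_of_poly {F G : Type} [NormedAddCommGroup F] [NormedSpace ℝ F] [CompleteSpace F]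
    [SecondCountableTopology F] [MeasurableSpace F] [BorelSpace F] {μ : Measure F} [IsGaussian μ]
    [NormedAddCommGroup G] {f : F → G} (hf : AEStronglyMeasurable f μ) {C : ℝ} {n : ℕ}
    (hb : ∀ x, ‖f x‖ ≤ C * (1 + ‖x‖) ^ n) : Integrable f μ :=
  (integrable_poly μ C n).mono' hf (Eventually.of_forall hb)

theorem Tame.integrable {F G : Type} [NormedAddCommGroup F] [NormedSpace ℝ F] [CompleteSpace F]
    [SecondCountableTopology F] [MeasurableSpace F] [BorelSpace F] {μ : Measure F} [IsGaussian μ]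
    [NormedAddCommGroup G] [NormedSpace ℝ G] [SecondCountableTopology G] {f : F → G} (hf : Tame f) :
    Integrable f μ := by
  obtain ⟨C, n, -, hb⟩ := hf.bound
  exact integrable_of_poly hf.continuous.aestronglyMeasurable fun x => (hb x).1

theorem Tame.memLp_two {f : E → ℝ} (hf : Tame f) : MemLp f 2 (stdGaussian E) := by
  refine (memLp_two_iff_integrable_sq hf.continuous.aestronglyMeasurable).2 ?_
  simpa [sq] using (hf.mul hf).integrable (μ := stdGaussian E)

theorem Tame.integrable_sq_fderiv {f : E → ℝ} (hf : Tame f) :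
    Integrable (fun x => ‖fderiv ℝ f x‖ ^ 2) (stdGaussian E) := by
  obtain ⟨C, n, hC, hb⟩ := hf.bound
  refine integrable_of_poly (C := C ^ 2) (n := 2 * n)
    (hf.continuous_fderiv.norm.pow 2).aestronglyMeasurable fun x => ?_
  rw [Real.norm_eq_abs, abs_of_nonneg (sq_nonneg _)]
  refine (pow_le_pow_left₀ (norm_nonneg _) (hb x).2 2).trans (le_of_eq ?_)
  rw [mul_pow, ← pow_mul, mul_comm n 2]

/-- The covariance of two linear functionals. -/
theorem integral_dual_mul (L : StrongDual ℝ E) (v : E) :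
    ∫ y, ⟪v, y⟫ * L y ∂stdGaussian E = L v := by
  set γ := stdGaussian E with hγ
  have h2 : ∀ M : StrongDual ℝ E, ∫ y, M y ^ 2 ∂γ = ‖M‖ ^ 2 := fun M => by
    rw [← variance_dual_stdGaussian M, variance_of_integral_eq_zero M.continuous.aemeasurable
      (integral_strongDual_stdGaussian M)]
  have hi : ∀ M : StrongDual ℝ E, Integrable (fun y => M y ^ 2) γ := fun M =>
    (IsGaussian.memLp_dual γ M 2 (by simp)).integrable_sq
  set p := (InnerProductSpace.toDual ℝ E).symm L
  have hp : ∀ y, L y = ⟪p, y⟫ := fun y => (InnerProductSpace.toDual_symm_apply (y := L)).symm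
  have e : (fun y => ⟪v, y⟫ * L y) = fun y =>
      ((innerSL ℝ (v + p) : StrongDual ℝ E) y ^ 2 - (innerSL ℝ v : StrongDual ℝ E) y ^ 2
        - (innerSL ℝ p : StrongDual ℝ E) y ^ 2) / 2 := by
    funext y
    simp [hp]
    ring
  have i1 : Integrable (fun y =>
      (innerSL ℝ (v + p) : StrongDual ℝ E) y ^ 2 - (innerSL ℝ v : StrongDual ℝ E) y ^ 2) γ :=
    (hi _).sub (hi _)
  rw [e, integral_div, integral_sub i1 (hi _), integral_sub (hi _) (hi _), h2, h2, h2]
  simp only [innerSL_apply_norm]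
  rw [norm_add_sq_real, hp, real_inner_comm v p]
  ring

/-- Gaussian integration by parts. -/
theorem gauss_parts {h : E → ℝ} (hh : Tame h) (v : E) :
    ∫ x, ⟪v, x⟫ * h x ∂stdGaussian E = ∫ x, fderiv ℝ h x v ∂stdGaussian E := by
  obtain ⟨C, n, hC, hb⟩ := hh.bound
  set μ := gauss2 E
  set X : ℝ → E × E → E := fun θ z => Real.cos θ • z.1 + Real.sin θ • z.2
  set Y : ℝ → E × E → E := fun θ z => -Real.sin θ • z.1 + Real.cos θ • z.2
  set Φ : ℝ → E × E → ℝ := fun θ z => ⟪v, Y θ z⟫ * h (X θ z)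
  set Φ' : ℝ → E × E → ℝ := fun θ z =>
    ⟪v, -X θ z⟫ * h (X θ z) + ⟪v, Y θ z⟫ * fderiv ℝ h (X θ z) (Y θ z)
  have hXn : ∀ θ z, ‖X θ z‖ ≤ 2 * ‖z‖ ∧ ‖Y θ z‖ ≤ 2 * ‖z‖ := by
    intro θ z
    constructor <;> refine (norm_add_le _ _).trans ?_ <;>
      simp only [norm_smul, norm_neg, Real.norm_eq_abs] <;>
      nlinarith [Real.abs_cos_le_one θ, Real.abs_sin_le_one θ, norm_fst_le z, norm_snd_le z,
        norm_nonneg z.1, norm_nonneg z.2, abs_nonneg (Real.cos θ), abs_nonneg (Real.sin θ)]
  set B : E × E → ℝ := fun z => (8 * ‖v‖ * C * 2 ^ n) * (1 + ‖z‖) ^ (n + 2)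
  have hBi : Integrable B μ := integrable_poly μ _ _
  have hbnd : ∀ θ z, ‖Φ θ z‖ ≤ B z ∧ ‖Φ' θ z‖ ≤ B z := by
    intro θ z
    obtain ⟨hX, hY⟩ := hXn θ z
    set A := (1 + ‖z‖) with hA
    have hA1 : 1 ≤ A := by rw [hA]; linarith [norm_nonneg z]
    have hpow : C * (1 + ‖X θ z‖) ^ n ≤ C * 2 ^ n * A ^ n := by
      rw [mul_assoc, ← mul_pow]
      exact mul_le_mul_of_nonneg_left (pow_le_pow_left₀ (by positivity) (by linarith) n)
        (zero_le_one.trans hC)
    have hh1 : ‖h (X θ z)‖ ≤ C * 2 ^ n * A ^ n := (hb _).1.trans hpow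
    have hh2 : ‖fderiv ℝ h (X θ z)‖ ≤ C * 2 ^ n * A ^ n := (hb _).2.trans hpow
    have hvY : ‖⟪v, Y θ z⟫‖ ≤ 2 * ‖v‖ * A := (norm_inner_le_norm _ _).trans (by
      nlinarith [mul_le_mul_of_nonneg_left hY (norm_nonneg v), norm_nonneg v])
    have hvX : ‖⟪v, -X θ z⟫‖ ≤ 2 * ‖v‖ * A := (norm_inner_le_norm _ _).trans (by
      rw [norm_neg]; nlinarith [mul_le_mul_of_nonneg_left hX (norm_nonneg v), norm_nonneg v])
    have hD : ‖fderiv ℝ h (X θ z) (Y θ z)‖ ≤ C * 2 ^ n * A ^ n * (2 * A) :=
      (ContinuousLinearMap.le_opNorm _ _).trans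
        (mul_le_mul hh2 (by linarith) (norm_nonneg _) (by positivity))
    have hQ : 0 ≤ ‖v‖ * C * 2 ^ n * A ^ n * A := by positivity
    have hQA := mul_le_mul_of_nonneg_left hA1 hQ
    have hP : B z = 8 * (‖v‖ * C * 2 ^ n * A ^ n * A * A) := by
      simp only [B, hA, pow_add]; ring
    constructor
    · rw [norm_mul, hP]
      refine (mul_le_mul hvY hh1 (norm_nonneg _) (by positivity)).trans ?_
      nlinarith
    · refine (norm_add_le _ _).trans ?_
      rw [norm_mul, norm_mul, hP]
      have a1 := mul_le_mul hvX hh1 (norm_nonneg _) (by positivity)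
      have a2 := mul_le_mul hvY hD (norm_nonneg _) (by positivity)
      nlinarith
  have hcd := hh.continuous_fderiv
  have hc := hh.continuous
  have hΦc : ∀ θ, Continuous (Φ θ) := fun θ => by simp only [Φ, X, Y]; fun_prop
  have hΦ'c : ∀ θ, Continuous (Φ' θ) := fun θ => by
    simp only [Φ', X, Y]
    exact (by fun_prop : Continuous _).add ((by fun_prop : Continuous _).mul
      ((hcd.comp (by fun_prop)).clm_apply (by fun_prop)))
  have hder : HasDerivAt (fun θ => ∫ z, Φ θ z ∂μ) (∫ z, Φ' 0 z ∂μ) 0 := by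
    refine (hasDerivAt_integral_of_dominated_loc_of_deriv_le (Metric.ball_mem_nhds 0 one_pos)
      (Eventually.of_forall fun θ => (hΦc θ).aestronglyMeasurable)
      (hBi.mono' (hΦc 0).aestronglyMeasurable (Eventually.of_forall fun z => (hbnd 0 z).1))
      (hΦ'c 0).aestronglyMeasurable (Eventually.of_forall fun z θ _ => (hbnd θ z).2) hBi
      (Eventually.of_forall fun z θ _ => ?_)).2
    have hX' : HasDerivAt (fun θ => X θ z) (Y θ z) θ :=
      ((Real.hasDerivAt_cos θ).smul_const z.1).add ((Real.hasDerivAt_sin θ).smul_const z.2)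
    have hY' : HasDerivAt (fun θ => Y θ z) (-X θ z) θ := by
      refine (((Real.hasDerivAt_sin θ).neg.smul_const z.1).add
        ((Real.hasDerivAt_cos θ).smul_const z.2)).congr_deriv ?_
      simp only [X]; module
    have h1 : HasDerivAt (fun θ => ⟪v, Y θ z⟫) ⟪v, -X θ z⟫ θ := by
      simpa using (hasDerivAt_const θ v).inner ℝ hY'
    exact h1.mul ((hh.differentiable _).hasFDerivAt.comp_hasDerivAt θ hX')
  have hconst : ∀ θ, ∫ z, Φ θ z ∂μ = ∫ z, Φ 0 z ∂μ := by
    intro θ
    have hm : ⇑(ContinuousLinearMap.rotation (E := E) θ) = fun z => (X θ z, Y θ z) := by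
      funext z; simp [X, Y, ContinuousLinearMap.rotation_apply]
    have hmap : μ.map (fun z => (X θ z, Y θ z)) = μ := by
      rw [← hm]; exact IsGaussian.map_rotation_eq_self (by simp) θ
    have hfc : Continuous fun p : E × E => ⟪v, p.2⟫ * h p.1 := by fun_prop
    have h := integral_map (μ := μ) (φ := fun z => (X θ z, Y θ z))
      (f := fun p : E × E => ⟪v, p.2⟫ * h p.1) (Continuous.aemeasurable (by simp only [X, Y]; fun_prop))
      hfc.aestronglyMeasurable
    rw [hmap] at h
    simp only [Φ]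
    rw [← h]
    simp [X, Y]
  have h0 : ∫ z, Φ' 0 z ∂μ = 0 :=
    (hder.congr_of_eventuallyEq (f₁ := fun _ => ∫ z, Φ 0 z ∂μ)
      (Eventually.of_forall fun θ => (hconst θ).symm)).unique (hasDerivAt_const 0 _)
  have hi1 : Integrable (fun x => ⟪v, x⟫ * h x) (stdGaussian E) :=
    (((tame_clm (innerSL ℝ v : StrongDual ℝ E)).mul hh).integrable)
  have hA : Integrable (fun z : E × E => ⟪v, -z.1⟫ * h z.1) μ := by
    simpa [inner_neg_right] using (hi1.comp_fst (stdGaussian E)).neg
  have hB2 : Integrable (fun z : E × E => ⟪v, z.2⟫ * fderiv ℝ h z.1 z.2) μ := by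
    have ht : Integrable (fun z => Φ' 0 z) μ :=
      hBi.mono' (hΦ'c 0).aestronglyMeasurable (Eventually.of_forall fun z => (hbnd 0 z).2)
    refine (ht.sub hA).congr (Eventually.of_forall fun z => ?_)
    simp [Φ', X, Y]
  have e : (fun z => Φ' 0 z) = fun z : E × E =>
      ⟪v, -z.1⟫ * h z.1 + ⟪v, z.2⟫ * fderiv ℝ h z.1 z.2 := by
    funext z; simp [Φ', X, Y]
  rw [e, integral_add hA hB2, integral_prod _ hB2] at h0
  simp only [integral_dual_mul, inner_neg_right, neg_mul, integral_neg] at h0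
  rw [integral_fun_fst (fun x => ⟪v, x⟫ * h x)] at h0
  simp only [probReal_univ, one_smul] at h0
  linarith

/-- The mean of `f x • x` is controlled by the deviation of `f`. -/
theorem gauss_bessel {f : E → ℝ} (hf : MemLp f 2 (stdGaussian E)) (v : E) :
    (∫ x, ⟪v, x⟫ * f x ∂stdGaussian E) ^ 2 ≤
      ‖v‖ ^ 2 * ∫ x, (f x - ∫ y, f y ∂stdGaussian E) ^ 2 ∂stdGaussian E := by
  set γ := stdGaussian E with hγ
  set m := ∫ y, f y ∂γ
  set L : StrongDual ℝ E := innerSL ℝ v with hL
  have hLm : MemLp (fun x => L x) 2 γ := IsGaussian.memLp_dual γ L 2 (by simp)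
  have hgm : MemLp (fun x => f x - m) 2 γ := hf.sub (memLp_const m)
  have hL2 : ∫ x, L x ^ 2 ∂γ = ‖v‖ ^ 2 := by
    rw [← variance_of_integral_eq_zero L.continuous.aemeasurable
      (integral_strongDual_stdGaussian L), variance_dual_stdGaussian, hL, innerSL_apply_norm]
  have hLf : Integrable (fun x => L x * f x) γ := hLm.integrable_mul hf
  have hLc : Integrable (fun x => L x * m) γ := (hLm.integrable (by norm_num)).mul_const m
  have hmean : ∫ x, ⟪v, x⟫ * f x ∂γ = ∫ x, L x * (f x - m) ∂γ := by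
    simp only [mul_sub]
    rw [integral_sub hLf hLc, integral_mul_const, integral_strongDual_stdGaussian L]
    simp [hL]
  rw [hmean]
  set S := ∫ x, (f x - m) ^ 2 ∂γ with hS
  set I := ∫ x, L x * (f x - m) ∂γ with hI
  have key : ∀ t : ℝ, 0 ≤ ‖v‖ ^ 2 * (t * t) + (-2 * I) * t + S := by
    intro t
    have h0 : 0 ≤ ∫ x, (t * L x - (f x - m)) ^ 2 ∂γ := integral_nonneg fun x => sq_nonneg _
    have e : (fun x => (t * L x - (f x - m)) ^ 2)
        = fun x => t ^ 2 * L x ^ 2 - 2 * t * (L x * (f x - m)) + (f x - m) ^ 2 := by funext x; ring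
    have i1 : Integrable (fun x => t ^ 2 * L x ^ 2) γ := hLm.integrable_sq.const_mul _
    have i2 : Integrable (fun x => 2 * t * (L x * (f x - m))) γ :=
      (hLm.integrable_mul hgm).const_mul _
    have i3 : Integrable (fun x => t ^ 2 * L x ^ 2 - 2 * t * (L x * (f x - m))) γ := i1.sub i2
    rw [e, integral_add i3 hgm.integrable_sq, integral_sub i1 i2, integral_const_mul,
      integral_const_mul, hL2, ← hI, ← hS] at h0
    linarith
  have := discrim_le_zero key
  rw [discrim] at this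
  linarith

/-- The Ornstein-Uhlenbeck pairing map. -/
def ouMap (r : ℝ) (z : E × E) : E := r • z.1 + √(1 - r ^ 2) • z.2

/-- The partner which completes `ouMap` to an orthogonal map. -/
def ouPartner (r : ℝ) (z : E × E) : E := √(1 - r ^ 2) • z.1 - r • z.2

theorem ouMap_preserving {r : ℝ} (hr : r ∈ Icc (-1 : ℝ) 1) :
    MeasurePreserving (fun z : E × E => (ouMap r z, ouPartner r z)) (gauss2 E) (gauss2 E) := by
  set γ := stdGaussian E with hγ
  have hneg : MeasurePreserving (fun y : E => -y) γ γ :=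
    ⟨measurable_neg, by simpa [hγ] using stdGaussian_map (LinearIsometryEquiv.neg ℝ (E := E))⟩
  set θ := Real.arccos r
  have hcos : Real.cos θ = r := Real.cos_arccos hr.1 hr.2
  have hsin : Real.sin θ = √(1 - r ^ 2) := Real.sin_arccos r
  have hm : MeasurePreserving (⇑(ContinuousLinearMap.rotation (E := E) θ)) (gauss2 E) (gauss2 E) :=
    ⟨(ContinuousLinearMap.rotation θ).continuous.measurable,
      IsGaussian.map_rotation_eq_self (by simp) θ⟩
  have hcomp := ((MeasurePreserving.id γ).prod hneg).comp hm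
  have e : (Prod.map id (fun y : E => -y)) ∘ ⇑(ContinuousLinearMap.rotation (E := E) θ)
      = fun z : E × E => (ouMap r z, ouPartner r z) := by
    funext z
    simp [ContinuousLinearMap.rotation_apply, ouMap, ouPartner, hcos, hsin, sub_eq_add_neg,
      add_comm]
  rwa [e] at hcomp

/-- The correlation of two functions along the pairing. -/
def corr (a b : E → ℝ) (r : ℝ) : ℝ := ∫ z, a z.1 * b (ouMap r z) ∂gauss2 E

/-- The correlation of the gradients. -/
def corrD (a b : E → ℝ) (r : ℝ) : ℝ := ∫ z, fderiv ℝ a z.1 (gradient b (ouMap r z)) ∂gauss2 E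

omit [FiniteDimensional ℝ E] [MeasurableSpace E] [BorelSpace E] in
theorem continuous_ouMap : Continuous fun p : ℝ × (E × E) => ouMap p.1 p.2 := by
  unfold ouMap; fun_prop

omit [FiniteDimensional ℝ E] [MeasurableSpace E] [BorelSpace E] in
theorem norm_ouMap_le {r : ℝ} (hr : r ∈ Icc (-1 : ℝ) 1) (z : E × E) : ‖ouMap r z‖ ≤ 2 * ‖z‖ := by
  refine (norm_add_le _ _).trans ?_
  rw [norm_smul, norm_smul, Real.norm_eq_abs, Real.norm_eq_abs, abs_of_nonneg (Real.sqrt_nonneg _)]
  have h1 : |r| ≤ 1 := abs_le.2 hr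
  have h2 : √(1 - r ^ 2) ≤ 1 := Real.sqrt_le_one.2 (by linarith [sq_nonneg r])
  have a1 := mul_le_mul h1 (norm_fst_le z) (norm_nonneg _) zero_le_one
  have a2 := mul_le_mul h2 (norm_snd_le z) (norm_nonneg _) zero_le_one
  linarith

omit [FiniteDimensional ℝ E] [MeasurableSpace E] [BorelSpace E] in
/-- A bound for the integrands of the correlations. -/
theorem pair_bound {a b : E → ℝ} (ha : Tame a) (hb : Tame b) : ∃ C : ℝ, ∃ n : ℕ, 0 ≤ C ∧
    ∀ r ∈ Icc (-1 : ℝ) 1, ∀ z : E × E,
      |a z.1| * |b (ouMap r z)| ≤ C * (1 + ‖z‖) ^ n ∧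
      |a z.1| * ‖fderiv ℝ b (ouMap r z)‖ ≤ C * (1 + ‖z‖) ^ n ∧
      ‖fderiv ℝ a z.1‖ * ‖fderiv ℝ b (ouMap r z)‖ ≤ C * (1 + ‖z‖) ^ n := by
  obtain ⟨A, n, hA, hab⟩ := ha.bound
  obtain ⟨B, k, hB, hbb⟩ := hb.bound
  refine ⟨A * B * 2 ^ k, n + k, by positivity, fun r hr z => ?_⟩
  have e1 : A * (1 + ‖z.1‖) ^ n ≤ A * (1 + ‖z‖) ^ n :=
    mul_le_mul_of_nonneg_left (pow_le_pow_left₀ (by positivity) (by linarith [norm_fst_le z]) n)
      (zero_le_one.trans hA)
  have e2 : B * (1 + ‖ouMap r z‖) ^ k ≤ B * (2 ^ k * (1 + ‖z‖) ^ k) := by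
    rw [← mul_pow]
    exact mul_le_mul_of_nonneg_left (pow_le_pow_left₀ (by positivity)
      (by linarith [norm_ouMap_le hr z]) k) (zero_le_one.trans hB)
  have e3 : ∀ u v : ℝ, 0 ≤ v → u ≤ A * (1 + ‖z.1‖) ^ n → v ≤ B * (1 + ‖ouMap r z‖) ^ k →
      u * v ≤ A * B * 2 ^ k * (1 + ‖z‖) ^ (n + k) := fun u v hv hu hv' => by
    refine (mul_le_mul (hu.trans e1) (hv'.trans e2) hv (by positivity)).trans (le_of_eq ?_)
    rw [pow_add]; ring
  have ha1 := (hab z.1).1
  have hb1 := (hbb (ouMap r z)).1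
  rw [Real.norm_eq_abs] at ha1 hb1
  exact ⟨e3 _ _ (abs_nonneg _) ha1 hb1, e3 _ _ (norm_nonneg _) ha1 (hbb _).2,
    e3 _ _ (norm_nonneg _) (hab z.1).2 (hbb _).2⟩

omit [MeasurableSpace E] [BorelSpace E] in
theorem continuous_gradient_of {b : E → ℝ} (hb : Tame b) : Continuous (gradient b) :=
  (InnerProductSpace.toDual ℝ E).symm.continuous.comp hb.continuous_fderiv

omit [MeasurableSpace E] [BorelSpace E] in
theorem norm_gradient_eq (b : E → ℝ) (x : E) : ‖gradient b x‖ = ‖fderiv ℝ b x‖ :=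
  (InnerProductSpace.toDual ℝ E).symm.norm_map _

omit [MeasurableSpace E] [BorelSpace E] in
theorem continuous_corrD_integrand {a b : E → ℝ} (ha : Tame a) (hb : Tame b) :
    Continuous fun p : ℝ × (E × E) => fderiv ℝ a p.2.1 (gradient b (ouMap p.1 p.2)) :=
  (ha.continuous_fderiv.comp (by fun_prop)).clm_apply
    ((continuous_gradient_of hb).comp continuous_ouMap)

theorem continuousOn_corr {a b : E → ℝ} (ha : Tame a) (hb : Tame b) :
    ContinuousOn (corr a b) (Icc (-1) 1) ∧ ContinuousOn (corrD a b) (Icc (-1) 1) := by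
  obtain ⟨C, n, -, hbd⟩ := pair_bound ha hb
  have hac := ha.continuous
  have hbc := hb.continuous
  have h1 : Continuous fun p : ℝ × (E × E) => a p.2.1 * b (ouMap p.1 p.2) :=
    (hac.comp (by fun_prop)).mul (hbc.comp continuous_ouMap)
  have h2 := continuous_corrD_integrand ha hb
  constructor
  · refine continuousOn_of_dominated (fun r _ => (h1.comp (Continuous.prodMk_right r)).aestronglyMeasurable)
      (fun r hr => Eventually.of_forall fun z => ?_) (integrable_poly (gauss2 E) C n)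
      (Eventually.of_forall fun z => (h1.comp (Continuous.prodMk_left z)).continuousOn)
    rw [Real.norm_eq_abs, abs_mul]
    exact (hbd r hr z).1
  · refine continuousOn_of_dominated (fun r _ => (h2.comp (Continuous.prodMk_right r)).aestronglyMeasurable)
      (fun r hr => Eventually.of_forall fun z => ?_) (integrable_poly (gauss2 E) C n)
      (Eventually.of_forall fun z => (h2.comp (Continuous.prodMk_left z)).continuousOn)
    refine (ContinuousLinearMap.le_opNorm _ _).trans ?_
    rw [norm_gradient_eq]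
    exact (hbd r hr z).2.2

omit [FiniteDimensional ℝ E] [MeasurableSpace E] [BorelSpace E] in
theorem Tame.comp_affine {a : E → ℝ} (ha : Tame a) (c : E) (s : ℝ) :
    Tame fun y => a (c + s • y) :=
  ha.comp ((tame_const c).add (tame_clm (s • ContinuousLinearMap.id ℝ E)))

/-- The derivative of the correlation in the correlation parameter. -/
theorem hasDerivAt_corr {a b : E → ℝ} (ha : Tame a) (hb : Tame b) {r : ℝ} (hr : r ∈ Ioo (-1 : ℝ) 1) :
    HasDerivAt (corr a b) (corrD a b r) r := by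
  obtain ⟨C, n, hC0, hbd⟩ := pair_bound ha hb
  set μ := gauss2 E
  set s : ℝ → ℝ := fun t => √(1 - t ^ 2)
  set Φ' : ℝ → E × E → ℝ := fun t z =>
    a z.1 * fderiv ℝ b (ouMap t z) (z.1 - (t / s t) • z.2) with hΦ'
  obtain ⟨ρ, hρ, hρ1, hρ2⟩ : ∃ ρ : ℝ, 0 < ρ ∧ -1 + 2 * ρ ≤ r ∧ r ≤ 1 - 2 * ρ :=
    ⟨min (1 + r) (1 - r) / 2, half_pos (lt_min (by linarith [hr.1]) (by linarith [hr.2])),
      by linarith [min_le_left (1 + r) (1 - r)], by linarith [min_le_right (1 + r) (1 - r)]⟩
  have hin : ∀ t ∈ Metric.ball r ρ, t ∈ Ioo (-1 : ℝ) 1 ∧ ρ ≤ 1 - |t| := by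
    intro t ht
    rw [Real.ball_eq_Ioo] at ht
    have : |t| ≤ 1 - ρ := abs_le.2 ⟨by linarith [ht.1], by linarith [ht.2]⟩
    exact ⟨⟨by linarith [ht.1], by linarith [ht.2]⟩, by linarith⟩
  have hspos : ∀ t ∈ Metric.ball r ρ, √ρ ≤ s t := by
    intro t ht
    refine Real.sqrt_le_sqrt ?_
    have := hin t ht
    nlinarith [sq_abs t, abs_nonneg t]
  set B : E × E → ℝ := fun z => C * (1 + 1 / √ρ) * (1 + ‖z‖) ^ (n + 1)
  have hBi : Integrable B μ := integrable_poly μ _ _
  have hac := ha.continuous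
  have hbc := hb.continuous
  have hΦc : ∀ t, Continuous fun z : E × E => a z.1 * b (ouMap t z) := fun t =>
    (hac.comp (by fun_prop)).mul (hbc.comp (by unfold ouMap; fun_prop))
  have hΦ'c : ∀ t, Continuous (Φ' t) := fun t =>
    (hac.comp (by fun_prop)).mul ((hb.continuous_fderiv.comp (by unfold ouMap; fun_prop)).clm_apply
      (by fun_prop))
  have hb2 : ∀ t ∈ Metric.ball r ρ, ∀ z, ‖Φ' t z‖ ≤ B z := by
    intro t ht z
    have htI : t ∈ Icc (-1 : ℝ) 1 := Ioo_subset_Icc_self (hin t ht).1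
    have hs := hspos t ht
    have hρs : 0 < √ρ := Real.sqrt_pos.2 hρ
    have hn : ‖z.1 - (t / s t) • z.2‖ ≤ (1 + 1 / √ρ) * (1 + ‖z‖) := by
      refine (norm_sub_le _ _).trans ?_
      rw [norm_smul, Real.norm_eq_abs, abs_div, abs_of_pos (hρs.trans_le hs)]
      have h1 : |t| / s t ≤ 1 / √ρ :=
        div_le_div₀ zero_le_one (abs_le.2 htI) hρs hs
      have h2 := mul_le_mul h1 (norm_snd_le z) (norm_nonneg _) (by positivity)
      linarith [norm_fst_le z, show 0 ≤ 1 / √ρ by positivity]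
    simp only [hΦ', norm_mul]
    refine (mul_le_mul_of_nonneg_left ((ContinuousLinearMap.le_opNorm _ _).trans
      (mul_le_mul_of_nonneg_left hn (norm_nonneg _))) (norm_nonneg _)).trans ?_
    rw [← mul_assoc, Real.norm_eq_abs]
    refine (mul_le_mul_of_nonneg_right (hbd t htI z).2.1 (by positivity)).trans (le_of_eq ?_)
    simp only [B, pow_succ]; ring
  have hF0 : Integrable (fun z : E × E => a z.1 * b (ouMap r z)) μ :=
    (integrable_poly μ C n).mono' (hΦc r).aestronglyMeasurable (Eventually.of_forall fun z => by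
      rw [Real.norm_eq_abs, abs_mul]; exact (hbd r (Ioo_subset_Icc_self hr) z).1)
  have hder := (hasDerivAt_integral_of_dominated_loc_of_deriv_le (μ := μ)
    (F := fun t z => a z.1 * b (ouMap t z)) (F' := Φ') (Metric.ball_mem_nhds r hρ)
    (Eventually.of_forall fun t => (hΦc t).aestronglyMeasurable) hF0 (hΦ'c r).aestronglyMeasurable
    (Eventually.of_forall fun z t ht => hb2 t ht z) hBi
    (Eventually.of_forall fun z t ht => by
      have hpos : 0 < 1 - t ^ 2 := by
        have := (hin t ht).1; nlinarith [this.1, this.2]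
      have h1 : HasDerivAt (fun u => 1 - u ^ 2) (-(2 * t)) t := by
        simpa using (hasDerivAt_pow 2 t).const_sub 1
      have h2 : HasDerivAt (fun u => ouMap u z) (z.1 - (t / s t) • z.2) t := by
        have h3 := ((hasDerivAt_id t).smul_const z.1).add ((h1.sqrt hpos.ne').smul_const z.2)
        refine h3.congr_deriv ?_
        rw [one_smul, sub_eq_add_neg z.1, ← neg_smul]
        congr 2
        simp only [s]
        ring
      exact ((hb.differentiable _).hasFDerivAt.comp_hasDerivAt t h2).const_mul (a z.1))).2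
  refine hder.congr_deriv ?_
  have hrI : r ∈ Icc (-1 : ℝ) 1 := Ioo_subset_Icc_self hr
  have hsr : 0 < s r := Real.sqrt_pos.2 (by nlinarith [hr.1, hr.2])
  have hs2 : s r * s r = 1 - r ^ 2 := Real.mul_self_sqrt (by nlinarith [hr.1, hr.2])
  set T : E × E → E × E := fun z => (ouMap r z, ouPartner r z)
  have hT := ouMap_preserving (E := E) hrI
  set Ψ : E × E → ℝ := fun p =>
    (s r)⁻¹ * (a (r • p.1 + s r • p.2) * fderiv ℝ b p.1 p.2)
  have hΨc : Continuous Ψ := by
    refine continuous_const.mul ((hac.comp (by fun_prop)).mul ?_)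
    exact (hb.continuous_fderiv.comp continuous_fst).clm_apply continuous_snd
  have hback : ∀ z, r • (T z).1 + s r • (T z).2 = z.1 := fun z => by
    simp only [T, ouMap, ouPartner, smul_add, smul_sub, smul_smul]
    rw [show √(1 - r ^ 2) = s r from rfl, hs2]
    module
  have hpt : ∀ z, Φ' r z = Ψ (T z) := by
    intro z
    have hb2 : z.1 - (r / s r) • z.2 = (s r)⁻¹ • (T z).2 := by
      simp only [T, ouPartner, smul_sub, smul_smul]
      rw [show √(1 - r ^ 2) = s r from rfl, inv_mul_cancel₀ hsr.ne', one_smul, div_eq_inv_mul]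
    simp only [Ψ, hback, hΦ', hb2, map_smul, smul_eq_mul]
    simp only [T]
    ring
  have hΨi : Integrable Ψ μ := by
    refine (hT.integrable_comp hΨc.aestronglyMeasurable).1 ?_
    refine (hBi.mono' (hΦ'c r).aestronglyMeasurable
      (Eventually.of_forall fun z => hb2 r (Metric.mem_ball_self hρ) z)).congr ?_
    exact Eventually.of_forall hpt
  have e1 : ∫ z, Φ' r z ∂μ = ∫ p, Ψ p ∂μ := by
    have h := integral_map (μ := μ) (φ := T) hT.measurable.aemeasurable
      hΨc.aestronglyMeasurable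
    rw [hT.map_eq] at h
    rw [h]
    exact integral_congr_ae (Eventually.of_forall hpt)
  have hin2 : ∀ X : E, ∫ Z, Ψ (X, Z) ∂stdGaussian E
      = ∫ Z, fderiv ℝ a (r • X + s r • Z) (gradient b X) ∂stdGaussian E := by
    intro X
    have hp := gauss_parts (ha.comp_affine (r • X) (s r)) (gradient b X)
    have hd : ∀ Z, fderiv ℝ (fun y => a (r • X + s r • y)) Z (gradient b X)
        = s r * fderiv ℝ a (r • X + s r • Z) (gradient b X) := fun Z => by
      have h1 : HasFDerivAt (fun y : E => r • X + s r • y) (s r • ContinuousLinearMap.id ℝ E) Z :=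
        ((hasFDerivAt_id Z).const_smul (s r)).const_add _
      have h2 : HasFDerivAt (fun y => a (r • X + s r • y))
          ((fderiv ℝ a (r • X + s r • Z)).comp (s r • ContinuousLinearMap.id ℝ E)) Z :=
        (ha.differentiable _).hasFDerivAt.comp Z h1
      rw [h2.fderiv]
      simp
    simp only [hd, integral_const_mul, inner_gradient_left] at hp
    simp only [Ψ, integral_const_mul]
    rw [show (fun Z => a (r • X + s r • Z) * fderiv ℝ b X Z)
      = fun Z => fderiv ℝ b X Z * a (r • X + s r • Z) from funext fun Z => mul_comm _ _, hp]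
    field_simp
  rw [e1, integral_prod _ hΨi]
  simp only [hin2]
  set Υ : E × E → ℝ := fun p => fderiv ℝ a (r • p.1 + s r • p.2) (gradient b p.1)
  have hΥc : Continuous Υ :=
    (ha.continuous_fderiv.comp (by fun_prop)).clm_apply ((continuous_gradient_of hb).comp
      continuous_fst)
  have hΥT : ∀ z, Υ (T z) = fderiv ℝ a z.1 (gradient b (ouMap r z)) := fun z => by
    simp only [Υ, hback]; rfl
  have hΥi : Integrable Υ μ := by
    refine (hT.integrable_comp hΥc.aestronglyMeasurable).1 ?_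
    refine ((integrable_poly μ C n).mono'
      ((continuous_corrD_integrand ha hb).comp (Continuous.prodMk_right r)).aestronglyMeasurable
      (Eventually.of_forall fun z => ?_)).congr (Eventually.of_forall fun z => (hΥT z).symm)
    refine (ContinuousLinearMap.le_opNorm _ _).trans ?_
    rw [norm_gradient_eq]
    exact (hbd r hrI z).2.2
  rw [← integral_prod _ hΥi]
  have h := integral_map (μ := μ) (φ := T) hT.measurable.aemeasurable hΥc.aestronglyMeasurable
  rw [hT.map_eq] at h
  rw [h]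
  exact integral_congr_ae (Eventually.of_forall hΥT)

theorem corr_one (a b : E → ℝ) : corr a b 1 = ∫ x, a x * b x ∂stdGaussian E := by
  simp [corr, ouMap, integral_fun_fst (fun x => a x * b x)]

theorem corr_zero (a b : E → ℝ) :
    corr a b 0 = (∫ x, a x ∂stdGaussian E) * ∫ x, b x ∂stdGaussian E := by
  simp [corr, ouMap, integral_prod_mul]

/-- The fundamental theorem along the pairing. -/
theorem corr_sub {a b : E → ℝ} (ha : Tame a) (hb : Tame b) {p q : ℝ} (hp : -1 ≤ p) (hpq : p ≤ q)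
    (hq : q ≤ 1) : corr a b q - corr a b p = ∫ r in p..q, corrD a b r := by
  obtain ⟨h1, h2⟩ := continuousOn_corr ha hb
  refine (intervalIntegral.integral_eq_sub_of_hasDerivAt_of_le hpq
    (h1.mono (Icc_subset_Icc hp hq))
    (fun r hr => hasDerivAt_corr ha hb ⟨by linarith [hr.1], by linarith [hr.2]⟩) ?_).symm
  exact (h2.mono (Icc_subset_Icc hp hq)).intervalIntegrable_of_Icc hpq

/-- The covariance identity. -/
theorem gauss_covariance {a b : E → ℝ} (ha : Tame a) (hb : Tame b) :
    ∫ x, a x * b x ∂stdGaussian E - (∫ x, a x ∂stdGaussian E) * ∫ x, b x ∂stdGaussian E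
      = ∫ r in (0 : ℝ)..1, corrD a b r := by
  rw [← corr_sub ha hb (by norm_num) zero_le_one le_rfl, corr_one, corr_zero]

/-- Gradient correlations against the L2 norms of the gradients. -/
theorem abs_corrD_le {a b : E → ℝ} (ha : Tame a) (hb : Tame b) {r : ℝ} (hr : r ∈ Icc (-1 : ℝ) 1)
    {t : ℝ} (ht : 0 < t) :
    |corrD a b r| ≤ t / 2 * ∫ x, ‖fderiv ℝ a x‖ ^ 2 ∂stdGaussian E
      + 1 / (2 * t) * ∫ x, ‖fderiv ℝ b x‖ ^ 2 ∂stdGaussian E := by
  have hA := ha.integrable_sq_fderiv
  have hB := hb.integrable_sq_fderiv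
  have hA' : Integrable (fun z : E × E => t / 2 * ‖fderiv ℝ a z.1‖ ^ 2) (gauss2 E) :=
    (hA.comp_fst (stdGaussian E)).const_mul _
  have hmp : MeasurePreserving (fun z : E × E => ouMap r z) (gauss2 E) (stdGaussian E) :=
    measurePreserving_fst.comp (ouMap_preserving hr)
  have hB' : Integrable (fun z : E × E => 1 / (2 * t) * ‖fderiv ℝ b (ouMap r z)‖ ^ 2) (gauss2 E) :=
    ((hmp.integrable_comp hB.aestronglyMeasurable).2 hB).const_mul _
  refine abs_integral_le_integral_abs.trans ((integral_mono_of_nonneg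
    (Eventually.of_forall fun _ => abs_nonneg _) (hA'.add hB')
    (Eventually.of_forall fun z => ?_)).trans (le_of_eq ?_))
  · simp only [Pi.add_apply]
    rw [← Real.norm_eq_abs]
    refine (ContinuousLinearMap.le_opNorm _ _).trans ?_
    rw [norm_gradient_eq]
    have h := two_mul_le_add_sq (t * ‖fderiv ℝ a z.1‖) ‖fderiv ℝ b (ouMap r z)‖
    have he : t / 2 * ‖fderiv ℝ a z.1‖ ^ 2 + 1 / (2 * t) * ‖fderiv ℝ b (ouMap r z)‖ ^ 2
        = ((t * ‖fderiv ℝ a z.1‖) ^ 2 + ‖fderiv ℝ b (ouMap r z)‖ ^ 2) / (2 * t) := by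
      field_simp
    rw [he, le_div_iff₀ (by positivity)]
    linarith
  · simp only [Pi.add_apply]
    rw [integral_add hA' hB', integral_const_mul, integral_const_mul,
      integral_fun_fst (fun x => ‖fderiv ℝ a x‖ ^ 2)]
    congr 2
    · simp
    · have h := integral_map (μ := gauss2 E) hmp.measurable.aemeasurable
        (f := fun x => ‖fderiv ℝ b x‖ ^ 2) (hmp.map_eq.symm ▸ hB.aestronglyMeasurable)
      rw [hmp.map_eq] at h
      exact h.symm

end Gaussian

end

end P347
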