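import Vale.Agent.P347.Quarter.Defs
import Vale.Agent.P347.Quarter.Tame

/-!
# P347: covariance bounds for vector functions of a Gaussian vector
-/

open MeasureTheory ProbabilityTheory Set Filter Topology
open scoped RealInnerProductSpace Gradient

namespace P347.Quarter

noncomputable section

variable {E : Type} [NormedAddCommGroup E] [InnerProductSpace ℝ E] [FiniteDimensional ℝ E]
  [MeasurableSpace E] [BorelSpace E] {d : ℕ}


/-- Gaussian integration by parts for a vector field. -/
theorem gauss_ibp {ι : Type} [Fintype ι] (b : OrthonormalBasis ι ℝ E) {F : E → E} (hF : Tame F) :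
    ∫ x, ⟪x, F x⟫ ∂stdGaussian E = ∫ x, ∑ i, ⟪b i, fderiv ℝ F x (b i)⟫ ∂stdGaussian E := by
  set γ := stdGaussian E with hγ
  have hi : ∀ i, Tame fun x => ⟪b i, F x⟫ := fun i => hF.clm_comp (innerSL ℝ (b i))
  have hd : ∀ i x, fderiv ℝ (fun x => ⟪b i, F x⟫) x (b i) = ⟪b i, fderiv ℝ F x (b i)⟫ := fun i x => by
    have h : HasFDerivAt (fun x => ⟪b i, F x⟫) ((innerSL ℝ (b i)).comp (fderiv ℝ F x)) x :=
      (innerSL ℝ (b i)).hasFDerivAt.comp x (hF.differentiable x).hasFDerivAt
    rw [h.fderiv]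
    rfl
  have h1 : ∀ i, Integrable (fun x => ⟪b i, x⟫ * ⟪b i, F x⟫) γ := fun i =>
    ((tame_clm (innerSL ℝ (b i) : StrongDual ℝ E)).mul (hi i)).integrable
  have h2 : ∀ i, Integrable (fun x => ⟪b i, fderiv ℝ F x (b i)⟫) γ := fun i => by
    obtain ⟨C, n, hC, hb⟩ := hF.bound
    refine integrable_of_poly (C := C) (n := n)
      ((continuous_const.inner (hF.continuous_fderiv.clm_apply continuous_const)).aestronglyMeasurable)
      fun x => ?_
    refine (norm_inner_le_norm _ _).trans ?_
    rw [b.norm_eq_one, one_mul]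
    exact ((fderiv ℝ F x).le_opNorm _).trans (by rw [b.norm_eq_one, mul_one]; exact (hb x).2)
  have e : ∀ x, ⟪x, F x⟫ = ∑ i, ⟪b i, x⟫ * ⟪b i, F x⟫ := fun x => by
    rw [← b.sum_inner_mul_inner x (F x)]
    exact Finset.sum_congr rfl fun i _ => by rw [real_inner_comm x]
  simp only [e]
  rw [integral_finsetSum _ fun i _ => h1 i, integral_finsetSum _ fun i _ => h2 i]
  refine Finset.sum_congr rfl fun i _ => ?_
  rw [gauss_parts (hi i) (b i)]
  simp only [hd]
  rfl

/-- A scalar covariance against a Lipschitz function. -/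
theorem cov_scalar {f k : E → ℝ} (hf : ContDiff ℝ 1 f) {L : ℝ} (hL : ∀ x, ‖fderiv ℝ f x‖ ≤ L)
    (hk : Tame k) :
    |∫ x, f x * k x ∂stdGaussian E - (∫ x, f x ∂stdGaussian E) * ∫ x, k x ∂stdGaussian E| ≤
      L * ∫ x, ‖fderiv ℝ k x‖ ∂stdGaussian E := by
  have hft := tame_of_lip hf hL
  have hL0 : 0 ≤ L := le_trans (norm_nonneg _) (hL 0)
  have hki : Integrable (fun x => ‖fderiv ℝ k x‖) (stdGaussian E) := by
    obtain ⟨C, n, hC, hb⟩ := hk.bound
    exact integrable_of_poly (C := C) (n := n) hk.continuous_fderiv.norm.aestronglyMeasurable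
      fun x => by rw [norm_norm]; exact (hb x).2
  rw [gauss_covariance hft hk]
  have hb : ∀ r ∈ Set.uIoc (0 : ℝ) 1, ‖corrD f k r‖ ≤ L * ∫ x, ‖fderiv ℝ k x‖ ∂stdGaussian E := by
    intro r hr
    rw [uIoc_of_le zero_le_one] at hr
    have hrI : r ∈ Icc (-1 : ℝ) 1 := ⟨by linarith [hr.1], hr.2⟩
    have hmp : MeasurePreserving (fun z : E × E => ouMap r z) (gauss2 E) (stdGaussian E) :=
      measurePreserving_fst.comp (ouMap_preserving hrI)
    have hint : Integrable (fun z : E × E => L * ‖fderiv ℝ k (ouMap r z)‖) (gauss2 E) :=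
      ((hmp.integrable_comp hki.aestronglyMeasurable).2 hki).const_mul L
    refine (norm_integral_le_integral_norm _).trans ((integral_mono_of_nonneg
      (Eventually.of_forall fun _ => norm_nonneg _) hint (Eventually.of_forall fun z => ?_)).trans
        (le_of_eq ?_))
    · refine (ContinuousLinearMap.le_opNorm _ _).trans ?_
      rw [norm_gradient_eq]
      exact mul_le_mul_of_nonneg_right (hL _) (norm_nonneg _)
    · have h := integral_map (μ := gauss2 E) hmp.measurable.aemeasurable
        (f := fun x => ‖fderiv ℝ k x‖) (hmp.map_eq.symm ▸ hki.aestronglyMeasurable)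
      rw [hmp.map_eq] at h
      rw [integral_const_mul, h]
  have h := intervalIntegral.norm_integral_le_of_norm_le_const hb
  simpa using h

omit [MeasurableSpace E] [BorelSpace E] in
/-- The pairing of the derivatives of two vector functions, row by row. -/
theorem sum_rows_eq_fdot {a b : Space d → Space d} (ha : Differentiable ℝ a)
    (hb : Differentiable ℝ b) (x y : Space d) :
    ∑ i, fderiv ℝ (fun z => ⟪EuclideanSpace.basisFun (Fin d) ℝ i, a z⟫) x
        (gradient (fun z => ⟪EuclideanSpace.basisFun (Fin d) ℝ i, b z⟫) y)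
      = fdot (fderiv ℝ a x) (fderiv ℝ b y) := by
  set e := EuclideanSpace.basisFun (Fin d) ℝ
  have hd : ∀ (c : Space d → Space d), Differentiable ℝ c → ∀ i z v,
      fderiv ℝ (fun z => ⟪e i, c z⟫) z v = ⟪e i, fderiv ℝ c z v⟫ := fun c hc i z v => by
    have h : HasFDerivAt (fun z => ⟪e i, c z⟫) ((innerSL ℝ (e i)).comp (fderiv ℝ c z)) z :=
      (innerSL ℝ (e i)).hasFDerivAt.comp z (hc z).hasFDerivAt
    rw [h.fderiv]
    rfl
  have hg : ∀ i, gradient (fun z => ⟪e i, b z⟫) y = ∑ j, ⟪e i, fderiv ℝ b y (e j)⟫ • e j := by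
    intro i
    conv_lhs => rw [← e.sum_repr' (gradient (fun z => ⟪e i, b z⟫) y)]
    refine Finset.sum_congr rfl fun j _ => ?_
    rw [real_inner_comm, inner_gradient_left, hd b hb]
  simp only [hg, hd a ha, map_sum, map_smul, inner_sum, inner_smul_right, fdot]
  rw [Finset.sum_comm]
  refine Finset.sum_congr rfl fun j _ => ?_
  rw [← e.sum_inner_mul_inner (fderiv ℝ a x (e j)) (fderiv ℝ b y (e j))]
  exact Finset.sum_congr rfl fun i _ => by rw [real_inner_comm (e i) (fderiv ℝ a x (e j))]; ring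

/-- The correlation of two vector fields along the pairing. -/
def corrV (a b : Space d → Space d) (r : ℝ) : ℝ :=
  ∫ z, ⟪a z.1, b (ouMap r z)⟫ ∂gauss2 (Space d)

/-- The correlation of the derivatives of two vector fields. -/
def corrDV (a b : Space d → Space d) (r : ℝ) : ℝ :=
  ∫ z, fdot (fderiv ℝ a z.1) (fderiv ℝ b (ouMap r z)) ∂gauss2 (Space d)

theorem corrV_eq_sum {a b : Space d → Space d} (ha : Tame a) (hb : Tame b) {r : ℝ}
    (hr : r ∈ Icc (-1 : ℝ) 1) :
    corrV a b r = ∑ i, corr (fun z => ⟪EuclideanSpace.basisFun (Fin d) ℝ i, a z⟫)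
      (fun z => ⟪EuclideanSpace.basisFun (Fin d) ℝ i, b z⟫) r ∧
    corrDV a b r = ∑ i, corrD (fun z => ⟪EuclideanSpace.basisFun (Fin d) ℝ i, a z⟫)
      (fun z => ⟪EuclideanSpace.basisFun (Fin d) ℝ i, b z⟫) r := by
  set e := EuclideanSpace.basisFun (Fin d) ℝ
  have hta : ∀ i, Tame fun z => ⟪e i, a z⟫ := fun i => ha.clm_comp (innerSL ℝ (e i))
  have htb : ∀ i, Tame fun z => ⟪e i, b z⟫ := fun i => hb.clm_comp (innerSL ℝ (e i))
  constructor
  · have hint : ∀ i, Integrable (fun z : Space d × Space d => ⟪e i, a z.1⟫ * ⟪e i, b (ouMap r z)⟫)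
        (gauss2 (Space d)) := fun i => by
      obtain ⟨C, n, -, hbd⟩ := pair_bound (hta i) (htb i)
      refine integrable_of_poly (C := C) (n := n)
        (((hta i).continuous.comp continuous_fst).mul
          ((htb i).continuous.comp (continuous_ouMap.comp (Continuous.prodMk_right r)))).aestronglyMeasurable
        fun z => ?_
      rw [Real.norm_eq_abs, abs_mul]
      exact (hbd r hr z).1
    simp only [corrV, corr]
    rw [← integral_finsetSum _ fun i _ => hint i]
    refine integral_congr_ae (Eventually.of_forall fun z => ?_)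
    simp only
    rw [← e.sum_inner_mul_inner (a z.1) (b (ouMap r z))]
    exact Finset.sum_congr rfl fun i _ => by rw [real_inner_comm (a z.1)]
  · have hint : ∀ i, Integrable (fun z : Space d × Space d =>
        fderiv ℝ (fun y => ⟪e i, a y⟫) z.1 (gradient (fun y => ⟪e i, b y⟫) (ouMap r z)))
        (gauss2 (Space d)) := fun i => by
      obtain ⟨C, n, -, hbd⟩ := pair_bound (hta i) (htb i)
      refine integrable_of_poly (C := C) (n := n)
        ((continuous_corrD_integrand (hta i) (htb i)).comp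
          (Continuous.prodMk_right r)).aestronglyMeasurable fun z => ?_
      refine (ContinuousLinearMap.le_opNorm _ _).trans ?_
      rw [norm_gradient_eq]
      exact (hbd r hr z).2.2
    simp only [corrDV, corrD]
    rw [← integral_finsetSum _ fun i _ => hint i]
    exact integral_congr_ae (Eventually.of_forall fun z =>
      (sum_rows_eq_fdot ha.differentiable hb.differentiable _ _).symm)

/-- The derivative of the correlation of two vector fields. -/
theorem hasDerivAt_corrV {a b : Space d → Space d} (ha : Tame a) (hb : Tame b) {r : ℝ}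
    (hr : r ∈ Ioo (-1 : ℝ) 1) : HasDerivAt (corrV a b) (corrDV a b r) r := by
  set e := EuclideanSpace.basisFun (Fin d) ℝ
  have h := HasDerivAt.fun_sum (u := Finset.univ) fun i (_ : i ∈ Finset.univ) =>
    hasDerivAt_corr (ha.clm_comp (innerSL ℝ (e i))) (hb.clm_comp (innerSL ℝ (e i))) hr
  rw [(corrV_eq_sum ha hb (Ioo_subset_Icc_self hr)).2]
  refine h.congr_of_eventuallyEq ?_
  filter_upwards [Ioo_mem_nhds hr.1 hr.2] with t ht
  exact (corrV_eq_sum ha hb (Ioo_subset_Icc_self ht)).1

theorem continuousOn_corrV {a b : Space d → Space d} (ha : Tame a) (hb : Tame b) :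
    ContinuousOn (corrV a b) (Icc (-1) 1) ∧ ContinuousOn (corrDV a b) (Icc (-1) 1) := by
  set e := EuclideanSpace.basisFun (Fin d) ℝ
  have h := fun i => continuousOn_corr (ha.clm_comp (innerSL ℝ (e i))) (hb.clm_comp (innerSL ℝ (e i)))
  exact ⟨(continuousOn_finsetSum Finset.univ fun i _ => (h i).1).congr
      fun t ht => (corrV_eq_sum ha hb ht).1,
    (continuousOn_finsetSum Finset.univ fun i _ => (h i).2).congr
      fun t ht => (corrV_eq_sum ha hb ht).2⟩

/-- The covariance identity for vector fields. -/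
theorem cov_vector {a b : Space d → Space d} (ha : Tame a) (hb : Tame b) :
    ∫ x, ⟪a x, b x⟫ ∂stdGaussian (Space d)
        - ⟪∫ x, a x ∂stdGaussian (Space d), ∫ x, b x ∂stdGaussian (Space d)⟫
      = ∫ r in (0 : ℝ)..1, corrDV a b r := by
  have hF := intervalIntegral.integral_eq_sub_of_hasDerivAt_of_le (a := (0 : ℝ)) (b := 1) zero_le_one
    ((continuousOn_corrV ha hb).1.mono (Icc_subset_Icc (by norm_num) le_rfl))
    (fun r hr => hasDerivAt_corrV ha hb ⟨by linarith [hr.1], hr.2⟩)
    (((continuousOn_corrV ha hb).2.mono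
      (Icc_subset_Icc (by norm_num) le_rfl)).intervalIntegrable_of_Icc zero_le_one)
  rw [hF]
  set γ := stdGaussian (Space d) with hγ
  have h1 : corrV a b 1 = ∫ x, ⟪a x, b x⟫ ∂γ := by
    simp [corrV, ouMap, hγ, integral_fun_fst (fun x => ⟪a x, b x⟫)]
  have hai : Integrable a γ := ha.integrable
  have hbi : Integrable b γ := hb.integrable
  have h0 : corrV a b 0 = ⟪∫ x, a x ∂γ, ∫ x, b x ∂γ⟫ := by
    have hi : Integrable (fun z : Space d × Space d => ⟪a z.1, b z.2⟫) (gauss2 (Space d)) := by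
      refine (hai.norm.mul_prod hbi.norm).mono'
        ((ha.continuous.comp continuous_fst).inner
          (hb.continuous.comp continuous_snd)).aestronglyMeasurable
        (Eventually.of_forall fun z => norm_inner_le_norm _ _)
    simp only [corrV, ouMap, zero_smul, zero_add, ne_eq, OfNat.ofNat_ne_zero, not_false_eq_true,
      zero_pow, sub_zero, Real.sqrt_one, one_smul]
    rw [integral_prod _ hi]
    simp only [integral_inner hbi, ← hγ]
    simp only [fun x => real_inner_comm (∫ y, b y ∂γ) (a x)]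
    rw [integral_inner hai, real_inner_comm]
  rw [h1, h0]

/-- A bilinear covariance of two Lipschitz maps through a matrix. -/
theorem cov_bil {h k : E → Space d} (hh : ContDiff ℝ 1 h) (hk : ContDiff ℝ 1 k) {Lh Lk : ℝ}
    (hLh : ∀ x, ‖fderiv ℝ h x‖ ≤ Lh) (hLk : ∀ x, ‖fderiv ℝ k x‖ ≤ Lk)
    (A : Space d →L[ℝ] Space d) :
    |∫ x, ⟪h x, A (k x)⟫ ∂stdGaussian E
        - ⟪∫ x, h x ∂stdGaussian E, A (∫ x, k x ∂stdGaussian E)⟫| ≤
      frob A * √d * Lh * Lk := by
  set e := EuclideanSpace.basisFun (Fin d) ℝ with he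
  set γ := stdGaussian E with hγ
  have hh' := tame_of_lip hh hLh
  have hk' := tame_of_lip hk hLk
  have hAk : Tame fun x => A (k x) := hk'.clm_comp A
  have hti : ∀ i, Tame fun x => ⟪e i, h x⟫ := fun i => hh'.clm_comp (innerSL ℝ (e i))
  have htk : ∀ i, Tame fun x => ⟪e i, A (k x)⟫ := fun i => hAk.clm_comp (innerSL ℝ (e i))
  have hhi : Integrable h γ := hh'.integrable
  have hki : Integrable k γ := hk'.integrable
  have hprod : ∀ i, Integrable (fun x => ⟪e i, h x⟫ * ⟪e i, A (k x)⟫) γ := fun i =>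
    ((hti i).mul (htk i)).integrable
  have hsplit : ∫ x, ⟪h x, A (k x)⟫ ∂γ - ⟪∫ x, h x ∂γ, A (∫ x, k x ∂γ)⟫
      = ∑ i, ∫ r in (0 : ℝ)..1, corrD (fun x => ⟪e i, h x⟫) (fun x => ⟪e i, A (k x)⟫) r := by
    have e1 : ∀ x, ⟪h x, A (k x)⟫ = ∑ i, ⟪e i, h x⟫ * ⟪e i, A (k x)⟫ := fun x => by
      rw [← e.sum_inner_mul_inner (h x) (A (k x))]
      exact Finset.sum_congr rfl fun i _ => by rw [real_inner_comm (h x)]
    have e2 : ⟪∫ x, h x ∂γ, A (∫ x, k x ∂γ)⟫
        = ∑ i, (∫ x, ⟪e i, h x⟫ ∂γ) * ∫ x, ⟪e i, A (k x)⟫ ∂γ := by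
      rw [← ContinuousLinearMap.integral_comp_comm A hki,
        ← e.sum_inner_mul_inner (∫ x, h x ∂γ) (∫ x, A (k x) ∂γ)]
      refine Finset.sum_congr rfl fun i _ => ?_
      rw [integral_inner hhi, integral_inner (A.integrable_comp hki), real_inner_comm]
    simp only [e1]
    rw [integral_finsetSum _ fun i _ => hprod i, e2, ← Finset.sum_sub_distrib]
    exact Finset.sum_congr rfl fun i _ => gauss_covariance (hti i) (htk i)
  have hint : ∀ i, IntervalIntegrable
      (fun r => corrD (fun x => ⟪e i, h x⟫) (fun x => ⟪e i, A (k x)⟫) r) volume 0 1 := fun i =>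
    ((continuousOn_corr (hti i) (htk i)).2.mono
      (Icc_subset_Icc (by norm_num) le_rfl)).intervalIntegrable_of_Icc zero_le_one
  rw [hsplit, ← intervalIntegral.integral_finsetSum fun i _ => hint i]
  have hLh0 : 0 ≤ Lh := le_trans (norm_nonneg _) (hLh 0)
  have hLk0 : 0 ≤ Lk := le_trans (norm_nonneg _) (hLk 0)
  set B := frob A * √d * Lh * Lk with hB
  have hpt : ∀ r ∈ Set.uIoc (0 : ℝ) 1,
      ‖∑ i, corrD (fun x => ⟪e i, h x⟫) (fun x => ⟪e i, A (k x)⟫) r‖ ≤ B := by
    intro r hr
    rw [uIoc_of_le zero_le_one] at hr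
    have hrI : r ∈ Icc (-1 : ℝ) 1 := ⟨by linarith [hr.1], hr.2⟩
    have hci : ∀ i, Integrable (fun z : E × E =>
        fderiv ℝ (fun x => ⟪e i, h x⟫) z.1 (gradient (fun x => ⟪e i, A (k x)⟫) (ouMap r z)))
        (gauss2 E) := fun i => by
      obtain ⟨C, n, -, hbd⟩ := pair_bound (hti i) (htk i)
      refine integrable_of_poly (C := C) (n := n)
        ((continuous_corrD_integrand (hti i) (htk i)).comp
          (Continuous.prodMk_right r)).aestronglyMeasurable fun z => ?_
      refine (ContinuousLinearMap.le_opNorm _ _).trans ?_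
      rw [norm_gradient_eq]
      exact (hbd r hrI z).2.2
    simp only [corrD]
    rw [← integral_finsetSum _ fun i _ => hci i]
    refine (norm_integral_le_of_norm_le_const (C := B) (Eventually.of_forall fun z => ?_)).trans
      (le_of_eq (by simp))
    set P := (fderiv ℝ h z.1).comp
      (ContinuousLinearMap.adjoint (fderiv ℝ k (ouMap r z))) with hP
    have hrow : ∀ i, fderiv ℝ (fun x => ⟪e i, h x⟫) z.1
        (gradient (fun x => ⟪e i, A (k x)⟫) (ouMap r z))
          = ⟪e i, P (ContinuousLinearMap.adjoint A (e i))⟫ := by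
      intro i
      have h1 : HasFDerivAt (fun x => ⟪e i, h x⟫) ((innerSL ℝ (e i)).comp (fderiv ℝ h z.1)) z.1 :=
        (innerSL ℝ (e i)).hasFDerivAt.comp z.1 ((hh.differentiable one_ne_zero) z.1).hasFDerivAt
      have h2 : HasFDerivAt (fun x => ⟪e i, A (k x)⟫)
          (((innerSL ℝ (e i)).comp A).comp (fderiv ℝ k (ouMap r z))) (ouMap r z) :=
        ((innerSL ℝ (e i)).comp A).hasFDerivAt.comp _
          ((hk.differentiable one_ne_zero) (ouMap r z)).hasFDerivAt
      have hgr : gradient (fun x => ⟪e i, A (k x)⟫) (ouMap r z)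
          = ContinuousLinearMap.adjoint (fderiv ℝ k (ouMap r z))
              (ContinuousLinearMap.adjoint A (e i)) := by
        refine ext_inner_right ℝ fun v => ?_
        rw [inner_gradient_left, h2.fderiv, ContinuousLinearMap.adjoint_inner_left,
          ContinuousLinearMap.adjoint_inner_left]
        rfl
      rw [h1.fderiv, hgr]
      rfl
    have hPn : ‖P‖ ≤ Lh * Lk := (ContinuousLinearMap.opNorm_comp_le _ _).trans (by
      rw [LinearIsometryEquiv.norm_map]
      exact mul_le_mul (hLh _) (hLk _) (norm_nonneg _) hLh0)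
    simp only [hrow, Real.norm_eq_abs]
    refine (Finset.abs_sum_le_sum_abs _ _).trans ?_
    have hterm : ∀ i, |⟪e i, P (ContinuousLinearMap.adjoint A (e i))⟫|
        ≤ Lh * Lk * ‖ContinuousLinearMap.adjoint A (e i)‖ := fun i => by
      refine (abs_real_inner_le_norm _ _).trans ?_
      rw [e.norm_eq_one, one_mul]
      exact (P.le_opNorm _).trans (mul_le_mul_of_nonneg_right hPn (norm_nonneg _))
    refine (Finset.sum_le_sum fun i _ => hterm i).trans ?_
    have hcs := Finset.sum_mul_sq_le_sq_mul_sq Finset.univ (fun _ : Fin d => (1 : ℝ))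
      (fun i => ‖ContinuousLinearMap.adjoint A (e i)‖)
    simp only [one_mul, one_pow, Finset.sum_const, Finset.card_univ, Fintype.card_fin,
      nsmul_eq_mul, mul_one] at hcs
    have hfr : ∑ i, ‖ContinuousLinearMap.adjoint A (e i)‖ ^ 2 = fdot A A := by
      simp only [fdot, real_inner_self_eq_norm_sq, ← e.sum_sq_inner_right, ← he]
      rw [Finset.sum_comm]
      refine Finset.sum_congr rfl fun j _ => Finset.sum_congr rfl fun i _ => ?_
      rw [ContinuousLinearMap.adjoint_inner_right, real_inner_comm]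
    rw [hfr] at hcs
    have hsum : ∑ i, ‖ContinuousLinearMap.adjoint A (e i)‖ ≤ √d * frob A := by
      rw [frob, ← Real.sqrt_mul (Nat.cast_nonneg d)]
      exact Real.le_sqrt_of_sq_le hcs
    rw [← Finset.mul_sum, hB]
    linarith [mul_le_mul_of_nonneg_left hsum (mul_nonneg hLh0 hLk0)]
  have hfin := intervalIntegral.norm_integral_le_of_norm_le_const hpt
  simpa using hfin

end

end P347.Quarter
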