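import Vale.Agent.P347.Any.Chain
import Vale.Agent.P347.Quarter.Gauss

/-!
# P347: the noise of the chain is the standard Gaussian
-/

namespace P347

open MeasureTheory ProbabilityTheory
open scoped RealInnerProductSpace

noncomputable section

theorem siteLaw_id : siteLaw (fun t : ℝ => t) = gaussianReal 0 1 := by
  have hp : ∀ t : ℝ, pot (fun t : ℝ => t) t = t ^ 2 / 2 := fun t => by simp [pot]
  rw [gaussianReal_of_var_ne_zero _ one_ne_zero, siteLaw]
  congr 1
  funext t
  simp only [gaussianPDF, siteDensity, hp, gaussianPDFReal]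
  congr 1
  have hZ : ∫ s : ℝ, Real.exp (-(s ^ 2 / 2)) = √(2 * Real.pi) := by
    have h := integral_gaussian (1 / 2)
    simp only [show ∀ s : ℝ, -(1 / 2) * s ^ 2 = -(s ^ 2 / 2) from fun s => by ring] at h
    rw [h]
    ring_nf
  rw [hZ]
  simp [div_eq_inv_mul]

theorem noise_eq_stdGaussian (d : ℕ) : noise d = stdGaussian (Space d) := by
  have : IsProbabilityMeasure (noise d) := inferInstance
  refine Measure.ext fun s hs => ?_
  have h : ∫ ξ, s.indicator (fun _ => (1 : ℝ)) ξ ∂noise d
      = ∫ ξ, s.indicator (fun _ => (1 : ℝ)) ξ ∂stdGaussian (Space d) := by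
    have hn := noise_pi (s.indicator fun _ => (1 : ℝ)) (0 : Space d)
    simp only [zero_add] at hn
    rw [hn, ← map_pi_eq_stdGaussian (ι := Fin d), integral_map (by fun_prop)
      ((measurable_const.indicator hs).aestronglyMeasurable)]
    simp [siteLaw_id]
  have h1 : (fun _ : Space d => (1 : ℝ)) = 1 := rfl
  rw [h1, integral_indicator_one hs, integral_indicator_one hs, measureReal_def,
    measureReal_def] at h
  exact (ENNReal.toReal_eq_toReal_iff' (measure_ne_top _ _) (measure_ne_top _ _)).1 h

end

end P347
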