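import Vale.Agent.P347.Quarter.Defs
import Vale.Agent.P347.Quarter.GaussNoise

/-!
# P347: Gaussian smoothing of bounded and of Lipschitz functions

A Gaussian average of a bounded continuous function is continuously differentiable, its derivative
being bounded by the root mean square (Bessel's inequality); twice so, since it is also two averages.
-/

namespace P347.Quarter

open MeasureTheory ProbabilityTheory Filter Topology
open scoped RealInnerProductSpace

noncomputable section

variable {d : ℕ} {F : Type} [NormedAddCommGroup F] [NormedSpace ℝ F]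

set_option linter.unusedSectionVars false

/-- A bounded continuous function, `B` being the bound. -/
structure Bdd (f : Space d → F) (B : ℝ) : Prop where
  cont : Continuous f
  bound : ∀ x, ‖f x‖ ≤ B

theorem Bdd.nonneg {f : Space d → F} {B : ℝ} (h : Bdd f B) : 0 ≤ B :=
  (norm_nonneg _).trans (h.bound 0)

theorem Bdd.integrable {f : Space d → F} {B : ℝ} (h : Bdd f B) (μ : Measure (Space d))
    [IsFiniteMeasure μ] : Integrable f μ :=
  Integrable.of_bound h.cont.aestronglyMeasurable B (Eventually.of_forall h.bound)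

theorem Bdd.shift {f : Space d → F} {B : ℝ} (h : Bdd f B) (σ : ℝ) (x : Space d) :
    Bdd (fun z => f (x + σ • z)) B :=
  ⟨h.cont.comp (by fun_prop), fun z => h.bound _⟩

theorem Bdd.sub_const {f : Space d → F} {B : ℝ} (h : Bdd f B) (c : F) :
    Bdd (fun z => f z - c) (B + ‖c‖) :=
  ⟨h.cont.sub continuous_const,
    fun z => (norm_sub_le _ _).trans (add_le_add (h.bound z) le_rfl)⟩

theorem Bdd.gav {f : Space d → F} {B : ℝ} (h : Bdd f B) (σ : ℝ) :
    Bdd (Quarter.gav σ f) B := by
  refine ⟨?_, fun x => ?_⟩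
  · refine continuous_of_dominated (fun x => (h.shift σ x).cont.aestronglyMeasurable)
      (fun x => Eventually.of_forall (h.shift σ x).bound) (integrable_const B)
      (Eventually.of_forall fun z => h.cont.comp (by fun_prop))
  · unfold Quarter.gav
    exact (norm_integral_le_integral_norm _).trans ((integral_mono_of_nonneg
      (Eventually.of_forall fun _ => norm_nonneg _) (integrable_const B)
      (Eventually.of_forall (h.shift σ x).bound)).trans (le_of_eq (by simp)))

theorem gav_comp_smul (σ : ℝ) (hσ : σ ≠ 0) (f : Space d → F) (x : Space d) :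
    gav σ f x = gav 1 (fun y => f (σ • y)) (σ⁻¹ • x) := by
  simp [gav, smul_add, smul_inv_smul₀ hσ]

/-- The normalising constant. -/
def gaussZ (d : ℕ) : ℝ := ∫ y : Space d, Real.exp (-halfSq d y)

/-- The standard Gaussian density. -/
def gden (d : ℕ) (z : Space d) : ℝ := Real.exp (-halfSq d z) / gaussZ d

theorem gaussZ_pos (d : ℕ) : 0 < gaussZ d := by
  refine integral_exp_pos ?_
  simpa [tilt] using (potential_halfSq (d := d)).integrable_tilt 0

theorem integral_stdGaussian_eq (f : Space d → F) :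
    ∫ z, f z ∂stdGaussian (Space d) = ∫ z, gden d z • f z := by
  rw [← noise_eq_stdGaussian, noise, gibbs]
  have hm : Measurable fun u : Space d => Real.exp (-tilt (halfSq d) 0 u)
      / ∫ x : Space d, Real.exp (-tilt (halfSq d) 0 x) := by
    have : Continuous fun u : Space d => tilt (halfSq d) 0 u := by
      unfold tilt halfSq; fun_prop
    fun_prop
  rw [integral_withDensity_eq_integral_toReal_smul₀ hm.ennreal_ofReal.aemeasurable
    (Eventually.of_forall fun _ => ENNReal.ofReal_lt_top)]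
  refine integral_congr_ae (Eventually.of_forall fun u => ?_)
  simp only
  rw [ENNReal.toReal_ofReal (div_nonneg (Real.exp_nonneg _)
    (integral_nonneg fun _ => (Real.exp_pos _).le))]
  simp [gden, gaussZ, tilt]

theorem gav_one_eq (f : Space d → F) (x : Space d) :
    gav 1 f x = ∫ y, gden d (y - x) • f y := by
  rw [gav, integral_stdGaussian_eq]
  rw [← integral_add_left_eq_self (μ := (volume : Measure (Space d)))
    (fun y => gden d (y - x) • f y) x]
  simp [one_smul, add_sub_cancel_left]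

theorem hasFDerivAt_gden (y x : Space d) :
    HasFDerivAt (fun x => gden d (y - x)) (gden d (y - x) • innerSL ℝ (y - x)) x := by
  have h1 : HasFDerivAt (fun x : Space d => -(‖y - x‖ ^ 2 / 2)) (innerSL ℝ (y - x)) x := by
    have h := (((hasFDerivAt_id x).const_sub y).norm_sq.mul_const (2⁻¹ : ℝ)).neg
    simp only [id_eq] at h
    refine h.congr_fderiv ?_
    ext w
    simp
  have h2 := h1.exp.const_mul (gaussZ d)⁻¹
  have e : (fun x : Space d => (gaussZ d)⁻¹ * Real.exp (-(‖y - x‖ ^ 2 / 2)))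
      = fun x => gden d (y - x) := by
    funext x; simp [gden, halfSq, div_eq_inv_mul]
  rw [e] at h2
  refine h2.congr_fderiv ?_
  ext w
  simp [gden, halfSq]
  ring

theorem gden_nonneg (z : Space d) : 0 ≤ gden d z :=
  div_nonneg (Real.exp_nonneg _) (gaussZ_pos d).le

theorem gden_moment_le (x x0 y : Space d) (hx : ‖x - x0‖ ≤ 1) :
    gden d (y - x) * (1 + ‖y - x‖)
      ≤ (4 + ‖x0‖) * Real.exp ((‖x0‖ + 1) ^ 2 / 2) / gaussZ d * Real.exp (-(1 / 8) * ‖y‖ ^ 2) := by
  have hxn : ‖x‖ ≤ ‖x0‖ + 1 := by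
    have := norm_add_le (x - x0) x0
    rw [sub_add_cancel] at this
    linarith
  have h1 : ‖y‖ ^ 2 / 4 - (‖x0‖ + 1) ^ 2 / 2 ≤ ‖y - x‖ ^ 2 / 2 := by
    have h := norm_add_le (y - x) x
    rw [sub_add_cancel] at h
    nlinarith [norm_nonneg y, norm_nonneg (y - x), norm_nonneg x, norm_nonneg x0,
      sq_nonneg (‖y - x‖ - ‖x‖), pow_le_pow_left₀ (norm_nonneg x) hxn 2]
  have h2 : 1 + ‖y - x‖ ≤ (4 + ‖x0‖) * Real.exp (‖y‖ ^ 2 / 8) := by
    have h3 := Real.add_one_le_exp (‖y‖ ^ 2 / 8)
    have h4 : ‖y - x‖ ≤ ‖y‖ + ‖x‖ := norm_sub_le _ _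
    have h5 : (1 : ℝ) ≤ Real.exp (‖y‖ ^ 2 / 8) := Real.one_le_exp (by positivity)
    have h6 : ‖y‖ ≤ 2 + ‖y‖ ^ 2 / 8 := by nlinarith [sq_nonneg (‖y‖ - 4)]
    nlinarith [norm_nonneg x0]
  have h7 : gden d (y - x)
      ≤ Real.exp ((‖x0‖ + 1) ^ 2 / 2) * Real.exp (-(‖y‖ ^ 2 / 4)) / gaussZ d := by
    rw [← Real.exp_add]
    refine div_le_div_of_nonneg_right (Real.exp_le_exp.2 ?_) (gaussZ_pos d).le
    simp only [halfSq]
    linarith
  refine (mul_le_mul h7 h2 (by positivity) (by have := gaussZ_pos d; positivity)).trans (le_of_eq ?_)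
  rw [show -(1 / 8) * ‖y‖ ^ 2 = -(‖y‖ ^ 2 / 4) + ‖y‖ ^ 2 / 8 by ring, Real.exp_add]
  ring

/-- The derivative of a Gaussian average of a bounded continuous function. -/
def gavDeriv (f : Space d → F) (x : Space d) : Space d →L[ℝ] F :=
  ∫ y, (gden d (y - x) • innerSL ℝ (y - x)).smulRight (f y)

theorem gavDeriv_bound {f : Space d → F} {B : ℝ} (h : Bdd f B) (x x0 y : Space d)
    (hx : ‖x - x0‖ ≤ 1) :
    ‖(gden d (y - x) • innerSL ℝ (y - x)).smulRight (f y)‖
      ≤ B * ((4 + ‖x0‖) * Real.exp ((‖x0‖ + 1) ^ 2 / 2) / gaussZ d) *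
          Real.exp (-(1 / 8) * ‖y‖ ^ 2) := by
  rw [ContinuousLinearMap.norm_smulRight_apply, norm_smul, innerSL_apply_norm, Real.norm_eq_abs,
    abs_of_nonneg (gden_nonneg _)]
  have h1 : gden d (y - x) * ‖y - x‖ ≤ gden d (y - x) * (1 + ‖y - x‖) :=
    mul_le_mul_of_nonneg_left (by linarith [norm_nonneg (y - x)]) (gden_nonneg _)
  calc gden d (y - x) * ‖y - x‖ * ‖f y‖
      ≤ (4 + ‖x0‖) * Real.exp ((‖x0‖ + 1) ^ 2 / 2) / gaussZ d *
          Real.exp (-(1 / 8) * ‖y‖ ^ 2) * B :=
        mul_le_mul (h1.trans (gden_moment_le x x0 y hx)) (h.bound y) (norm_nonneg _)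
          (by have := gaussZ_pos d; positivity)
    _ = _ := by ring

theorem continuous_gden : Continuous (gden d) := by unfold gden halfSq; fun_prop

theorem continuous_smulRight_gden {f : Space d → F} {B : ℝ} (h : Bdd f B) :
    Continuous fun p : Space d × Space d =>
      (gden d (p.2 - p.1) • innerSL ℝ (p.2 - p.1)).smulRight (f p.2) := by
  have hl : Continuous fun p : Space d × Space d =>
      gden d (p.2 - p.1) • innerSL ℝ (p.2 - p.1) :=
    (continuous_gden.comp (by fun_prop)).smul ((innerSL ℝ).continuous.comp (by fun_prop))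
  exact ((ContinuousLinearMap.smulRightL ℝ (Space d) F).continuous.comp hl).clm_apply
    (h.cont.comp continuous_snd)

theorem Bdd.hasFDerivAt_one {f : Space d → F} {B : ℝ} (h : Bdd f B) (x0 : Space d) :
    HasFDerivAt (Quarter.gav 1 f) (gavDeriv f x0) x0 := by
  have hK : Integrable fun y : Space d =>
      B * ((4 + ‖x0‖) * Real.exp ((‖x0‖ + 1) ^ 2 / 2) / gaussZ d) *
        Real.exp (-(1 / 8) * ‖y‖ ^ 2) := (integrable_gauss (by norm_num)).const_mul _
  have hd := hasFDerivAt_integral_of_dominated_of_fderiv_le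
    (F := fun x y => gden d (y - x) • f y)
    (F' := fun x y => (gden d (y - x) • innerSL ℝ (y - x)).smulRight (f y)) (x₀ := x0)
    (s := Metric.closedBall x0 1) (μ := (volume : Measure (Space d)))
    (Metric.closedBall_mem_nhds x0 one_pos)
    (Eventually.of_forall fun x =>
      ((continuous_gden.comp (by fun_prop)).smul h.cont).aestronglyMeasurable)
    ?_ ?_ (Eventually.of_forall fun y x hx => gavDeriv_bound h x x0 y
      (by simpa [dist_eq_norm] using Metric.mem_closedBall.1 hx)) hK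
    (Eventually.of_forall fun y x _ => (hasFDerivAt_gden y x).smul_const (f y))
  · have e : Quarter.gav 1 f = fun x => ∫ y, gden d (y - x) • f y := funext (gav_one_eq f)
    rw [e]
    exact hd
  · refine ((integrable_gauss (E := Space d) (a := 1 / 8) (by norm_num)).const_mul
      (B * ((4 + ‖x0‖) * Real.exp ((‖x0‖ + 1) ^ 2 / 2) / gaussZ d))).mono'
      ((continuous_gden.comp (by fun_prop)).smul h.cont).aestronglyMeasurable
      (Eventually.of_forall fun y => ?_)
    rw [norm_smul, Real.norm_eq_abs, abs_of_nonneg (gden_nonneg _)]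
    have h1 : gden d (y - x0) ≤ gden d (y - x0) * (1 + ‖y - x0‖) :=
      le_mul_of_one_le_right (gden_nonneg _) (by linarith [norm_nonneg (y - x0)])
    calc gden d (y - x0) * ‖f y‖
        ≤ (4 + ‖x0‖) * Real.exp ((‖x0‖ + 1) ^ 2 / 2) / gaussZ d *
            Real.exp (-(1 / 8) * ‖y‖ ^ 2) * B :=
          mul_le_mul (h1.trans (gden_moment_le x0 x0 y (by simp))) (h.bound y) (norm_nonneg _)
            (by have := gaussZ_pos d; positivity)
      _ = _ := by ring
  · exact ((continuous_smulRight_gden h).comp (Continuous.prodMk_right x0)).aestronglyMeasurable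

theorem integrable_gavDeriv {f : Space d → F} {B : ℝ} (h : Bdd f B) (x : Space d) :
    Integrable fun y => (gden d (y - x) • innerSL ℝ (y - x)).smulRight (f y) :=
  ((integrable_gauss (E := Space d) (a := 1 / 8) (by norm_num)).const_mul
      (B * ((4 + ‖x‖) * Real.exp ((‖x‖ + 1) ^ 2 / 2) / gaussZ d))).mono'
    ((continuous_smulRight_gden h).comp (Continuous.prodMk_right x)).aestronglyMeasurable
    (Eventually.of_forall fun y => gavDeriv_bound h x x y (by simp))

theorem Bdd.continuous_gavDeriv {f : Space d → F} {B : ℝ} (h : Bdd f B) :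
    Continuous (gavDeriv f) := by
  refine continuous_iff_continuousAt.2 fun x0 => ?_
  refine continuousAt_of_dominated
    (Eventually.of_forall fun x =>
      ((continuous_smulRight_gden h).comp (Continuous.prodMk_right x)).aestronglyMeasurable)
    (eventually_of_mem (Metric.closedBall_mem_nhds x0 one_pos) fun x hx =>
      Eventually.of_forall fun y => gavDeriv_bound h x x0 y
        (by simpa [dist_eq_norm] using Metric.mem_closedBall.1 hx))
    ((integrable_gauss (by norm_num)).const_mul _)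
    (Eventually.of_forall fun y =>
      ((continuous_smulRight_gden h).comp (Continuous.prodMk_left y)).continuousAt)

theorem gavDeriv_apply [CompleteSpace F] {f : Space d → F} {B : ℝ} (h : Bdd f B) (x w : Space d) :
    gavDeriv f x w = ∫ z, ⟪z, w⟫ • f (x + z) ∂stdGaussian (Space d) := by
  rw [gavDeriv, ContinuousLinearMap.integral_apply (integrable_gavDeriv h x),
    integral_stdGaussian_eq]
  rw [← integral_add_left_eq_self (μ := (volume : Measure (Space d)))
    (fun y => ((gden d (y - x) • innerSL ℝ (y - x)).smulRight (f y)) w) x]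
  simp [add_sub_cancel_left, smul_smul]

theorem Bdd.hasFDerivAt {f : Space d → F} {B : ℝ} (h : Bdd f B) {σ : ℝ} (hσ : σ ≠ 0) (x : Space d) :
    HasFDerivAt (Quarter.gav σ f) (σ⁻¹ • gavDeriv (fun y => f (σ • y)) (σ⁻¹ • x)) x := by
  have hb : Bdd (fun y => f (σ • y)) B := ⟨h.cont.comp (by fun_prop), fun y => h.bound _⟩
  have h1 := (hb.hasFDerivAt_one (σ⁻¹ • x)).comp x ((hasFDerivAt_id x).const_smul σ⁻¹)
  have e : Quarter.gav σ f = fun x => Quarter.gav 1 (fun y => f (σ • y)) (σ⁻¹ • x) :=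
    funext (gav_comp_smul σ hσ f)
  rw [e]
  refine h1.congr_fderiv ?_
  ext w
  simp

theorem Bdd.contDiff {f : Space d → F} {B : ℝ} (h : Bdd f B) {σ : ℝ} (hσ : σ ≠ 0) :
    ContDiff ℝ 1 (Quarter.gav σ f) := by
  have hb : Bdd (fun y => f (σ • y)) B := ⟨h.cont.comp (by fun_prop), fun y => h.bound _⟩
  refine contDiff_one_iff_fderiv.2 ⟨fun x => (h.hasFDerivAt hσ x).differentiableAt, ?_⟩
  rw [funext fun x => (h.hasFDerivAt hσ x).fderiv]
  exact (hb.continuous_gavDeriv.comp (by fun_prop)).const_smul σ⁻¹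

theorem integral_inner_sq (w : Space d) :
    MemLp (fun z : Space d => ⟪z, w⟫) 2 (stdGaussian (Space d)) ∧
      ∫ z, ⟪z, w⟫ ^ 2 ∂stdGaussian (Space d) = ‖w‖ ^ 2 := by
  have e : (fun z : Space d => ⟪z, w⟫) = fun z => innerSL ℝ w z :=
    funext fun z => real_inner_comm _ _
  have hL : MemLp (fun z => innerSL ℝ w z) 2 (stdGaussian (Space d)) :=
    IsGaussian.memLp_dual _ (innerSL ℝ w) 2 (by simp)
  refine ⟨e ▸ hL, ?_⟩
  simp only [congrFun e]
  rw [← variance_of_integral_eq_zero hL.1.aemeasurable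
    (integral_strongDual_stdGaussian (innerSL ℝ w)), variance_dual_stdGaussian, innerSL_apply_norm]

/-- Bessel: the derivative of an average sees only the fluctuation. -/
theorem abs_gavDeriv_le {f : Space d → ℝ} {B : ℝ} (h : Bdd f B) (c : ℝ) (x w : Space d) :
    |gavDeriv f x w| ≤ √(∫ z, (f (x + z) - c) ^ 2 ∂stdGaussian (Space d)) * ‖w‖ := by
  set μ := stdGaussian (Space d)
  obtain ⟨hw, hw2⟩ := integral_inner_sq w
  have hb : Bdd (fun z => f (x + z) - c) (B + ‖c‖) :=
    ⟨(h.cont.comp (by fun_prop)).sub continuous_const,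
      fun z => (norm_sub_le _ _).trans (add_le_add (h.bound _) le_rfl)⟩
  have hF : MemLp (fun z => f (x + z) - c) 2 μ :=
    MemLp.of_bound hb.cont.aestronglyMeasurable _ (Eventually.of_forall hb.bound)
  have hi : Integrable (fun z => ⟪z, w⟫ * (f (x + z) - c)) μ := hw.integrable_mul hF
  have hw1 : Integrable (fun z : Space d => ⟪z, w⟫) μ := hw.integrable (by norm_num)
  have e : gavDeriv f x w = ∫ z, ⟪z, w⟫ * (f (x + z) - c) ∂μ := by
    have h0 : ∫ z : Space d, ⟪z, w⟫ ∂μ = 0 := by
      simp only [real_inner_comm w]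
      exact integral_strongDual_stdGaussian (innerSL ℝ w)
    have hi' : Integrable (fun z => ⟪z, w⟫ * f (x + z)) μ :=
      (hi.add (hw1.mul_const c)).congr (Eventually.of_forall fun z => by simp; ring)
    rw [gavDeriv_apply h]
    simp only [smul_eq_mul, mul_sub]
    rw [integral_sub hi' (hw1.mul_const c), integral_mul_const, h0]
    simp [μ]
  rw [e]
  set A := ∫ z, (f (x + z) - c) ^ 2 ∂μ
  have hA : 0 ≤ A := integral_nonneg fun _ => sq_nonneg _
  refine le_of_forall_pos_le_add fun ε hε => ?_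
  -- the elementary inequality `2 |a b| ≤ t a ^ 2 + b ^ 2 / t`
  set t := (√A + ε / (1 + ‖w‖)) / (‖w‖ + ε / (1 + √A + ‖w‖)) with ht
  have h1 : 0 < √A + ε / (1 + ‖w‖) := by positivity
  have h2 : 0 < ‖w‖ + ε / (1 + √A + ‖w‖) := by positivity
  have ht0 : 0 < t := div_pos h1 h2
  have hb2 : |∫ z, ⟪z, w⟫ * (f (x + z) - c) ∂μ| ≤ (t * ‖w‖ ^ 2 + A / t) / 2 := by
    refine abs_integral_le_integral_abs.trans ((integral_mono hi.abs
      (((hw.integrable_sq.const_mul t).add (hF.integrable_sq.div_const t)).div_const 2)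
      fun z => ?_).trans (le_of_eq ?_))
    · have := sq_nonneg (√t * |⟪z, w⟫| - |f (x + z) - c| / √t)
      simp only [Pi.add_apply, abs_mul]
      rw [sub_sq, mul_pow, div_pow, Real.sq_sqrt ht0.le, sq_abs, sq_abs] at this
      field_simp at this ⊢
      linarith
    · simp only [Pi.add_apply]
      rw [integral_div, integral_add (hw.integrable_sq.const_mul t) (hF.integrable_sq.div_const t),
        integral_const_mul, integral_div, hw2]
  refine hb2.trans ?_
  have e1 : t * ‖w‖ ^ 2 ≤ (√A + ε / (1 + ‖w‖)) * ‖w‖ := by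
    rw [ht, div_mul_eq_mul_div, div_le_iff₀ h2, mul_assoc]
    refine mul_le_mul_of_nonneg_left ?_ h1.le
    rw [sq]
    exact mul_le_mul_of_nonneg_left (le_add_of_nonneg_right (by positivity)) (norm_nonneg _)
  have e2 : A / t ≤ √A * (‖w‖ + ε / (1 + √A + ‖w‖)) := by
    rw [ht, div_div_eq_mul_div, div_le_iff₀ h1]
    nlinarith [Real.mul_self_sqrt hA, mul_nonneg (mul_nonneg (Real.sqrt_nonneg A) h2.le)
      (div_nonneg hε.le (by positivity : (0 : ℝ) ≤ 1 + ‖w‖))]
  have e3 : ε / (1 + ‖w‖) * ‖w‖ ≤ ε := by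
    rw [div_mul_eq_mul_div, div_le_iff₀ (by positivity)]
    nlinarith [norm_nonneg w]
  have e4 : √A * (ε / (1 + √A + ‖w‖)) ≤ ε := by
    rw [mul_div, div_le_iff₀ (by positivity)]
    nlinarith [norm_nonneg w, Real.sqrt_nonneg A]
  nlinarith

/-! ### The second order -/

theorem gav_eq_gav_gav [CompleteSpace F] {f : Space d → F} {B : ℝ} (h : Bdd f B) (σ : ℝ) :
    Quarter.gav σ f = Quarter.gav (σ * (√2 / 2)) (Quarter.gav (σ * (√2 / 2)) f) := by
  funext x
  set μ := stdGaussian (Space d)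
  have hrot := IsGaussian.map_rotation_eq_self (μ := μ) (by simp [μ]) (Real.pi / 4)
  have h1 : ∫ z : Space d × Space d, f (x + σ • z.1) ∂μ.prod μ = ∫ z, f (x + σ • z) ∂μ :=
    integral_fun_fst (fun z => f (x + σ • z)) |>.trans (by simp)
  have hc : Continuous fun z : Space d × Space d => f (x + σ • z.1) := h.cont.comp (by fun_prop)
  have hc2 : Continuous fun z : Space d × Space d =>
      f (x + (σ * (√2 / 2)) • z.1 + (σ * (√2 / 2)) • z.2) := h.cont.comp (by fun_prop)
  have h2 : ∫ z : Space d × Space d, f (x + σ • z.1) ∂μ.prod μ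
      = ∫ z : Space d × Space d,
          f (x + (σ * (√2 / 2)) • z.1 + (σ * (√2 / 2)) • z.2) ∂μ.prod μ := by
    conv_lhs => rw [← hrot]
    rw [integral_map (by fun_prop) hc.aestronglyMeasurable]
    refine integral_congr_ae (Eventually.of_forall fun z => ?_)
    simp [ContinuousLinearMap.rotation_apply, add_assoc, smul_smul, smul_add]
  simp only [Quarter.gav]
  rw [← h1, h2, integral_prod _ (Integrable.of_bound hc2.aestronglyMeasurable
    B (Eventually.of_forall fun z => h.bound _))]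

/-! ### Scalar and vector bounds -/

/-- A continuously differentiable function with bounded derivative. -/
structure Lip1 (f : Space d → F) (L : ℝ) : Prop where
  smooth : ContDiff ℝ 1 f
  bound : ∀ x, ‖fderiv ℝ f x‖ ≤ L

theorem Lip1.lip {f : Space d → F} {L : ℝ} (h : Lip1 f L) (x y : Space d) :
    ‖f x - f y‖ ≤ L * ‖x - y‖ :=
  convex_univ.norm_image_sub_le_of_norm_fderiv_le
    (fun z _ => h.smooth.differentiable one_ne_zero z) (fun z _ => h.bound z) (Set.mem_univ y)
    (Set.mem_univ x)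

theorem integrable_norm_stdGaussian :
    Integrable (fun z : Space d => ‖z‖) (stdGaussian (Space d)) :=
  IsGaussian.integrable_id.norm

theorem Lip1.integrable {f : Space d → F} {L : ℝ} (h : Lip1 f L) (σ : ℝ) (x : Space d) :
    Integrable (fun z => f (x + σ • z)) (stdGaussian (Space d)) := by
  have hc : Continuous fun z => f (x + σ • z) := h.smooth.continuous.comp (by fun_prop)
  refine ((integrable_const ‖f x‖).add (integrable_norm_stdGaussian.const_mul (L * |σ|))).mono'
    hc.aestronglyMeasurable (Eventually.of_forall fun z => ?_)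
  have h1 := norm_add_le (f x) (f (x + σ • z) - f x)
  rw [add_sub_cancel] at h1
  have h2 := h.lip (x + σ • z) x
  rw [add_sub_cancel_left, norm_smul, Real.norm_eq_abs] at h2
  simp only [Pi.add_apply]
  linarith

theorem Lip1.hasFDerivAt_gav {f : Space d → F} {L : ℝ} (h : Lip1 f L) (σ : ℝ) (x : Space d) :
    HasFDerivAt (Quarter.gav σ f) (Quarter.gav σ (fderiv ℝ f) x) x := by
  have hc : Continuous (fderiv ℝ f) := h.smooth.continuous_fderiv one_ne_zero
  exact hasFDerivAt_integral_of_dominated_of_fderiv_le (F := fun x z => f (x + σ • z))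
    (F' := fun x z => fderiv ℝ f (x + σ • z)) (x₀ := x) Filter.univ_mem
    (Eventually.of_forall fun y => (h.integrable σ y).aestronglyMeasurable) (h.integrable σ x)
    (hc.comp (by fun_prop)).aestronglyMeasurable
    (Eventually.of_forall fun z y _ => h.bound _) (integrable_const L)
    (Eventually.of_forall fun z y _ => by
      exact ((h.smooth.differentiable one_ne_zero) _).hasFDerivAt.comp y
        ((hasFDerivAt_id y).add_const (σ • z)))

theorem Lip1.gav {f : Space d → F} {L : ℝ} (h : Lip1 f L) (σ : ℝ) : Lip1 (Quarter.gav σ f) L := by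
  have hb : Bdd (fderiv ℝ f) L := ⟨h.smooth.continuous_fderiv one_ne_zero, h.bound⟩
  refine ⟨contDiff_one_iff_fderiv.2 ⟨fun x => (h.hasFDerivAt_gav σ x).differentiableAt, ?_⟩,
    fun x => ?_⟩
  · rw [funext fun x => (h.hasFDerivAt_gav σ x).fderiv]
    exact (hb.gav σ).cont
  · rw [(h.hasFDerivAt_gav σ x).fderiv]
    exact (hb.gav σ).bound x

theorem norm_gradient_le {f : Space d → ℝ} {x : Space d} {C : ℝ} (hC : 0 ≤ C)
    (h : ∀ w, |fderiv ℝ f x w| ≤ C * ‖w‖) : ‖gradient f x‖ ≤ C := by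
  simp only [gradient, LinearIsometryEquiv.norm_map]
  exact ContinuousLinearMap.opNorm_le_bound _ hC fun w => by rw [Real.norm_eq_abs]; exact h w

theorem continuous_gradient {f : Space d → ℝ} (hf : ContDiff ℝ 1 f) : Continuous (gradient f) :=
  (InnerProductSpace.toDual ℝ (Space d)).symm.continuous.comp (hf.continuous_fderiv one_ne_zero)

/-- The derivative of a scalar average: the fluctuation over the shift. -/
theorem Bdd.abs_fderiv_gav_le {f : Space d → ℝ} {B : ℝ} (h : Bdd f B) {σ : ℝ} (hσ : 0 < σ)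
    (c : ℝ) (x w : Space d) :
    |fderiv ℝ (Quarter.gav σ f) x w|
      ≤ σ⁻¹ * √(∫ z, (f (x + σ • z) - c) ^ 2 ∂stdGaussian (Space d)) * ‖w‖ := by
  have hb : Bdd (fun y => f (σ • y)) B := ⟨h.cont.comp (by fun_prop), fun y => h.bound _⟩
  rw [(h.hasFDerivAt hσ.ne' x).fderiv, _root_.smul_apply, smul_eq_mul, abs_mul,
    abs_of_pos (inv_pos.2 hσ), mul_assoc]
  refine mul_le_mul_of_nonneg_left ?_ (inv_pos.2 hσ).le
  refine (abs_gavDeriv_le hb c _ w).trans (le_of_eq ?_)
  simp [smul_add, smul_inv_smul₀ hσ.ne']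

theorem fdot_self_nonneg (A : Space d →L[ℝ] Space d) : 0 ≤ fdot A A :=
  Finset.sum_nonneg fun _ _ => real_inner_self_nonneg

theorem frob_nonneg (A : Space d →L[ℝ] Space d) : 0 ≤ frob A := Real.sqrt_nonneg _

/-- The Frobenius norm by rows. -/
theorem fdot_self_eq (A : Space d →L[ℝ] Space d) :
    fdot A A = ∑ k, ‖(InnerProductSpace.toDual ℝ (Space d)).symm
      ((innerSL ℝ (EuclideanSpace.basisFun (Fin d) ℝ k)).comp A)‖ ^ 2 := by
  set b := EuclideanSpace.basisFun (Fin d) ℝ
  have hrow : ∀ k i, ⟪(InnerProductSpace.toDual ℝ (Space d)).symm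
      ((innerSL ℝ (b k)).comp A), b i⟫ = ⟪b k, A (b i)⟫ := fun k i => by simp
  calc fdot A A = ∑ i, ∑ k, ⟪b k, A (b i)⟫ ^ 2 := by
        refine Finset.sum_congr rfl fun i _ => ?_
        rw [real_inner_self_eq_norm_sq, ← b.sum_sq_norm_inner_right]
        simp [b]
    _ = _ := by
        rw [Finset.sum_comm]
        refine Finset.sum_congr rfl fun k _ => ?_
        rw [← b.sum_sq_inner_left]
        simp only [hrow]

theorem sum_sq_inner (v : Space d) :
    ∑ k, ⟪EuclideanSpace.basisFun (Fin d) ℝ k, v⟫ ^ 2 = ‖v‖ ^ 2 :=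
  (EuclideanSpace.basisFun (Fin d) ℝ).sum_sq_inner_right v

theorem inner_gav {f : Space d → Space d} {B : ℝ} (h : Bdd f B) (σ : ℝ) (x e : Space d) :
    ⟪e, Quarter.gav σ f x⟫ = Quarter.gav σ (fun y => ⟪e, f y⟫) x := by
  simp only [Quarter.gav]
  exact (integral_inner ((h.shift σ x).integrable _) e).symm

theorem Bdd.inner {f : Space d → Space d} {B : ℝ} (h : Bdd f B) (e : Space d) :
    Bdd (fun y => ⟪e, f y⟫) (‖e‖ * B) :=
  ⟨(continuous_const.inner h.cont),
    fun y => (norm_inner_le_norm e (f y)).trans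
      (mul_le_mul_of_nonneg_left (h.bound y) (norm_nonneg e))⟩

/-- The derivative of a vector average, in Frobenius norm. -/
theorem Bdd.frob_fderiv_gav_le {f : Space d → Space d} {B : ℝ} (h : Bdd f B) {σ : ℝ} (hσ : 0 < σ)
    (x : Space d) :
    frob (fderiv ℝ (Quarter.gav σ f) x)
      ≤ σ⁻¹ * √(∫ z, ‖f (x + σ • z)‖ ^ 2 ∂stdGaussian (Space d)) := by
  set μ := stdGaussian (Space d)
  set b := EuclideanSpace.basisFun (Fin d) ℝ
  set A := fderiv ℝ (Quarter.gav σ f) x with hA
  have hint : ∀ k, Integrable (fun z => ⟪b k, f (x + σ • z)⟫ ^ 2) μ := fun k =>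
    (MemLp.of_bound (((h.inner (b k)).shift σ x).cont.aestronglyMeasurable) _
      (Eventually.of_forall ((h.inner (b k)).shift σ x).bound)).integrable_sq
  have hk : ∀ k, ‖(InnerProductSpace.toDual ℝ (Space d)).symm ((innerSL ℝ (b k)).comp A)‖ ^ 2
      ≤ σ⁻¹ ^ 2 * ∫ z, ⟪b k, f (x + σ • z)⟫ ^ 2 ∂μ := by
    intro k
    rw [LinearIsometryEquiv.norm_map]
    have e : (innerSL ℝ (b k)).comp A = fderiv ℝ (Quarter.gav σ fun y => ⟪b k, f y⟫) x := by
      rw [show (Quarter.gav σ fun y => ⟪b k, f y⟫) = fun y => ⟪b k, Quarter.gav σ f y⟫ from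
        funext fun y => (inner_gav h σ y (b k)).symm]
      exact (((innerSL ℝ (b k)).hasFDerivAt).comp x
        ((h.contDiff hσ.ne').differentiable one_ne_zero x).hasFDerivAt).fderiv.symm
    rw [e]
    have h1 := ContinuousLinearMap.opNorm_le_bound
      (fderiv ℝ (Quarter.gav σ fun y => ⟪b k, f y⟫) x)
      (show 0 ≤ σ⁻¹ * √(∫ z, (⟪b k, f (x + σ • z)⟫ - 0) ^ 2 ∂μ) by positivity) fun w => by
      rw [Real.norm_eq_abs]
      exact (h.inner (b k)).abs_fderiv_gav_le hσ 0 x w
    refine (pow_le_pow_left₀ (norm_nonneg _) h1 2).trans (le_of_eq ?_)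
    simp only [sub_zero, mul_pow]
    rw [Real.sq_sqrt (integral_nonneg fun _ => sq_nonneg _)]
  rw [frob, fdot_self_eq]
  calc √(∑ k, ‖(InnerProductSpace.toDual ℝ (Space d)).symm ((innerSL ℝ (b k)).comp A)‖ ^ 2)
      ≤ √(σ⁻¹ ^ 2 * ∫ z, ‖f (x + σ • z)‖ ^ 2 ∂μ) := by
        refine Real.sqrt_le_sqrt ((Finset.sum_le_sum fun k _ => hk k).trans (le_of_eq ?_))
        rw [← Finset.mul_sum, ← integral_finsetSum _ fun k _ => hint k]
        simp only [b, sum_sq_inner]
    _ = _ := by rw [Real.sqrt_mul (sq_nonneg _), Real.sqrt_sq (inv_pos.2 hσ).le]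

theorem Bdd.frob_fderiv_gav_le' {f : Space d → Space d} {B : ℝ} (h : Bdd f B) {σ : ℝ}
    (hσ : 0 < σ) (x : Space d) : frob (fderiv ℝ (Quarter.gav σ f) x) ≤ σ⁻¹ * B := by
  refine (h.frob_fderiv_gav_le hσ x).trans (mul_le_mul_of_nonneg_left ?_ (inv_pos.2 hσ).le)
  rw [Real.sqrt_le_left h.nonneg]
  refine (integral_mono_of_nonneg (Eventually.of_forall fun _ => sq_nonneg _)
    (integrable_const (B ^ 2)) (Eventually.of_forall fun z =>
      pow_le_pow_left₀ (norm_nonneg _) (h.bound _) 2)).trans (le_of_eq (by simp))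

theorem Lip1.gradient_gav {f : Space d → ℝ} {L : ℝ} (h : Lip1 f L) (σ : ℝ) (x : Space d) :
    gradient (Quarter.gav σ f) x = Quarter.gav σ (gradient f) x := by
  have hb : Bdd (fderiv ℝ f) L := ⟨h.smooth.continuous_fderiv one_ne_zero, h.bound⟩
  simp only [gradient, (h.hasFDerivAt_gav σ x).fderiv, Quarter.gav]
  exact ((InnerProductSpace.toDual ℝ (Space d)).symm.toContinuousLinearEquiv.toContinuousLinearMap
    |>.integral_comp_comm ((hb.shift σ x).integrable _)).symm

theorem contDiff_two_of_gradient {f : Space d → ℝ} (hd : Differentiable ℝ f)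
    (hg : ContDiff ℝ 1 (gradient f)) : ContDiff ℝ 2 f := by
  rw [show (2 : WithTop ℕ∞) = 1 + 1 from rfl, contDiff_succ_iff_fderiv]
  refine ⟨hd, by simp, ?_⟩
  have e : fderiv ℝ f = fun x => InnerProductSpace.toDual ℝ (Space d) (gradient f x) := by
    funext x; simp [gradient]
  rw [e]
  exact (InnerProductSpace.toDual ℝ (Space d)).contDiff.comp hg

/-- A Gaussian average of a test function is twice smooth. -/
theorem test2_gav {f : Space d → ℝ} (hc : Continuous f) (hf : ∀ x, f x ∈ Set.Icc (0 : ℝ) 1)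
    {σ : ℝ} (hσ : 0 < σ) : Test2 (Quarter.gav σ f) (σ⁻¹) (2 * σ⁻¹ ^ 2) := by
  have hb : Bdd f 1 := ⟨hc, fun x => abs_le.2 ⟨by linarith [(hf x).1], (hf x).2⟩⟩
  set τ := σ * (√2 / 2) with hτ
  have hτ0 : 0 < τ := by positivity
  have hτi : τ⁻¹ = √2 * σ⁻¹ := by
    rw [hτ, mul_inv, inv_div]
    have := Real.mul_self_sqrt (show (0 : ℝ) ≤ 2 by norm_num)
    field_simp
    linarith
  set g := Quarter.gav τ f with hg
  have hd1 : ∀ {s : ℝ}, 0 < s → ∀ x w : Space d,
      |fderiv ℝ (Quarter.gav s f) x w| ≤ s⁻¹ * ‖w‖ := by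
    intro s hs x w
    refine (hb.abs_fderiv_gav_le hs 0 x w).trans (mul_le_mul_of_nonneg_right
      (mul_le_of_le_one_right (inv_pos.2 hs).le ?_) (norm_nonneg w))
    rw [Real.sqrt_le_one]
    refine (integral_mono_of_nonneg (Eventually.of_forall fun _ => sq_nonneg _)
      (integrable_const (1 : ℝ)) (Eventually.of_forall fun z => ?_)).trans (le_of_eq (by simp))
    simpa using pow_le_one₀ (abs_nonneg _) (hb.bound (x + s • z)) (n := 2)
  have hgl : Lip1 g (τ⁻¹) := ⟨hb.contDiff hτ0.ne', fun x =>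
    ContinuousLinearMap.opNorm_le_bound _ (inv_pos.2 hτ0).le fun w => hd1 hτ0 x w⟩
  have hgb : Bdd (gradient g) τ⁻¹ := ⟨continuous_gradient hgl.smooth,
    fun x => norm_gradient_le (inv_pos.2 hτ0).le (hd1 hτ0 x)⟩
  have hfe : Quarter.gav σ f = Quarter.gav τ g := gav_eq_gav_gav hb σ
  have hge : gradient (Quarter.gav σ f) = Quarter.gav τ (gradient g) := by
    rw [hfe]; exact funext (hgl.gradient_gav τ)
  refine ⟨contDiff_two_of_gradient ((hb.contDiff hσ.ne').differentiable one_ne_zero)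
    (hge ▸ hgb.contDiff hτ0.ne'), fun x => norm_gradient_le (inv_pos.2 hσ).le (hd1 hσ x),
    fun x => ?_⟩
  rw [hge]
  refine (hgb.frob_fderiv_gav_le' hτ0 x).trans (le_of_eq ?_)
  rw [hτi, show √2 * σ⁻¹ * (√2 * σ⁻¹) = √2 * √2 * σ⁻¹ ^ 2 by ring,
    Real.mul_self_sqrt (by norm_num)]

end

end P347.Quarter
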