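import Vale.Agent.P347.Quarter.Nodes
import Vale.Agent.P347.Quarter.Cov
import Vale.Agent.P347.Quarter.Gav

/-!
# P347: noise and bias of the inner map

Replacing the random displacement by its mean costs `η ^ 2 √d` against the Hessian of the test
function, and the mean of the drift at the random point differs from the drift at the mean point by
`η ^ 3 √d` against a field. Only seed covariances and Gaussian integration by parts are used.
-/

namespace P347.Quarter

open MeasureTheory ProbabilityTheory Finset
open scoped RealInnerProductSpace BigOperators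

noncomputable section

variable {d M : ℕ}

section Algebra

/-- The rows of an operator against its Frobenius norm. -/
theorem sum_rows_le (A : Space d →L[ℝ] Space d) :
    ∑ i, ‖(innerSL ℝ (EuclideanSpace.basisFun (Fin d) ℝ i)).comp A‖ ≤ √d * frob A := by
  have h := Real.sum_mul_le_sqrt_mul_sqrt (Finset.univ : Finset (Fin d)) (fun _ => 1)
    fun i => ‖(innerSL ℝ (EuclideanSpace.basisFun (Fin d) ℝ i)).comp A‖
  simp only [one_mul, one_pow, Finset.sum_const, Finset.card_univ, Fintype.card_fin, nsmul_eq_mul,
    mul_one] at h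
  refine h.trans (le_of_eq ?_)
  rw [frob, fdot_self_eq]
  simp

theorem norm_le_frob (A : Space d →L[ℝ] Space d) : ‖A‖ ≤ frob A := by
  refine A.opNorm_le_bound (frob_nonneg A) fun v => ?_
  have hv : A v = ∑ i, v i • A (EuclideanSpace.basisFun (Fin d) ℝ i) := by
    conv_lhs => rw [← (EuclideanSpace.basisFun (Fin d) ℝ).sum_repr v]
    simp
  rw [hv]
  refine (norm_sum_le _ _).trans ?_
  simp only [norm_smul, Real.norm_eq_abs]
  refine (Real.sum_mul_le_sqrt_mul_sqrt _ (fun i => |v i|) _).trans (le_of_eq ?_)
  rw [mul_comm (frob A)]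
  congr 1
  · rw [EuclideanSpace.norm_eq]; simp
  · rw [frob, fdot]; simp

theorem tame_inner : Tame fun p : Space d × Space d => ⟪p.1, p.2⟫ := by
  refine Tame.of_bounds (contDiff_fst.inner ℝ contDiff_snd) zero_le_one zero_le_two (n := 2)
    (k := 1) (fun p => ?_) fun p => ?_
  · rw [one_mul, sq]
    exact (norm_inner_le_norm _ _).trans (mul_le_mul ((norm_fst_le p).trans (by linarith))
      ((norm_snd_le p).trans (by linarith)) (norm_nonneg _) (by positivity))
  · rw [pow_one]
    refine ContinuousLinearMap.opNorm_le_bound _ (by positivity) fun q => ?_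
    rw [fderiv_inner_apply ℝ differentiableAt_fst differentiableAt_snd, fderiv_fst, fderiv_snd]
    refine (norm_add_le _ _).trans ?_
    simp only [ContinuousLinearMap.coe_fst', ContinuousLinearMap.coe_snd']
    have a1 : ‖⟪p.1, q.2⟫‖ ≤ ‖p‖ * ‖q‖ := (norm_inner_le_norm _ _).trans
      (mul_le_mul (norm_fst_le p) (norm_snd_le q) (norm_nonneg _) (norm_nonneg _))
    have a2 : ‖⟪q.1, p.2⟫‖ ≤ ‖q‖ * ‖p‖ := (norm_inner_le_norm _ _).trans
      (mul_le_mul (norm_fst_le q) (norm_snd_le p) (norm_nonneg _) (norm_nonneg _))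
    nlinarith [norm_nonneg q, norm_nonneg p]

theorem _root_.P347.Tame.inner {E : Type} [NormedAddCommGroup E] [NormedSpace ℝ E] {f g : E → Space d}
    (hf : Tame f) (hg : Tame g) : Tame fun x => ⟪f x, g x⟫ :=
  tame_inner.comp (hf.prodMk hg)

theorem fderiv_inner_const {E : Type} [NormedAddCommGroup E] [NormedSpace ℝ E] {f : E → Space d}
    (hf : Tame f) (v : Space d) (x : E) :
    fderiv ℝ (fun y => ⟪v, f y⟫) x = (innerSL ℝ v).comp (fderiv ℝ f x) := by
  have h : HasFDerivAt (fun y => ⟪v, f y⟫) ((innerSL ℝ v).comp (fderiv ℝ f x)) x :=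
    (innerSL ℝ v).hasFDerivAt.comp x (hf.differentiable x).hasFDerivAt
  exact h.fderiv

/-- A derivative applied to a moving vector is integrable. -/
theorem integrable_fderiv_apply {E V F : Type} [NormedAddCommGroup E] [NormedSpace ℝ E]
    [CompleteSpace E] [SecondCountableTopology E] [MeasurableSpace E] [BorelSpace E]
    {μ : Measure E} [IsGaussian μ] [NormedAddCommGroup V] [NormedSpace ℝ V] [NormedAddCommGroup F]
    [NormedSpace ℝ F] [SecondCountableTopology F] {f : E → F} {w : E → V} (hf : Tame f)
    (hw : Tame w) (T : V →L[ℝ] E) :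
    Integrable (fun z => fderiv ℝ f z (T (w z))) μ := by
  obtain ⟨C, n, hC, hfb⟩ := hf.bound
  obtain ⟨D, k, hD, hwb⟩ := hw.bound
  refine integrable_of_poly (C := C * ‖T‖ * D) (n := n + k)
    ((hf.continuous_fderiv.clm_apply (T.continuous.comp hw.continuous)).aestronglyMeasurable)
    fun z => ?_
  have h1 := mul_le_mul_of_nonneg_left (hwb z).1 (norm_nonneg T)
  refine ((fderiv ℝ f z).le_opNorm _).trans ((mul_le_mul (hfb z).2 ((T.le_opNorm _).trans h1)
    (norm_nonneg _) (by positivity)).trans (le_of_eq ?_))
  rw [pow_add]; ring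

end Algebra

variable {R : Rule M} {δ t0 : ℝ} {g : Space d → Space d} {ρ L : ℝ}

/-- The centred displacement. -/
def err (R : Rule M) (g : Space d → Space d) (z : Space d × Seeds d M) : Space d :=
  disp R g z - psi R g z.1

/-- Seeds at a fixed point. -/
theorem tame_slice {F : Type} [NormedAddCommGroup F] [NormedSpace ℝ F]
    {h : Space d × Seeds d M → F} (hh : Tame h) (x : Space d) : Tame fun W => h (x, W) :=
  hh.comp ((tame_const x).prodMk (tame_clm (ContinuousLinearMap.id ℝ _)))

/-- Points at fixed seeds. -/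
theorem tame_section {F : Type} [NormedAddCommGroup F] [NormedSpace ℝ F]
    {h : Space d × Seeds d M → F} (hh : Tame h) (W : Seeds d M) : Tame fun x => h (x, W) :=
  hh.comp ((tame_clm (ContinuousLinearMap.id ℝ _)).prodMk (tame_const W))

theorem fderiv_slice {F : Type} [NormedAddCommGroup F] [NormedSpace ℝ F]
    {h : Space d × Seeds d M → F} (hh : Tame h) (x : Space d) (W u : Seeds d M) :
    fderiv ℝ (fun W => h (x, W)) W u = fderiv ℝ h (x, W) (0, u) := by
  have h1 : HasFDerivAt (fun W => h (x, W))
      ((fderiv ℝ h (x, W)).comp (.inr ℝ (Space d) (Seeds d M))) W :=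
    (hh.differentiable _).hasFDerivAt.comp W (hasFDerivAt_prodMk_right (𝕜 := ℝ) x W)
  rw [h1.fderiv]; rfl

theorem fderiv_section {F : Type} [NormedAddCommGroup F] [NormedSpace ℝ F]
    {h : Space d × Seeds d M → F} (hh : Tame h) (x : Space d) (W : Seeds d M) (u : Space d) :
    fderiv ℝ (fun x => h (x, W)) x u = fderiv ℝ h (x, W) (u, 0) := by
  rw [(hasFDerivAt_partial hh.1 x W).fderiv]; rfl

theorem tame_psi (hg : Drift g ρ L) (hR : R.Good δ t0) : Tame (psi (d := d) R g) :=
  tame_of_lip (contDiff_psi hg hR) (fderiv_psi_le hg hR)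

theorem tame_err (hg : Drift g ρ L) (hR : R.Good δ t0) : Tame (err (d := d) R g) :=
  (tame_disp hg hR).sub ((tame_psi hg hR).comp (tame_clm (.fst ℝ (Space d) (Seeds d M))))

theorem hasFDerivAt_err (hg : Drift g ρ L) (hR : R.Good δ t0) (z : Space d × Seeds d M) :
    HasFDerivAt (err R g)
      (dispD R g z - (fderiv ℝ (psi R g) z.1).comp (.fst ℝ (Space d) (Seeds d M))) z :=
  (hasFDerivAt_disp hg z).sub
    (((contDiff_psi hg hR).differentiable one_ne_zero _).hasFDerivAt.comp z hasFDerivAt_fst)

theorem integral_err (hg : Drift g ρ L) (hR : R.Good δ t0) (x : Space d) :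
    ∫ W, err R g (x, W) ∂stdGaussian (Seeds d M) = 0 := by
  simp only [err]
  rw [integral_sub (integrable_slice (tame_disp hg hR) x) (integrable_const _), integral_const,
    probReal_univ, one_smul, psi_eq_integral hg hR, sub_self]

theorem integral_inner_err (hg : Drift g ρ L) (hR : R.Good δ t0) (x v : Space d) :
    ∫ W, ⟪v, err R g (x, W)⟫ ∂stdGaussian (Seeds d M) = 0 := by
  rw [integral_inner (integrable_slice (tame_err hg hR) x) v, integral_err hg hR, inner_zero_right]

theorem fderiv_err_seed_le (hg : Drift g ρ L) (hR : R.Good δ t0) (x : Space d) (W : Seeds d M) :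
    ‖fderiv ℝ (fun W => err R g (x, W)) W‖ ≤ 4 * L := by
  have hL := hg.nonneg
  refine ContinuousLinearMap.opNorm_le_bound _ (by positivity) fun u => ?_
  rw [fderiv_slice (tame_err hg hR), (hasFDerivAt_err hg hR _).fderiv]
  simpa using dispD_seed_le hg hR (x, W) u

theorem fderiv_inner_err_le (hg : Drift g ρ L) (hR : R.Good δ t0) (x v : Space d) (W : Seeds d M) :
    ‖fderiv ℝ (fun W => ⟪v, err R g (x, W)⟫) W‖ ≤ ‖v‖ * (4 * L) := by
  rw [fderiv_inner_const (tame_slice (tame_err hg hR) x)]
  refine (ContinuousLinearMap.opNorm_comp_le _ _).trans ?_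
  rw [innerSL_apply_norm]
  exact mul_le_mul_of_nonneg_left (fderiv_err_seed_le hg hR x W) (norm_nonneg v)

/-- L2: replacing the random displacement by its mean. -/
theorem noise_weak (hg : Drift g ρ L) (hR : R.Good δ t0) {u : Space d → ℝ} {α β : ℝ}
    (hu : Test2 u α β) (c x : Space d) :
    |(∫ W, u (c + s2 R g x W) ∂stdGaussian (Seeds d M)) - u (c + (x - psi R g x))|
      ≤ 16 * L ^ 2 * √d * β := by
  set μ := stdGaussian (Seeds d M)
  set b := EuclideanSpace.basisFun (Fin d) ℝ
  have hL := hg.nonneg
  set m := c + (x - psi R g x)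
  set e : Seeds d M → Space d := fun W => err R g (x, W) with he
  have het : Tame e := tame_slice (tame_err hg hR) x
  have hu1 : ContDiff ℝ 1 u := hu.smooth.of_le (by norm_num)
  have hud : Differentiable ℝ u := hu1.differentiable one_ne_zero
  have hgc : ContDiff ℝ 1 (gradient u) :=
    (InnerProductSpace.toDual ℝ (Space d)).symm.contDiff.comp
      (hu.smooth.fderiv_right (by norm_num))
  have hub : ∀ y, ‖fderiv ℝ u y‖ ≤ α := fun y => by
    have := hu.grad y
    rwa [gradient, LinearIsometryEquiv.norm_map] at this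
  have hut : Tame u := tame_of_lip hu1 hub
  have hgu : Tame (gradient u) :=
    tame_of_lip hgc fun y => (norm_le_frob _).trans (hu.hess y)
  have hyt : ∀ t : ℝ, Tame fun W => m - t • e W := fun t =>
    (tame_const m).sub (het.clm_comp (t • ContinuousLinearMap.id ℝ (Space d)))
  have hyd : ∀ (t : ℝ) W, HasFDerivAt (fun W => m - t • e W) (-(t • fderiv ℝ e W)) W :=
    fun t W => ((het.differentiable W).hasFDerivAt.const_smul t).const_sub m
  set φ : ℝ → ℝ := fun t => ∫ W, u (m - t • e W) ∂μ
  have hder : ∀ t, HasDerivAt φ (∫ W, fderiv ℝ u (m - t • e W) (-e W) ∂μ) t := by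
    intro t
    have hc : Continuous fun W => fderiv ℝ u (m - t • e W) (-e W) :=
      (hut.continuous_fderiv.comp (hyt t).continuous).clm_apply het.continuous.neg
    refine (hasDerivAt_integral_of_dominated_loc_of_deriv_le
      (F' := fun s W => fderiv ℝ u (m - s • e W) (-e W)) (bound := fun W => α * ‖e W‖)
      (Metric.ball_mem_nhds t one_pos)
      (Filter.Eventually.of_forall fun s => (hut.comp (hyt s)).continuous.aestronglyMeasurable)
      (hut.comp (hyt t)).integrable hc.aestronglyMeasurable
      (Filter.Eventually.of_forall fun W s _ => ?_)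
      ((Tame.integrable (μ := μ) het).norm.const_mul α)
      (Filter.Eventually.of_forall fun W s _ => ?_)).2
    · refine ((fderiv ℝ u _).le_opNorm _).trans ?_
      rw [norm_neg]
      exact mul_le_mul_of_nonneg_right (hub _) (norm_nonneg _)
    · have h1 : HasDerivAt (fun s : ℝ => m - s • e W) (-e W) s := by
        simpa using ((hasDerivAt_id s).smul_const (e W)).const_sub m
      exact (hud _).hasFDerivAt.comp_hasDerivAt s h1
  have hbd : ∀ t ∈ Set.Ico (0 : ℝ) 1,
      ‖∫ W, fderiv ℝ u (m - t • e W) (-e W) ∂μ‖ ≤ 16 * L ^ 2 * √d * β := by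
    intro t ht
    have ek : ∀ i, Tame fun W => ⟪b i, gradient u (m - t • e W)⟫ := fun i =>
      (hgu.comp (hyt t)).clm_comp (innerSL ℝ (b i))
    have ef : ∀ i, Tame fun W => ⟪b i, e W⟫ := fun i => het.clm_comp (innerSL ℝ (b i))
    have hpt : ∀ W, fderiv ℝ u (m - t • e W) (-e W)
        = -∑ i, ⟪b i, e W⟫ * ⟪b i, gradient u (m - t • e W)⟫ := fun W => by
      rw [map_neg, ← inner_gradient, ← b.sum_inner_mul_inner (gradient u _) (e W)]
      exact congrArg _ (Finset.sum_congr rfl fun i _ => by rw [real_inner_comm, mul_comm])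
    have hi : ∀ i, Integrable (fun W => ⟪b i, e W⟫ * ⟪b i, gradient u (m - t • e W)⟫) μ :=
      fun i => ((ef i).mul (ek i)).integrable
    simp only [hpt]
    rw [integral_neg, norm_neg, integral_finsetSum _ fun i _ => hi i, Real.norm_eq_abs]
    refine (Finset.abs_sum_le_sum_abs _ _).trans ?_
    set w : Fin d → Seeds d M → ℝ := fun i W =>
      ‖(innerSL ℝ (b i)).comp (fderiv ℝ (gradient u) (m - t • e W))‖ with hw
    have hwc : ∀ i, Continuous (w i) := fun i =>
      (continuous_const.clm_comp (hgu.continuous_fderiv.comp (hyt t).continuous)).norm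
    have hwb : ∀ i W, w i W ≤ ‖innerSL ℝ (b i)‖ * β := fun i W =>
      (ContinuousLinearMap.opNorm_comp_le _ _).trans (mul_le_mul_of_nonneg_left
        ((norm_le_frob _).trans (hu.hess _)) (norm_nonneg _))
    have hwi : ∀ i, Integrable (w i) μ := fun i =>
      (integrable_const _).mono' (hwc i).aestronglyMeasurable
        (Filter.Eventually.of_forall fun W => by
          rw [Real.norm_of_nonneg (norm_nonneg _)]; exact hwb i W)
    have hrow : ∀ i, |∫ W, ⟪b i, e W⟫ * ⟪b i, gradient u (m - t • e W)⟫ ∂μ|
        ≤ 4 * L * ∫ W, 4 * L * w i W ∂μ := by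
      intro i
      have h := cov_scalar (f := fun W => ⟪b i, e W⟫) (ef i).1 (L := 4 * L) (fun W => by
        simpa [b.orthonormal.1 i] using fderiv_inner_err_le hg hR x (b i) W) (ek i)
      rw [integral_inner_err hg hR x (b i), zero_mul, sub_zero] at h
      refine h.trans (mul_le_mul_of_nonneg_left ?_ (by positivity))
      refine integral_mono_of_nonneg (Filter.Eventually.of_forall fun W => norm_nonneg _)
        ((hwi i).const_mul _) (Filter.Eventually.of_forall fun W => ?_)
      have h1 : HasFDerivAt (fun W => ⟪b i, gradient u (m - t • e W)⟫)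
          (((innerSL ℝ (b i)).comp (fderiv ℝ (gradient u) (m - t • e W))).comp
            (-(t • fderiv ℝ e W))) W :=
        ((innerSL ℝ (b i)).hasFDerivAt.comp _ (hgu.differentiable _).hasFDerivAt).comp W (hyd t W)
      simp only [h1.fderiv]
      refine (ContinuousLinearMap.opNorm_comp_le _ _).trans (le_trans ?_ (le_of_eq (mul_comm _ _)))
      refine mul_le_mul_of_nonneg_left ?_ (norm_nonneg _)
      rw [norm_neg, norm_smul, Real.norm_eq_abs, abs_of_nonneg ht.1]
      exact (mul_le_of_le_one_left (norm_nonneg _) ht.2.le).trans (fderiv_err_seed_le hg hR x W)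
    refine (Finset.sum_le_sum fun i _ => hrow i).trans ?_
    rw [← Finset.mul_sum, ← integral_finsetSum _ fun i _ => (hwi i).const_mul _]
    refine le_trans (mul_le_mul_of_nonneg_left (integral_mono
      (integrable_finsetSum _ fun i _ => (hwi i).const_mul _) (integrable_const (4 * L * (√d * β)))
      fun W => ?_) (by positivity)) (le_of_eq ?_)
    · simp only [← Finset.mul_sum]
      exact mul_le_mul_of_nonneg_left ((sum_rows_le _).trans (mul_le_mul_of_nonneg_left
        (hu.hess _) (Real.sqrt_nonneg _))) (by positivity)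
    · simp; ring
  have h := norm_image_sub_le_of_norm_deriv_le_segment_01'
    (fun t _ => (hder t).hasDerivWithinAt) hbd
  have e1 : φ 1 = ∫ W, u (c + s2 R g x W) ∂μ := by
    refine integral_congr_ae (Filter.Eventually.of_forall fun W => congrArg u ?_)
    simp only [m, he, err, disp, s2, one_smul]
    abel
  have e0 : φ 0 = u (c + (x - psi R g x)) := by simp [φ, m]
  rw [e1, e0] at h
  exact h

/-! ## The bias -/

section Bias

variable {a : Space d → Space d} {α β : ℝ}

/-- The interpolated point. -/
def point (R : Rule M) (g : Space d → Space d) (t : ℝ) (z : Space d × Seeds d M) : Space d :=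
  z.1 - psi R g z.1 - t • err R g z

/-- The pairing of the field with the drift at the interpolated point. -/
def pairing (R : Rule M) (g a : Space d → Space d) (t : ℝ) (z : Space d × Seeds d M) : ℝ :=
  ⟪a z.1, g (point R g t z)⟫

/-- The divergence of the centred displacement in the point. -/
def divErr (R : Rule M) (g : Space d → Space d) (z : Space d × Seeds d M) : ℝ :=
  ∑ j, ⟪EuclideanSpace.basisFun (Fin d) ℝ j,
    fderiv ℝ (err R g) z (EuclideanSpace.basisFun (Fin d) ℝ j, 0)⟫

/-- The divergence of one node in the point. -/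
def divNode (R : Rule M) (g : Space d → Space d) (q : Fin M) (z : Space d × Seeds d M) : ℝ :=
  ∑ j, ⟪EuclideanSpace.basisFun (Fin d) ℝ j,
    hqD R g q z (EuclideanSpace.basisFun (Fin d) ℝ j, 0)⟫

theorem Field.tame (ha : Field a α β) : Tame a :=
  tame_of_lip ha.smooth fun x => (norm_le_frob _).trans (ha.deriv x)

theorem tame_drift (hg : Drift g ρ L) : Tame g := tame_of_lip hg.smooth hg.deriv

theorem tame_point (hg : Drift g ρ L) (hR : R.Good δ t0) (t : ℝ) :
    Tame (point (d := d) R g t) :=
  (((tame_clm (.fst ℝ (Space d) (Seeds d M))).sub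
    ((tame_psi hg hR).comp (tame_clm (.fst ℝ (Space d) (Seeds d M))))).sub
    ((tame_err hg hR).clm_comp (t • ContinuousLinearMap.id ℝ (Space d))))

theorem tame_pairing (hg : Drift g ρ L) (hR : R.Good δ t0) (ha : Field a α β) (t : ℝ) :
    Tame (pairing R g a t) :=
  (ha.tame.comp (tame_clm (.fst ℝ (Space d) (Seeds d M)))).inner
    ((tame_drift hg).comp (tame_point hg hR t))

theorem fderiv_point (hg : Drift g ρ L) (hR : R.Good δ t0) (t : ℝ) (z v : Space d × Seeds d M) :
    fderiv ℝ (point R g t) z v
      = v.1 - ((1 - t) • fderiv ℝ (psi R g) z.1 v.1 + t • dispD R g z v) := by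
  have h1 : HasFDerivAt (fun z : Space d × Seeds d M => z.1 - psi R g z.1)
      (ContinuousLinearMap.fst ℝ _ _ - (fderiv ℝ (psi R g) z.1).comp
        (ContinuousLinearMap.fst ℝ (Space d) (Seeds d M))) z :=
    hasFDerivAt_fst.sub
      (((contDiff_psi hg hR).differentiable one_ne_zero _).hasFDerivAt.comp z hasFDerivAt_fst)
  have h2 : HasFDerivAt (point R g t) _ z := h1.sub ((hasFDerivAt_err hg hR z).const_smul t)
  rw [h2.fderiv]
  simp [sub_smul, smul_sub]
  abel

theorem fderiv_pairing (hg : Drift g ρ L) (hR : R.Good δ t0) (ha : Field a α β) (t : ℝ)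
    (z v : Space d × Seeds d M) :
    fderiv ℝ (pairing R g a t) z v
      = ⟪a z.1, fderiv ℝ g (point R g t z) (fderiv ℝ (point R g t) z v)⟫
        + ⟪fderiv ℝ a z.1 v.1, g (point R g t z)⟫ := by
  have h1 : HasFDerivAt (fun z : Space d × Seeds d M => a z.1)
      ((fderiv ℝ a z.1).comp (ContinuousLinearMap.fst ℝ _ _)) z :=
    (ha.tame.differentiable _).hasFDerivAt.comp z hasFDerivAt_fst
  have h2 : HasFDerivAt (fun z => g (point R g t z))
      ((fderiv ℝ g (point R g t z)).comp (fderiv ℝ (point R g t) z)) z :=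
    (hg.differentiable _).hasFDerivAt.comp z ((tame_point hg hR t).differentiable z).hasFDerivAt
  rw [show pairing R g a t = fun z => ⟪a z.1, g (point R g t z)⟫ from rfl,
    (h1.inner ℝ h2).fderiv]
  simp [fderivInnerCLM_apply, real_inner_comm, add_comm]

theorem fderiv_point_seed_le (hg : Drift g ρ L) (hR : R.Good δ t0) {t : ℝ}
    (ht : t ∈ Set.Icc (0 : ℝ) 1) (z : Space d × Seeds d M) (u : Seeds d M) :
    ‖fderiv ℝ (point R g t) z (0, u)‖ ≤ 4 * L * ‖u‖ := by
  rw [fderiv_point hg hR]
  simp only [map_zero, smul_zero, zero_add, zero_sub, norm_neg, norm_smul, Real.norm_eq_abs,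
    abs_of_nonneg ht.1]
  exact (mul_le_of_le_one_left (norm_nonneg _) ht.2).trans (dispD_seed_le hg hR z u)

theorem fderiv_pairing_seed_le (hg : Drift g ρ L) (hR : R.Good δ t0) (ha : Field a α β) {t : ℝ}
    (ht : t ∈ Set.Icc (0 : ℝ) 1) (x : Space d) (W : Seeds d M) :
    ‖fderiv ℝ (fun W => pairing R g a t (x, W)) W‖ ≤ α * (L * (4 * L)) := by
  have hα : 0 ≤ α := (norm_nonneg _).trans (ha.bound 0)
  have hL := hg.nonneg
  refine ContinuousLinearMap.opNorm_le_bound _ (by positivity) fun u => ?_
  rw [fderiv_slice (tame_pairing hg hR ha t), fderiv_pairing hg hR ha]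
  simp only [map_zero, inner_zero_left, add_zero]
  refine (norm_inner_le_norm _ _).trans ?_
  rw [mul_assoc α, mul_assoc L]
  refine mul_le_mul (ha.bound x) ((hg.apply_le _ _).trans (mul_le_mul_of_nonneg_left
    (fderiv_point_seed_le hg hR ht _ u) hL)) (norm_nonneg _) hα

theorem integrable_slot_inner (hg : Drift g ρ L) (hR : R.Good δ t0) (q : Fin M) (x : Space d) :
    Tame fun W : Seeds d M => ⟪slot W q none, hq R g x W q⟫ :=
  (tame_clm (slotL q none)).inner (tame_slice (tame_hq hg hR q) x)

/-- Integration by parts in the outer seeds of one node. -/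
theorem slot_parts (hg : Drift g ρ L) (hR : R.Good δ t0) (q : Fin M) (x : Space d)
    {k : Seeds d M → ℝ} (hk : Tame k) :
    ∫ W, k W * divNode R g q (x, W) ∂stdGaussian (Seeds d M)
      = R.th q / R.sd q * (∫ W, k W * ⟪slot W q none, hq R g x W q⟫ ∂stdGaussian (Seeds d M)
          - ∫ W, fderiv ℝ k W (embL q (hq R g x W q)) ∂stdGaussian (Seeds d M)) := by
  set μ := stdGaussian (Seeds d M)
  set b := EuclideanSpace.basisFun (Fin d) ℝ
  have hH : Tame fun W => hq R g x W q := tame_slice (tame_hq hg hR q) x
  have hj : ∀ j, Tame fun W => ⟪b j, hq R g x W q⟫ := fun j => hH.clm_comp (innerSL ℝ (b j))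
  have hD : ∀ j W, fderiv ℝ (fun W => ⟪b j, hq R g x W q⟫) W (embL q (b j))
      = ⟪b j, hqD R g q (x, W) (0, embL q (b j))⟫ := fun j W => by
    rw [fderiv_inner_const hH]
    have e := fderiv_slice (tame_hq hg hR q) x W (embL q (b j))
    rw [(hasFDerivAt_hq (R := R) hg q (x, W)).fderiv] at e
    simp [e]
  have hp : ∀ j, ∫ W, k W * ⟪b j, hqD R g q (x, W) (0, embL q (b j))⟫ ∂μ
      = ∫ W, k W * (⟪b j, slot W q none⟫ * ⟪b j, hq R g x W q⟫) ∂μ
        - ∫ W, fderiv ℝ k W (embL q (b j)) * ⟪b j, hq R g x W q⟫ ∂μ := by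
    intro j
    have h := gauss_parts (hk.mul (hj j)) (embL q (b j))
    have hd : ∀ W, fderiv ℝ (fun W => k W * ⟪b j, hq R g x W q⟫) W (embL q (b j))
        = k W * ⟪b j, hqD R g q (x, W) (0, embL q (b j))⟫
          + fderiv ℝ k W (embL q (b j)) * ⟪b j, hq R g x W q⟫ := fun W => by
      rw [fderiv_fun_mul (hk.differentiable W) ((hj j).differentiable W)]
      simp [hD]
      ring
    simp only [hd, inner_emb] at h
    have i1 : Integrable (fun W => fderiv ℝ k W (embL q (b j)) * ⟪b j, hq R g x W q⟫) μ := by
      refine (integrable_fderiv_apply (μ := μ) hk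
        ((hj j).clm_comp (ContinuousLinearMap.toSpanSingleton ℝ (b j))) (embL q)).congr
        (Filter.Eventually.of_forall fun W => ?_)
      simp [mul_comm]
    have i2 : Integrable (fun W => k W * ⟪b j, hqD R g q (x, W) (0, embL q (b j))⟫) μ := by
      have h2 := ((integrable_fderiv_apply (μ := μ) (hk.mul (hj j))
        (tame_const (b j)) (embL q))).sub i1
      refine h2.congr (Filter.Eventually.of_forall fun W => ?_)
      simp [hd]
    rw [integral_add i2 i1] at h
    rw [eq_sub_iff_add_eq, ← h]
    exact integral_congr_ae (Filter.Eventually.of_forall fun W => by ring)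
  have iW : ∀ j, Integrable (fun W => k W * (⟪b j, slot W q none⟫ * ⟪b j, hq R g x W q⟫)) μ :=
    fun j => (hk.mul (((tame_clm (slotL q none)).clm_comp (innerSL ℝ (b j))).mul (hj j))).integrable
  have iD : ∀ j, Integrable (fun W => fderiv ℝ k W (embL q (b j)) * ⟪b j, hq R g x W q⟫) μ :=
    fun j => (integrable_fderiv_apply (μ := μ) hk
      ((hj j).clm_comp (ContinuousLinearMap.toSpanSingleton ℝ (b j))) (embL q)).congr
      (Filter.Eventually.of_forall fun W => by simp [mul_comm])
  have e1 : ∀ W, k W * ⟪slot W q none, hq R g x W q⟫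
      = ∑ j, k W * (⟪b j, slot W q none⟫ * ⟪b j, hq R g x W q⟫) := fun W => by
    rw [← Finset.mul_sum, ← b.sum_inner_mul_inner (slot W q none)]
    exact congrArg _ (Finset.sum_congr rfl fun j _ => by rw [real_inner_comm (b j)])
  have e2 : ∀ W, fderiv ℝ k W (embL q (hq R g x W q))
      = ∑ j, fderiv ℝ k W (embL q (b j)) * ⟪b j, hq R g x W q⟫ := fun W => by
    conv_lhs => rw [← b.sum_repr' (hq R g x W q)]
    simp [mul_comm]
  have e3 : ∀ W, k W * divNode R g q (x, W)
      = ∑ j, R.th q / R.sd q * (k W * ⟪b j, hqD R g q (x, W) (0, embL q (b j))⟫) := fun W => by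
    rw [divNode, Finset.mul_sum]
    refine Finset.sum_congr rfl fun j _ => ?_
    rw [hqD_transfer hg hR, real_inner_smul_right]
    ring
  have i3 : ∀ j, Integrable (fun W => k W * ⟪b j, hqD R g q (x, W) (0, embL q (b j))⟫) μ := by
    intro j
    have hd : ∀ W, k W * ⟪b j, hqD R g q (x, W) (0, embL q (b j))⟫
        = fderiv ℝ (fun W => k W * ⟪b j, hq R g x W q⟫) W (embL q (b j))
          - fderiv ℝ k W (embL q (b j)) * ⟪b j, hq R g x W q⟫ := fun W => by
      rw [fderiv_fun_mul (hk.differentiable W) ((hj j).differentiable W)]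
      simp [hD]
      ring
    simp only [hd]
    exact (integrable_fderiv_apply (μ := μ) (hk.mul (hj j)) (tame_const (b j)) (embL q)).sub (iD j)
  simp only [e1, e2, e3]
  rw [integral_finsetSum _ fun j _ => iW j, integral_finsetSum _ fun j _ => iD j,
    integral_finsetSum _ fun j _ => (i3 j).const_mul _, ← Finset.sum_sub_distrib, Finset.mul_sum]
  exact Finset.sum_congr rfl fun j _ => by rw [integral_const_mul, hp j]

theorem integral_slot_hq_le (hg : Drift g ρ L) (hR : R.Good δ t0) (q : Fin M) (x : Space d) :
    ∫ W, ‖fderiv ℝ (fun W => ⟪slot W q none, hq R g x W q⟫) W‖ ∂stdGaussian (Seeds d M)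
      ≤ 2 * ρ + 2 * L * ‖x‖ + 4 * L * √d := by
  set μ := stdGaussian (Seeds d M)
  have hL := hg.nonneg
  have hH : Tame fun W => hq R g x W q := tame_slice (tame_hq hg hR q) x
  refine (integral_mono_of_nonneg (Filter.Eventually.of_forall fun W => norm_nonneg _)
    ((Tame.integrable (μ := μ) hH).norm.add ((integrable_norm_slot q none).const_mul (2 * L)))
    (Filter.Eventually.of_forall fun W => ?_)).trans ?_
  · refine ContinuousLinearMap.opNorm_le_bound _ (add_nonneg (norm_nonneg _)
      (by positivity)) fun u => ?_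
    have h1 : HasFDerivAt (fun W => ⟪slot W q none, hq R g x W q⟫) _ W :=
      (slotL q none).hasFDerivAt.inner ℝ (hH.differentiable W).hasFDerivAt
    rw [h1.fderiv]
    simp only [fderivInnerCLM_apply, ContinuousLinearMap.comp_apply, ContinuousLinearMap.prod_apply,
      slotL_apply, Pi.add_apply]
    refine (norm_add_le _ _).trans ?_
    have e := fderiv_slice (tame_hq hg hR q) x W u
    rw [(hasFDerivAt_hq (R := R) hg q (x, W)).fderiv] at e
    rw [e, add_mul]
    refine (add_le_add (norm_inner_le_norm (slot W q none) _)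
      (norm_inner_le_norm (slot u q none) _)).trans ?_
    rw [add_comm]
    refine add_le_add ((mul_comm _ _).trans_le (mul_le_mul_of_nonneg_left (norm_slot_le u q none)
      (norm_nonneg _))) ((mul_le_mul_of_nonneg_left (hqD_seed_le hg hR q _ u)
      (norm_nonneg _)).trans (le_of_eq (by ring)))
  · rw [integral_add' (Tame.integrable hH).norm ((integrable_norm_slot q none).const_mul _),
      integral_const_mul]
    nlinarith [integral_hq_le hg hR q x,
      mul_le_mul_of_nonneg_left (integral_norm_slot_le (d := d) q none) hL]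

theorem continuous_hqD (hg : Drift g ρ L) (hR : R.Good δ t0) (q : Fin M) :
    Continuous (hqD (d := d) R g q) := by
  have h := (tame_hq hg hR q).continuous_fderiv
  have e : fderiv ℝ (fun z : Space d × Seeds d M => hq R g z.1 z.2 q) = hqD R g q :=
    funext fun z => (hasFDerivAt_hq hg q z).fderiv
  rwa [e] at h

theorem continuous_dispD (hg : Drift g ρ L) (hR : R.Good δ t0) :
    Continuous (dispD (d := d) R g) := by
  have h := (tame_disp hg hR).continuous_fderiv
  have e : fderiv ℝ (disp (d := d) R g) = dispD R g :=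
    funext fun z => (hasFDerivAt_disp hg z).fderiv
  rwa [e] at h

theorem continuous_divNode (hg : Drift g ρ L) (hR : R.Good δ t0) (q : Fin M) :
    Continuous (divNode (d := d) R g q) := by
  have h := continuous_hqD (d := d) hg hR q
  unfold divNode
  fun_prop

theorem norm_divNode_le (hg : Drift g ρ L) (hR : R.Good δ t0) (q : Fin M)
    (z : Space d × Seeds d M) : ‖divNode R g q z‖ ≤ d * (3 / 2 * L) := by
  refine (norm_sum_le _ _).trans ?_
  refine (Finset.sum_le_card_nsmul _ _ (3 / 2 * L) fun j _ => ?_).trans (le_of_eq (by simp))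
  refine (norm_inner_le_norm _ _).trans ?_
  simpa using hqD_x_le hg hR q z (EuclideanSpace.basisFun (Fin d) ℝ j)

theorem integrable_divNode (hg : Drift g ρ L) (hR : R.Good δ t0) (q : Fin M) (x : Space d) :
    Integrable (fun W => divNode R g q (x, W)) (stdGaussian (Seeds d M)) :=
  (integrable_const _).mono'
    ((continuous_divNode hg hR q).comp (Continuous.prodMk_right x)).aestronglyMeasurable
    (Filter.Eventually.of_forall fun W => norm_divNode_le hg hR q (x, W))

theorem integrable_mul_divNode (hg : Drift g ρ L) (hR : R.Good δ t0) (q : Fin M) (x : Space d)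
    {F : Seeds d M → ℝ} (hF : Tame F) :
    Integrable (fun W => F W * divNode R g q (x, W)) (stdGaussian (Seeds d M)) :=
  (Tame.integrable hF).mul_bdd
    ((continuous_divNode hg hR q).comp (Continuous.prodMk_right x)).aestronglyMeasurable
    (Filter.Eventually.of_forall fun W => norm_divNode_le hg hR q (x, W))

theorem integral_inl_sum (hg : Drift g ρ L) (hR : R.Good δ t0) (x : Space d) (j : Fin d) :
    ⟪EuclideanSpace.basisFun (Fin d) ℝ j,
        fderiv ℝ (psi R g) x (EuclideanSpace.basisFun (Fin d) ℝ j)⟫
      = ∫ W, ⟪EuclideanSpace.basisFun (Fin d) ℝ j,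
          dispD R g (x, W) (EuclideanSpace.basisFun (Fin d) ℝ j, 0)⟫
          ∂stdGaussian (Seeds d M) := by
  set μ := stdGaussian (Seeds d M)
  set b := EuclideanSpace.basisFun (Fin d) ℝ
  have hc : Continuous fun W : Seeds d M =>
      (dispD R g (x, W)).comp (.inl ℝ (Space d) (Seeds d M)) := by
    have h := continuous_dispD hg hR
    fun_prop
  have hi : Integrable (fun W : Seeds d M =>
      (dispD R g (x, W)).comp (.inl ℝ (Space d) (Seeds d M))) μ :=
    (integrable_const (3 * L)).mono' hc.aestronglyMeasurable (Filter.Eventually.of_forall fun W =>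
      ContinuousLinearMap.opNorm_le_bound _ (by linarith [hg.nonneg])
        fun u => dispD_x_le hg hR (x, W) u)
  rw [(hasFDerivAt_psi hg hR x).fderiv, ContinuousLinearMap.integral_apply hi,
    ← integral_inner (hi.apply_continuousLinearMap _)]
  rfl

theorem divErr_eq (hg : Drift g ρ L) (hR : R.Good δ t0) (x : Space d) (W : Seeds d M) :
    divErr R g (x, W) = ∑ q, R.weight q * (divNode R g q (x, W)
      - ∫ W', divNode R g q (x, W') ∂stdGaussian (Seeds d M)) := by
  set μ := stdGaussian (Seeds d M)
  set b := EuclideanSpace.basisFun (Fin d) ℝ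
  have hs : ∀ W', ∑ q, R.weight q * divNode R g q (x, W')
      = ∑ j, ⟪b j, dispD R g (x, W') (b j, 0)⟫ := fun W' => by
    simp only [divNode, Finset.mul_sum]
    rw [Finset.sum_comm]
    refine Finset.sum_congr rfl fun j _ => ?_
    simp [dispD, inner_sum, real_inner_smul_right, b]
  have hji : ∀ j, Integrable (fun W' => ⟪b j, dispD R g (x, W') (b j, 0)⟫) μ := fun j => by
    have h := continuous_dispD (d := d) hg hR
    exact (integrable_const (‖b j‖ * (3 * L * ‖b j‖))).mono'
      (Continuous.aestronglyMeasurable (by fun_prop))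
      (Filter.Eventually.of_forall fun W' => (norm_inner_le_norm _ _).trans
        (mul_le_mul_of_nonneg_left (dispD_x_le hg hR _ _) (norm_nonneg _)))
  simp only [mul_sub, Finset.sum_sub_distrib, ← integral_const_mul]
  rw [← integral_finsetSum _ fun q _ => (integrable_divNode hg hR q x).const_mul _]
  simp only [hs]
  rw [integral_finsetSum _ fun j _ => hji j, ← Finset.sum_sub_distrib]
  simp only [divErr]
  refine Finset.sum_congr rfl fun j _ => ?_
  rw [(hasFDerivAt_err hg hR _).fderiv, ← integral_inl_sum hg hR x j]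
  simp [b, inner_sub_right]

theorem fderiv_pairing_emb_le (hg : Drift g ρ L) (hR : R.Good δ t0) (ha : Field a α β) {t : ℝ}
    (ht : t ∈ Set.Icc (0 : ℝ) 1) (q : Fin M) (x : Space d) (W : Seeds d M) (u : Space d) :
    |fderiv ℝ (fun W => pairing R g a t (x, W)) W (embL q u)|
      ≤ α * (L * (3 / 2 * L * R.weight q * R.sd q)) * ‖u‖ := by
  have hα : 0 ≤ α := (norm_nonneg _).trans (ha.bound 0)
  rw [fderiv_slice (tame_pairing hg hR ha t), fderiv_pairing hg hR ha]
  simp only [map_zero, inner_zero_left, add_zero]
  refine (abs_real_inner_le_norm _ _).trans ?_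
  rw [mul_assoc α, mul_assoc L]
  refine mul_le_mul (ha.bound x) ((hg.apply_le _ _).trans
    (mul_le_mul_of_nonneg_left ?_ hg.nonneg)) (norm_nonneg _) hα
  rw [fderiv_point hg hR]
  simp only [map_zero, smul_zero, zero_add, zero_sub, norm_neg, norm_smul, Real.norm_eq_abs,
    abs_of_nonneg ht.1]
  exact (mul_le_of_le_one_left (norm_nonneg _) ht.2).trans (dispD_emb_le hg hR q _ _)

theorem cov_pairing_node_le (hg : Drift g ρ L) (hR : R.Good δ t0) (ha : Field a α β) {t : ℝ}
    (ht : t ∈ Set.Icc (0 : ℝ) 1) (q : Fin M) (x : Space d) :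
    |∫ W, pairing R g a t (x, W) * divNode R g q (x, W) ∂stdGaussian (Seeds d M)
        - (∫ W, pairing R g a t (x, W) ∂stdGaussian (Seeds d M))
          * ∫ W, divNode R g q (x, W) ∂stdGaussian (Seeds d M)|
      ≤ α * L ^ 2 * (2 * ρ + 2 * L * ‖x‖ + 4 * L * √d)
        * (4 / R.sd q + 3 / 2 * R.weight q) := by
  set μ := stdGaussian (Seeds d M)
  set F : Seeds d M → ℝ := fun W => pairing R g a t (x, W)
  set K := 2 * ρ + 2 * L * ‖x‖ + 4 * L * √d with hK
  have hL := hg.nonneg
  have hρ := hg.rho_nonneg
  have hα : 0 ≤ α := (norm_nonneg _).trans (ha.bound 0)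
  have hw := hR.nonneg q
  have hs := hR.sd_pos q
  have hK0 : 0 ≤ K := by positivity
  have hFt : Tame F := tame_slice (tame_pairing hg hR ha t) x
  have h1 := slot_parts hg hR q x hFt
  have h2 := slot_parts hg hR q x (tame_const (E := Seeds d M) (1 : ℝ))
  simp only [one_mul, fderiv_fun_const, Pi.zero_apply, _root_.zero_apply, integral_zero,
    sub_zero] at h2
  rw [h1, h2]
  have e : ∀ r A B C D : ℝ, r * (A - B) - C * (r * D) = r * ((A - C * D) - B) := by
    intros; ring
  rw [e, abs_mul, abs_of_nonneg (div_nonneg (R.th_pos q).le (R.sd_nonneg q))]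
  have hc := (cov_scalar (f := F) hFt.1 (L := α * (L * (4 * L)))
      (fun W => fderiv_pairing_seed_le hg hR ha ht x W) (integrable_slot_inner hg hR q x)).trans
    (mul_le_mul_of_nonneg_left (integral_slot_hq_le hg hR q x) (by positivity))
  have hd : |∫ W, fderiv ℝ F W (embL q (hq R g x W q)) ∂μ|
      ≤ α * (L * (3 / 2 * L * R.weight q * R.sd q)) * K := by
    have hH : Tame fun W => hq R g x W q := tame_slice (tame_hq hg hR q) x
    refine abs_integral_le_integral_abs.trans ?_
    refine (integral_mono_of_nonneg (Filter.Eventually.of_forall fun W => abs_nonneg _)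
      ((Tame.integrable (μ := μ) hH).norm.const_mul _)
      (Filter.Eventually.of_forall fun W => fderiv_pairing_emb_le hg hR ha ht q x W _)).trans ?_
    rw [integral_const_mul]
    refine mul_le_mul_of_nonneg_left ((integral_hq_le hg hR q x).trans ?_) (by positivity)
    nlinarith [mul_nonneg hL (Real.sqrt_nonneg (d : ℝ))]
  refine (mul_le_mul_of_nonneg_left ((abs_sub _ _).trans (add_le_add hc hd))
    (div_nonneg (R.th_pos q).le (R.sd_nonneg q))).trans ?_
  refine (mul_le_mul_of_nonneg_right (div_le_div_of_nonneg_right (hR.th_lt q).le hs.le)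
    (by positivity)).trans (le_of_eq ?_)
  field_simp
  rw [hK]
  ring

theorem integral_pairing_div_le (hg : Drift g ρ L) (hR : R.Good δ t0) (ha : Field a α β) {t : ℝ}
    (ht : t ∈ Set.Icc (0 : ℝ) 1) (x : Space d) :
    |∫ W, pairing R g a t (x, W) * divErr R g (x, W) ∂stdGaussian (Seeds d M)|
      ≤ 38 * α * L ^ 2 * (2 * ρ + 2 * L * ‖x‖ + 4 * L * √d) := by
  set μ := stdGaussian (Seeds d M)
  set F : Seeds d M → ℝ := fun W => pairing R g a t (x, W)
  set K := 2 * ρ + 2 * L * ‖x‖ + 4 * L * √d with hK
  have hL := hg.nonneg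
  have hρ := hg.rho_nonneg
  have hα : 0 ≤ α := (norm_nonneg _).trans (ha.bound 0)
  have hK0 : 0 ≤ K := by positivity
  have hFt : Tame F := tame_slice (tame_pairing hg hR ha t) x
  set m : Fin M → ℝ := fun q => ∫ W, divNode R g q (x, W) ∂μ
  have e : ∀ W, F W * divErr R g (x, W)
      = ∑ q, R.weight q * (F W * divNode R g q (x, W) - m q * F W) := fun W => by
    rw [divErr_eq hg hR, Finset.mul_sum]
    exact Finset.sum_congr rfl fun q _ => by ring
  rw [integral_congr_ae (Filter.Eventually.of_forall e), integral_finsetSum _ fun q _ => ((integrable_mul_divNode hg hR q x hFt).sub'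
    ((Tame.integrable hFt).const_mul _)).const_mul _]
  refine (Finset.abs_sum_le_sum_abs _ _).trans ?_
  have hq1 : ∀ q, |∫ W, R.weight q * (F W * divNode R g q (x, W) - m q * F W) ∂μ|
      ≤ α * L ^ 2 * K * (4 * (R.weight q / R.sd q) + 3 / 2 * (R.weight q * R.weight q)) := by
    intro q
    rw [integral_const_mul, integral_sub (integrable_mul_divNode hg hR q x hFt)
      ((Tame.integrable hFt).const_mul _), integral_const_mul, abs_mul,
      abs_of_nonneg (hR.nonneg q), mul_comm (m q)]
    refine (mul_le_mul_of_nonneg_left (cov_pairing_node_le hg hR ha ht q x) (hR.nonneg q)).trans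
      (le_of_eq ?_)
    ring
  refine (Finset.sum_le_sum fun q _ => hq1 q).trans ?_
  rw [← Finset.mul_sum, Finset.sum_add_distrib, ← Finset.mul_sum, ← Finset.mul_sum]
  have hw : ∑ q, R.weight q * R.weight q ≤ 2 * 2 := hR.sum_mul_le zero_le_two fun q =>
    (Finset.single_le_sum (fun r _ => hR.nonneg r) (Finset.mem_univ q)).trans hR.sum_weight
  have := hR.sum_div
  refine (mul_le_mul_of_nonneg_left (show (4 : ℝ) * ∑ q, R.weight q / R.sd q
    + 3 / 2 * ∑ q, R.weight q * R.weight q ≤ 38 by linarith) (by positivity)).trans (le_of_eq ?_)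
  ring

theorem norm_err_integral_le (hg : Drift g ρ L) (hR : R.Good δ t0) (x : Space d) :
    ∫ W, ‖err R g (x, W)‖ ∂stdGaussian (Seeds d M) ≤ 4 * (2 * ρ + 2 * L * (‖x‖ + √d)) := by
  set μ := stdGaussian (Seeds d M)
  set B := 2 * ρ + 2 * L * (‖x‖ + √d) with hB
  have hρ := hg.rho_nonneg
  have hL := hg.nonneg
  have hqi : ∀ q, Integrable (fun W => ‖hq R g x W q‖) μ := fun q =>
    (Tame.integrable (tame_slice (tame_hq hg hR q) x)).norm
  have hsi : Integrable (fun W => ∑ q, R.weight q * ‖hq R g x W q‖) μ :=
    integrable_finsetSum _ fun q _ => (hqi q).const_mul _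
  have hdi : Integrable (fun W => ‖disp R g (x, W)‖) μ :=
    (Tame.integrable (tame_slice (tame_disp hg hR) x)).norm
  have h1 : ∫ W, ‖disp R g (x, W)‖ ∂μ ≤ 2 * B := by
    refine (integral_mono hdi hsi fun W => hR.norm_sum_le fun q => le_rfl).trans ?_
    rw [integral_finsetSum _ fun q _ => (hqi q).const_mul _]
    simp only [integral_const_mul]
    exact hR.sum_mul_le (by positivity) fun q => integral_hq_le hg hR q x
  have h2 : ‖psi R g x‖ ≤ 2 * B := by
    rw [psi_eq_integral hg hR]
    exact (norm_integral_le_integral_norm _).trans h1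
  refine (integral_mono_of_nonneg (Filter.Eventually.of_forall fun W => norm_nonneg _)
    (hdi.add (integrable_const ‖psi R g x‖))
    (Filter.Eventually.of_forall fun W => norm_sub_le _ _)).trans ?_
  rw [integral_add' hdi (integrable_const _), integral_const, probReal_univ, one_smul]
  linarith

/-- The total divergence part, point by point. -/
theorem core_bound (hg : Drift g ρ L) (hR : R.Good δ t0) (ha : Field a α β) {t : ℝ}
    (ht : t ∈ Set.Icc (0 : ℝ) 1) :
    |∫ x, (∫ W, ⟪a x, fderiv ℝ g (point R g t (x, W)) (err R g (x, W))⟫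
        ∂stdGaussian (Seeds d M)) ∂stdGaussian (Space d)|
      ≤ 100 * α * L ^ 2 * ρ + 320 * α * L ^ 3 * √d + 16 * β * L ^ 3 * √d := by
  set γ := stdGaussian (Space d)
  set μ := stdGaussian (Seeds d M)
  set P := γ.prod μ
  set b := EuclideanSpace.basisFun (Fin d) ℝ
  have hL := hg.nonneg
  have hρ := hg.rho_nonneg
  have hα : 0 ≤ α := (norm_nonneg _).trans (ha.bound 0)
  set F := pairing R g a t with hFdef
  set e := err R g with hedef
  set y := point R g t with hydef
  have hF : Tame F := tame_pairing hg hR ha t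
  have he : Tame e := tame_err hg hR
  have hy : Tame y := tame_point hg hR t
  have hgt := tame_drift hg
  have haf : Tame fun z : Space d × Seeds d M => a z.1 :=
    ha.tame.comp (tame_clm (.fst ℝ (Space d) (Seeds d M)))
  set J1 : Space d × Seeds d M → ℝ := fun z => F z * ⟪z.1, e z⟫
  set J2 : Space d × Seeds d M → ℝ := fun z => F z * divErr R g z
  set J3 : Space d × Seeds d M → ℝ := fun z => ⟪g (y z), fderiv ℝ a z.1 (e z)⟫
  set J4 : Space d × Seeds d M → ℝ := fun z =>
    ⟪a z.1, fderiv ℝ g (y z) ((1 - t) • fderiv ℝ (psi R g) z.1 (e z)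
      + t • dispD R g z (e z, 0))⟫
  set J5 : Space d × Seeds d M → ℝ := fun z => fderiv ℝ F z (e z, 0)
  set I0 : Space d × Seeds d M → ℝ := fun z => ⟪a z.1, fderiv ℝ g (y z) (e z)⟫
  have hpt : ∀ z, I0 z = J5 z - J3 z + J4 z := by
    intro z
    simp only [I0, J5, J3, J4, hFdef, hydef, fderiv_pairing hg hR ha, fderiv_point hg hR, map_sub,
      inner_sub_right, real_inner_comm (g _)]
    ring
  have i5 : Integrable J5 P := integrable_fderiv_apply hF he (.inl ℝ (Space d) (Seeds d M))
  have i1 : Integrable J1 P :=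
    (hF.mul ((tame_clm (.fst ℝ (Space d) (Seeds d M))).inner he)).integrable
  have hdivc : Continuous (divErr (d := d) R g) := by
    have h := (tame_err (d := d) hg hR).continuous_fderiv
    unfold divErr
    fun_prop
  have hdivb : ∀ z, ‖divErr R g z‖ ≤ d * (6 * L) := by
    intro z
    refine (norm_sum_le _ _).trans ?_
    refine (Finset.sum_le_card_nsmul _ _ (6 * L) fun j _ => ?_).trans (le_of_eq (by simp))
    refine (norm_inner_le_norm _ _).trans ?_
    rw [OrthonormalBasis.norm_eq_one, one_mul, (hasFDerivAt_err hg hR z).fderiv]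
    simp only [_root_.sub_apply, ContinuousLinearMap.comp_apply, ContinuousLinearMap.coe_fst']
    refine (norm_sub_le _ _).trans ?_
    have h1 := dispD_x_le hg hR z (b j)
    have h2 := ((fderiv ℝ (psi R g) z.1).le_opNorm (b j)).trans
      (mul_le_mul_of_nonneg_right (fderiv_psi_le hg hR z.1) (norm_nonneg _))
    rw [b.orthonormal.1 j, mul_one] at h1 h2
    simp only [b] at h1 h2
    linarith
  have i2 : Integrable J2 P := hF.integrable.mul_bdd hdivc.aestronglyMeasurable
    (Filter.Eventually.of_forall hdivb)
  have i3 : Integrable J3 P := by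
    obtain ⟨C, n, hC, hb⟩ := ((hgt.comp hy).prodMk he).bound
    refine integrable_of_poly (C := β * C * C) (n := n + n) ?_ fun z => ?_
    · have h1 := ha.smooth.continuous_fderiv one_ne_zero
      have h2 := hgt.continuous
      have h3 := hy.continuous
      have h4 := he.continuous
      exact Continuous.aestronglyMeasurable (by fun_prop)
    · refine (norm_inner_le_norm _ _).trans ?_
      have h1 : ‖fderiv ℝ a z.1 (e z)‖ ≤ β * (C * (1 + ‖z‖) ^ n) :=
        ((fderiv ℝ a z.1).le_opNorm _).trans (mul_le_mul ((norm_le_frob _).trans (ha.deriv _))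
          ((norm_snd_le _).trans (hb z).1) (norm_nonneg _) ((frob_nonneg _).trans (ha.deriv 0)))
      refine (mul_le_mul ((norm_fst_le _).trans (hb z).1) h1 (norm_nonneg _)
        (by positivity)).trans (le_of_eq ?_)
      rw [pow_add]; ring
  have hM : ∀ z, ‖(1 - t) • fderiv ℝ (psi R g) z.1 (e z) + t • dispD R g z (e z, 0)‖
      ≤ 3 * L * ‖e z‖ := by
    intro z
    refine (norm_add_le _ _).trans ?_
    rw [norm_smul, norm_smul, Real.norm_eq_abs, Real.norm_eq_abs,
      abs_of_nonneg (by linarith [ht.2] : (0 : ℝ) ≤ 1 - t), abs_of_nonneg ht.1]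
    refine (add_le_add (mul_le_mul_of_nonneg_left (((fderiv ℝ (psi R g) z.1).le_opNorm _).trans
      (mul_le_mul_of_nonneg_right (fderiv_psi_le hg hR z.1) (norm_nonneg _)))
      (by linarith [ht.2])) (mul_le_mul_of_nonneg_left (dispD_x_le hg hR z (e z)) ht.1)).trans
      (le_of_eq (by ring))
  have hJ4 : ∀ z, ‖J4 z‖ ≤ 3 * α * L ^ 2 * ‖e z‖ := fun z =>
    (norm_inner_le_norm _ _).trans ((mul_le_mul (ha.bound _) ((hg.apply_le _ _).trans
      (mul_le_mul_of_nonneg_left (hM z) hL)) (norm_nonneg _) hα).trans (le_of_eq (by ring)))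
  have i4 : Integrable J4 P := by
    refine ((he.integrable (μ := P)).norm.const_mul (3 * α * L ^ 2)).mono' ?_
      (Filter.Eventually.of_forall hJ4)
    have h1 := (tame_psi (d := d) hg hR).continuous_fderiv
    have h2 := hgt.continuous_fderiv
    have h3 := hy.continuous
    have h4 := he.continuous
    have h5 := continuous_dispD (d := d) hg hR
    have h6 := haf.continuous
    have hc : Continuous J4 := h6.inner ((h2.comp h3).clm_apply
      ((((h1.comp continuous_fst).clm_apply h4).const_smul (1 - t)).add
        ((h5.clm_apply (h4.prodMk continuous_const)).const_smul t)))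
    exact hc.aestronglyMeasurable
  have hIBP : ∫ z, J5 z ∂P = ∫ z, J1 z ∂P - ∫ z, J2 z ∂P := by
    rw [← integral_sub i1 i2]
    refine (integral_prod_symm _ i5).trans (Eq.trans ?_ (integral_prod_symm _ (i1.sub i2)).symm)
    refine integral_congr_ae (Filter.Eventually.of_forall fun W => ?_)
    have hFW : Tame fun x => F (x, W) := tame_section hF W
    have heW : Tame fun x => e (x, W) := tame_section he W
    have hFs : Tame fun x => F (x, W) • e (x, W) := by
      obtain ⟨C, n, hC, hb⟩ := hFW.bound
      obtain ⟨D, k, hD, hb'⟩ := heW.bound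
      refine Tame.of_bounds (hFW.1.smul heW.1) (C := C * D) (D := 2 * (C * D)) (n := n + k)
        (k := n + k) (by positivity) (by positivity) (fun x => ?_) fun x => ?_
      · rw [norm_smul, pow_add, mul_mul_mul_comm]
        exact mul_le_mul (hb x).1 (hb' x).1 (norm_nonneg _) (by positivity)
      · rw [fderiv_fun_smul (hFW.differentiable x) (heW.differentiable x)]
        refine (norm_add_le _ _).trans ?_
        rw [norm_smul, ContinuousLinearMap.norm_smulRight_apply, two_mul, add_mul, pow_add,
          mul_mul_mul_comm]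
        exact add_le_add (mul_le_mul (hb x).1 (hb' x).2 (norm_nonneg _) (by positivity))
          (mul_le_mul (hb x).2 (hb' x).1 (norm_nonneg _) (by positivity))
    have h := gauss_ibp b hFs
    have hd : ∀ x, (∑ i, ⟪b i, fderiv ℝ (fun x => F (x, W) • e (x, W)) x (b i)⟫)
        = J2 (x, W) + J5 (x, W) := by
      intro x
      simp only [J2, J5, divErr, fderiv_fun_smul (hFW.differentiable x) (heW.differentiable x),
        _root_.add_apply, _root_.smul_apply, ContinuousLinearMap.smulRight_apply, inner_add_right,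
        real_inner_smul_right, Finset.sum_add_distrib, fderiv_section hF, fderiv_section he,
        ← Finset.mul_sum]
      refine congrArg _ ?_
      have hsum : ((e (x, W), 0) : Space d × Seeds d M)
          = ∑ i, ⟪b i, e (x, W)⟫ • ((b i, 0) : Space d × Seeds d M) := by
        refine Prod.ext ?_ ?_
        · simp [Prod.fst_sum, b.sum_repr']
        · simp [Prod.snd_sum]
      rw [hsum, map_sum]
      exact Finset.sum_congr rfl fun i _ => by rw [map_smul, smul_eq_mul, mul_comm]
    simp only [hd, inner_smul_right] at h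
    have hj2 : Integrable (fun x => J2 (x, W)) γ :=
      (Tame.integrable hFW).mul_bdd (hdivc.comp (Continuous.prodMk_left W)).aestronglyMeasurable
        (Filter.Eventually.of_forall fun x => hdivb (x, W))
    have hj5 : Integrable (fun x => J5 (x, W)) γ := by
      refine (integrable_fderiv_apply (μ := γ) hFW heW
        (ContinuousLinearMap.id ℝ (Space d))).congr (Filter.Eventually.of_forall fun x => ?_)
      simp [J5, fderiv_section hF]
    have hj1 : Integrable (fun x => J1 (x, W)) γ :=
      (hFW.mul ((tame_clm (ContinuousLinearMap.id ℝ (Space d))).inner heW)).integrable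
    rw [integral_add hj2 hj5] at h
    simp only [Pi.sub_apply]
    rw [integral_sub hj1 hj2]
    simp only [J1]
    linarith
  have hsplit : ∫ z, I0 z ∂P
      = ∫ z, (J1 z - J2 z - J3 z + J4 z) ∂P := by
    simp only [hpt]
    have a1 : Integrable (fun z => J5 z - J3 z) P := i5.sub i3
    have a2 : Integrable (fun z => J1 z - J2 z) P := i1.sub i2
    have a3 : Integrable (fun z => J1 z - J2 z - J3 z) P := a2.sub i3
    rw [integral_add a1 i4, integral_sub i5 i3, hIBP, integral_add a3 i4, integral_sub a2 i3,
      integral_sub i1 i2]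
  have iI0 : Integrable I0 P := ((i5.sub i3).add i4).congr
    (Filter.Eventually.of_forall fun z => (hpt z).symm)
  have iS : Integrable (fun z => J1 z - J2 z - J3 z + J4 z) P := ((i1.sub i2).sub i3).add i4
  rw [← integral_prod I0 iI0, hsplit, integral_prod _ iS]
  set K : Space d → ℝ := fun x => 2 * ρ + 2 * L * ‖x‖ + 4 * L * √d
  have hxi : Integrable (fun x : Space d => ‖x‖) γ := IsGaussian.integrable_id.norm
  have hrhs : Integrable (fun x => 16 * α * L ^ 3 * ‖x‖ + 16 * β * L ^ 3 * √d
      + 50 * α * L ^ 2 * K x) γ :=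
    ((hxi.const_mul _).add (integrable_const _)).add
      ((((integrable_const (2 * ρ)).add (hxi.const_mul (2 * L))).add
        (integrable_const (4 * L * √d))).const_mul _)
  refine abs_integral_le_integral_abs.trans ((integral_mono_of_nonneg
    (Filter.Eventually.of_forall fun x => abs_nonneg _) hrhs ?_).trans ?_)
  · filter_upwards [i1.prod_right_ae, i2.prod_right_ae, i3.prod_right_ae, i4.prod_right_ae]
      with x x1 x2 x3 x4
    have hFx : Tame fun W => F (x, W) := tame_slice hF x
    have a2 : Integrable (fun W => J1 (x, W) - J2 (x, W)) μ := x1.sub x2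
    have a3 : Integrable (fun W => J1 (x, W) - J2 (x, W) - J3 (x, W)) μ := a2.sub x3
    rw [integral_add a3 x4, integral_sub a2 x3, integral_sub x1 x2]
    have b1 : |∫ W, J1 (x, W) ∂μ| ≤ 16 * α * L ^ 3 * ‖x‖ := by
      have h := cov_scalar (f := fun W => F (x, W)) hFx.1
        (fun W => fderiv_pairing_seed_le hg hR ha ht x W)
        ((tame_const x).inner (tame_slice he x))
      rw [integral_inner_err hg hR x x, mul_zero, sub_zero] at h
      refine h.trans ?_
      refine (mul_le_mul_of_nonneg_left (integral_mono_of_nonneg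
        (Filter.Eventually.of_forall fun W => norm_nonneg _) (integrable_const _)
        (Filter.Eventually.of_forall fun W => fderiv_inner_err_le hg hR x x W))
        (by positivity)).trans (le_of_eq ?_)
      rw [integral_const, probReal_univ, one_smul]; ring
    have b2 := integral_pairing_div_le hg hR ha ht x
    have b3 : |∫ W, J3 (x, W) ∂μ| ≤ 16 * β * L ^ 3 * √d := by
      have hgy : Tame fun W => g (y (x, W)) := hgt.comp (tame_slice hy x)
      have hD : ∀ W, ‖fderiv ℝ (fun W => g (y (x, W))) W‖ ≤ L * (4 * L) := fun W =>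
        ContinuousLinearMap.opNorm_le_bound _ (by positivity) fun u => by
          have hdz : fderiv ℝ (fun z => g (y z)) (x, W)
              = (fderiv ℝ g (y (x, W))).comp (fderiv ℝ y (x, W)) :=
            ((hgt.differentiable _).hasFDerivAt.comp (x, W)
              (hy.differentiable (x, W)).hasFDerivAt).fderiv
          rw [fderiv_slice (hgt.comp hy), hdz, mul_assoc L]
          exact (hg.apply_le _ _).trans
            (mul_le_mul_of_nonneg_left (fderiv_point_seed_le hg hR ht _ u) hL)
      have h := cov_bil (h := fun W => g (y (x, W))) (k := fun W => e (x, W)) hgy.1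
        (tame_slice he x).1 hD (fderiv_err_seed_le hg hR x) (fderiv ℝ a x)
      rw [integral_err hg hR x, map_zero, inner_zero_right, sub_zero] at h
      refine h.trans ?_
      have hb := mul_le_mul_of_nonneg_right (ha.deriv x)
        (show 0 ≤ √d * (L * (4 * L)) * (4 * L) by positivity)
      linarith
    have b4 : |∫ W, J4 (x, W) ∂μ| ≤ 3 * α * L ^ 2 * (4 * K x) := by
      refine abs_integral_le_integral_abs.trans ((integral_mono_of_nonneg
        (Filter.Eventually.of_forall fun W => abs_nonneg _)
        ((Tame.integrable (μ := μ) (tame_slice he x)).norm.const_mul (3 * α * L ^ 2))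
        (Filter.Eventually.of_forall fun W => hJ4 (x, W))).trans ?_)
      rw [integral_const_mul]
      refine mul_le_mul_of_nonneg_left ((norm_err_integral_le hg hR x).trans ?_) (by positivity)
      nlinarith [mul_nonneg hL (Real.sqrt_nonneg (d : ℝ))]
    simp only [K] at b4 ⊢
    refine (abs_add_le _ _).trans ((add_le_add ((abs_sub _ _).trans
      (add_le_add ((abs_sub _ _).trans (add_le_add b1 b2)) b3)) b4).trans (le_of_eq ?_))
    ring
  · have hK : ∫ x, K x ∂γ = 2 * ρ + 2 * L * ∫ x : Space d, ‖x‖ ∂γ + 4 * L * √d := by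
      have a1 : Integrable (fun x : Space d => 2 * ρ + 2 * L * ‖x‖) γ :=
        (integrable_const _).add (hxi.const_mul _)
      simp only [K]
      rw [integral_add a1 (integrable_const _), integral_add (integrable_const _) (hxi.const_mul _)]
      simp [integral_const_mul]
    have a1 : Integrable (fun x : Space d => 16 * α * L ^ 3 * ‖x‖ + 16 * β * L ^ 3 * √d) γ :=
      (hxi.const_mul _).add (integrable_const _)
    have a2 : Integrable (fun x => 50 * α * L ^ 2 * K x) γ :=
      (((integrable_const (2 * ρ)).add (hxi.const_mul (2 * L))).add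
        (integrable_const (4 * L * √d))).const_mul _
    rw [integral_add a1 a2, integral_add (hxi.const_mul _) (integrable_const _)]
    simp only [integral_const_mul]
    rw [hK]
    simp only [integral_const, probReal_univ, one_smul]
    have hn : ∫ x : Space d, ‖x‖ ∂γ ≤ √d := by simpa using integral_norm_le (κ := Fin d)
    nlinarith [mul_le_mul_of_nonneg_left hn (show 0 ≤ α * L ^ 3 by positivity),
      show 0 ≤ α * L ^ 3 * √d by positivity]

/-- L4: the mean drift at the random point against the drift at the mean point. -/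
theorem bias (hg : Drift g ρ L) (hR : R.Good δ t0) (ha : Field a α β) :
    |∫ x, ((∫ W, ⟪a x, g (s2 R g x W)⟫ ∂stdGaussian (Seeds d M))
        - ⟪a x, g (x - psi R g x)⟫) ∂stdGaussian (Space d)|
      ≤ 100 * α * L ^ 2 * ρ + 320 * α * L ^ 3 * √d + 16 * β * L ^ 3 * √d := by
  set γ := stdGaussian (Space d)
  set μ := stdGaussian (Seeds d M)
  set P := γ.prod μ
  have hL := hg.nonneg
  have hα : 0 ≤ α := (norm_nonneg _).trans (ha.bound 0)
  set φ : ℝ → ℝ := fun t => ∫ z, pairing R g a t z ∂P
  have hF : ∀ t, Tame (pairing R g a t) := fun t => tame_pairing hg hR ha t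
  have he : Tame (err (d := d) R g) := tame_err hg hR
  have hder : ∀ t, HasDerivAt φ
      (∫ z, ⟪a z.1, fderiv ℝ g (point R g t z) (-err R g z)⟫ ∂P) t := by
    intro t
    have hc : Continuous fun z : Space d × Seeds d M =>
        ⟪a z.1, fderiv ℝ g (point R g t z) (-err R g z)⟫ := by
      have h2 := (tame_drift hg).continuous_fderiv
      have h3 := (tame_point (d := d) hg hR t).continuous
      have h4 := he.continuous
      have h6 := ha.tame.continuous
      fun_prop
    refine (hasDerivAt_integral_of_dominated_loc_of_deriv_le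
      (F' := fun s z => ⟪a z.1, fderiv ℝ g (point R g s z) (-err R g z)⟫)
      (bound := fun z => α * (L * ‖err R g z‖)) (Metric.ball_mem_nhds t one_pos)
      (Filter.Eventually.of_forall fun s => (hF s).continuous.aestronglyMeasurable)
      (hF t).integrable hc.aestronglyMeasurable
      (Filter.Eventually.of_forall fun z s _ => ?_)
      (((he.integrable (μ := P)).norm.const_mul L).const_mul α)
      (Filter.Eventually.of_forall fun z s _ => ?_)).2
    · refine (norm_inner_le_norm _ _).trans (mul_le_mul (ha.bound _) ?_ (norm_nonneg _) hα)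
      simpa using hg.apply_le (point R g s z) (-err R g z)
    · have h1 : HasDerivAt (fun s : ℝ => point R g s z) (-err R g z) s := by
        have := ((hasDerivAt_id s).smul_const (err R g z)).const_sub (z.1 - psi R g z.1)
        simpa [point] using this
      have h2 := (hg.differentiable _).hasFDerivAt.comp_hasDerivAt s h1
      simpa [pairing] using (hasDerivAt_const s (a z.1)).inner ℝ h2
  have hbd : ∀ t ∈ Set.Ico (0 : ℝ) 1,
      ‖∫ z, ⟪a z.1, fderiv ℝ g (point R g t z) (-err R g z)⟫ ∂P‖
        ≤ 100 * α * L ^ 2 * ρ + 320 * α * L ^ 3 * √d + 16 * β * L ^ 3 * √d := by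
    intro t ht
    have hi : Integrable (fun z : Space d × Seeds d M =>
        ⟪a z.1, fderiv ℝ g (point R g t z) (err R g z)⟫) P := by
      refine (((he.integrable (μ := P)).norm.const_mul L).const_mul α).mono' ?_
        (Filter.Eventually.of_forall fun z => (norm_inner_le_norm _ _).trans
          (mul_le_mul (ha.bound _) (hg.apply_le _ _) (norm_nonneg _) hα))
      have h2 := (tame_drift hg).continuous_fderiv
      have h3 := (tame_point (d := d) hg hR t).continuous
      have h4 := he.continuous
      have h6 := ha.tame.continuous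
      exact Continuous.aestronglyMeasurable (by fun_prop)
    simp only [map_neg, inner_neg_right]
    rw [integral_neg, norm_neg, Real.norm_eq_abs, integral_prod _ hi]
    exact core_bound hg hR ha ⟨ht.1, ht.2.le⟩
  have h := norm_image_sub_le_of_norm_deriv_le_segment_01'
    (fun t _ => (hder t).hasDerivWithinAt) hbd
  have hp1 : ∀ z : Space d × Seeds d M, pairing R g a 1 z = ⟪a z.1, g (s2 R g z.1 z.2)⟫ :=
    fun z => by
      simp only [pairing, point, err, disp, s2, one_smul]
      congr 2
      abel
  have hp0 : ∀ z : Space d × Seeds d M,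
      pairing R g a 0 z = ⟪a z.1, g (z.1 - psi R g z.1)⟫ := fun z => by simp [pairing, point]
  have f1 : Integrable (fun x => ∫ W, pairing R g a 1 (x, W) ∂μ) γ :=
    (hF 1).integrable.integral_prod_left
  have f0 : Integrable (fun x => ∫ W, pairing R g a 0 (x, W) ∂μ) γ :=
    (hF 0).integrable.integral_prod_left
  simp only [φ] at h
  rw [integral_prod _ (hF 1).integrable, integral_prod _ (hF 0).integrable, ← integral_sub f1 f0,
    Real.norm_eq_abs] at h
  simpa [hp1, hp0] using h

end Bias

end

end P347.Quarter
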