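import Vale.Agent.P347.Quarter.Gav

/-!
# P347: continuity and range of the averages and of the finite inner chain
-/

namespace P347.Quarter

open MeasureTheory ProbabilityTheory Filter Topology

noncomputable section

variable {d : ℕ}

theorem continuous_gav {f : Space d → ℝ} (hf : Continuous f) (hb : ∃ K, ∀ x, |f x| ≤ K) (s : ℝ) :
    Continuous (gav s f) :=
  let ⟨_, hK⟩ := hb
  ((⟨hf, hK⟩ : Bdd f _).gav s).cont

theorem gav_mem_Icc {f : Space d → ℝ} (hf : Continuous f) {a b : ℝ}
    (hab : ∀ x, f x ∈ Set.Icc a b) (s : ℝ) (x : Space d) : gav s f x ∈ Set.Icc a b :=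
  (convex_Icc a b).integral_mem isClosed_Icc (Eventually.of_forall fun z => hab (x + s • z))
    (Integrable.of_mem_Icc a b (hf.comp (by fun_prop)).aemeasurable
      (Eventually.of_forall fun z => hab (x + s • z)))

/-- One step, jointly in the centre and the point. -/
theorem continuous_step {p : Space d → Space d} (hp : Continuous p) (h : ℝ) {G : Space d × Space d → ℝ}
    (hG : Continuous G) {a b : ℝ} (hab : ∀ q, G q ∈ Set.Icc a b) :
    Continuous (fun q : Space d × Space d => eulOp p h q.1 (fun x => G (q.1, x)) q.2) ∧
      ∀ v x, eulOp p h v (fun x => G (v, x)) x ∈ Set.Icc a b := by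
  have he : Continuous fun r : Space d × Space d => eul p h r.1 r.2 := by
    show Continuous fun r : Space d × Space d => r.2 - h • (r.2 + p r.2 - r.1)
    exact continuous_snd.sub
      (((continuous_snd.add (hp.comp continuous_snd)).sub continuous_fst).const_smul h)
  have hg : Continuous fun r : (Space d × Space d) × Space d =>
      G (r.1.1, eul p h r.1.1 (r.1.2 + √(2 * h) • r.2)) := by
    have h1 : Continuous fun r : (Space d × Space d) × Space d => r.1.1 :=
      continuous_fst.comp continuous_fst
    have h2 : Continuous fun r : (Space d × Space d) × Space d => r.1.2 + √(2 * h) • r.2 :=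
      (continuous_snd.comp continuous_fst).add
        (continuous_snd.fun_const_smul (√(2 * h)))
    exact hG.comp (h1.prodMk (he.comp (h1.prodMk h2)))
  refine ⟨?_, fun v x => gav_mem_Icc (hG.comp (continuous_const.prodMk
    (he.comp (continuous_const.prodMk continuous_id)))) (fun y => hab (v, eul p h v y)) _ x⟩
  exact continuous_of_dominated
    (F := fun (q : Space d × Space d) (z : Space d) =>
      G (q.1, eul p h q.1 (q.2 + √(2 * h) • z))) (bound := fun _ => max |a| |b|)
    (fun q => (hg.comp (Continuous.prodMk_right q)).aestronglyMeasurable)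
    (fun q => Eventually.of_forall fun z => abs_le_max_abs_abs (hab _).1 (hab _).2)
    (integrable_const _) (Eventually.of_forall fun z => hg.comp (Continuous.prodMk_left z))

/-- All iterates of the inner chain, jointly in the centre and the point. -/
theorem continuous_eulOp_iterate {p : Space d → Space d} (hp : Continuous p) {f : Space d → ℝ}
    (hf : Continuous f) {a b : ℝ} (hab : ∀ x, f x ∈ Set.Icc a b) (h : ℝ) (n : ℕ) :
    Continuous (fun q : Space d × Space d => (eulOp p h q.1)^[n] f q.2) ∧
      ∀ v x, (eulOp p h v)^[n] f x ∈ Set.Icc a b := by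
  induction n with
  | zero => exact ⟨hf.comp continuous_snd, fun _ x => hab x⟩
  | succ n ih =>
    simp only [Function.iterate_succ_apply']
    exact continuous_step hp h ih.1 fun q => ih.2 q.1 q.2

theorem continuous_piJ {p : Space d → Space d} (hp : Continuous p) {f : Space d → ℝ}
    (hf : Continuous f) (hf01 : ∀ x, f x ∈ Set.Icc (0 : ℝ) 1) (h : ℝ) (J : ℕ) :
    Continuous (piJ p h J f) :=
  Continuous.comp (g := fun q : Space d × Space d => (eulOp p h q.1)^[J] f q.2)
    (f := fun v => (v, v)) (continuous_eulOp_iterate hp hf hf01 h J).1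
    (continuous_id.prodMk continuous_id)

theorem piJ_mem {p : Space d → Space d} (hp : Continuous p) {f : Space d → ℝ}
    (hf : Continuous f) (hf01 : ∀ x, f x ∈ Set.Icc (0 : ℝ) 1) (h : ℝ) (J : ℕ) (v : Space d) :
    piJ p h J f v ∈ Set.Icc (0 : ℝ) 1 :=
  (continuous_eulOp_iterate hp hf hf01 h J).2 v v

end

end P347.Quarter
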