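import Vale.Agent.P347.Quarter.Defs
import Vale.Agent.P347.Quarter.Cov

/-!
# P347: the exact defect of a deterministic map, and invariance of the target

A test function's mean under a law `μ` of points `y` differs from its mean under the inner chain by
the Stein defect of `μ` against the gradient of the Stein sum, up to the error of the finite chain.
-/

namespace P347.Quarter.Defect

open MeasureTheory ProbabilityTheory Finset
open scoped RealInnerProductSpace

noncomputable section

variable {d : ℕ}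

/-- The standard basis. -/
abbrev bas (d : ℕ) : OrthonormalBasis (Fin d) ℝ (Space d) := EuclideanSpace.basisFun (Fin d) ℝ

/-- The trace. -/
def tr (A : Space d →L[ℝ] Space d) : ℝ := ∑ i, ⟪bas d i, A (bas d i)⟫

theorem fdot_self_nonneg (A : Space d →L[ℝ] Space d) : 0 ≤ fdot A A :=
  sum_nonneg fun _ _ => real_inner_self_nonneg

theorem frob_nonneg (A : Space d →L[ℝ] Space d) : 0 ≤ frob A := Real.sqrt_nonneg _

theorem frob_sq (A : Space d →L[ℝ] Space d) : frob A ^ 2 = ∑ i, ‖A (bas d i)‖ ^ 2 := by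
  rw [frob, Real.sq_sqrt (fdot_self_nonneg A), fdot]
  exact sum_congr rfl fun i _ => real_inner_self_eq_norm_sq _

theorem frob_eq (A : Space d →L[ℝ] Space d) : frob A = √(∑ i, ‖A (bas d i)‖ ^ 2) := by
  rw [← frob_sq, Real.sqrt_sq (frob_nonneg A)]

theorem abs_fdot_le (A B : Space d →L[ℝ] Space d) : |fdot A B| ≤ frob A * frob B := by
  refine (abs_sum_le_sum_abs _ _).trans ?_
  calc ∑ i, |⟪A (bas d i), B (bas d i)⟫| ≤ ∑ i, ‖A (bas d i)‖ * ‖B (bas d i)‖ :=
        sum_le_sum fun i _ => abs_real_inner_le_norm _ _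
    _ ≤ _ := by
        rw [frob_eq, frob_eq]
        exact Real.sum_mul_le_sqrt_mul_sqrt _ _ _

theorem frob_le_norm (A : Space d →L[ℝ] Space d) : frob A ≤ √d * ‖A‖ := by
  rw [← Real.sqrt_sq (norm_nonneg A), ← Real.sqrt_mul (Nat.cast_nonneg d), frob_eq]
  refine Real.sqrt_le_sqrt ?_
  calc ∑ i, ‖A (bas d i)‖ ^ 2 ≤ ∑ _i : Fin d, ‖A‖ ^ 2 :=
        sum_le_sum fun i _ => pow_le_pow_left₀ (norm_nonneg _) (by simpa using A.le_opNorm (bas d i)) 2
    _ = _ := by simp

theorem norm_sq_sum (x : Space d) : ‖x‖ ^ 2 = ∑ i, ⟪x, bas d i⟫ ^ 2 := by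
  rw [← real_inner_self_eq_norm_sq, ← (bas d).sum_inner_mul_inner x x]
  exact sum_congr rfl fun j _ => by rw [real_inner_comm x (bas d j)]; ring

theorem parseval (x y : Space d) : ⟪x, y⟫ = ∑ i, ⟪x, bas d i⟫ * ⟪bas d i, y⟫ :=
  ((bas d).sum_inner_mul_inner x y).symm

theorem frob_adjoint (A : Space d →L[ℝ] Space d) :
    frob (ContinuousLinearMap.adjoint A) = frob A := by
  simp only [frob_eq, norm_sq_sum]
  congr 1
  rw [sum_comm]
  refine sum_congr rfl fun i _ => sum_congr rfl fun j _ => ?_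
  rw [ContinuousLinearMap.adjoint_inner_left, real_inner_comm]

theorem norm_apply_le (A : Space d →L[ℝ] Space d) (x : Space d) : ‖A x‖ ≤ frob A * ‖x‖ := by
  refine (Real.le_sqrt (norm_nonneg _) (by positivity)).2 le_rfl |>.trans ?_
  rw [← Real.sqrt_sq (mul_nonneg (frob_nonneg A) (norm_nonneg x))]
  refine Real.sqrt_le_sqrt ?_
  rw [norm_sq_sum, mul_pow, ← frob_adjoint, frob_sq, sum_mul]
  refine sum_le_sum fun i _ => ?_
  rw [← ContinuousLinearMap.adjoint_inner_right, ← sq_abs, ← mul_pow]
  refine pow_le_pow_left₀ (abs_nonneg _) ?_ 2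
  rw [mul_comm]
  exact abs_real_inner_le_norm _ _

theorem frob_comp_le (B A : Space d →L[ℝ] Space d) : frob (B.comp A) ≤ frob B * ‖A‖ := by
  rw [← frob_adjoint, ContinuousLinearMap.adjoint_comp, ← frob_adjoint B, frob_eq, frob_eq,
    ← Real.sqrt_sq (norm_nonneg A), ← Real.sqrt_mul (sum_nonneg fun i _ => sq_nonneg _)]
  refine Real.sqrt_le_sqrt ?_
  rw [sum_mul]
  refine sum_le_sum fun i _ => ?_
  rw [← mul_pow]
  refine pow_le_pow_left₀ (norm_nonneg _) ?_ 2
  rw [ContinuousLinearMap.comp_apply]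
  refine (ContinuousLinearMap.le_opNorm _ _).trans (le_of_eq ?_)
  rw [LinearIsometryEquiv.norm_map, mul_comm]

theorem fdot_comp_right (B A C : Space d →L[ℝ] Space d) :
    fdot (B.comp A) C = fdot B (C.comp (ContinuousLinearMap.adjoint A)) := by
  have h1 : ∀ i, ⟪B (A (bas d i)), C (bas d i)⟫
      = ∑ j, ⟪A (bas d i), bas d j⟫ * ⟪B (bas d j), C (bas d i)⟫ := fun i => by
    conv_lhs => rw [← (bas d).sum_repr' (A (bas d i))]
    rw [map_sum, sum_inner]
    refine sum_congr rfl fun j _ => ?_
    rw [map_smul, real_inner_smul_left, real_inner_comm]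
  have h2 : ∀ j, ⟪B (bas d j), C (ContinuousLinearMap.adjoint A (bas d j))⟫
      = ∑ i, ⟪A (bas d i), bas d j⟫ * ⟪B (bas d j), C (bas d i)⟫ := fun j => by
    conv_lhs => rw [← (bas d).sum_repr' (ContinuousLinearMap.adjoint A (bas d j))]
    rw [map_sum, inner_sum]
    refine sum_congr rfl fun i _ => ?_
    rw [map_smul, real_inner_smul_right, ContinuousLinearMap.adjoint_inner_right]
  unfold fdot
  simp only [ContinuousLinearMap.comp_apply]
  rw [sum_congr rfl fun i _ => h1 i, sum_congr rfl fun j _ => h2 j, sum_comm]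

theorem abs_tr_le (A : Space d →L[ℝ] Space d) : |tr A| ≤ √d * frob A := by
  have h1 : tr A = fdot (ContinuousLinearMap.id ℝ _) A := rfl
  rw [h1]
  refine (abs_fdot_le _ _).trans (mul_le_mul_of_nonneg_right ?_ (frob_nonneg A))
  refine (frob_le_norm _).trans ?_
  calc √d * ‖ContinuousLinearMap.id ℝ (Space d)‖ ≤ √d * 1 :=
        mul_le_mul_of_nonneg_left ContinuousLinearMap.norm_id_le (Real.sqrt_nonneg _)
    _ = √d := mul_one _

/-- For a symmetric outer factor the trace and the Frobenius pairing agree. -/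
theorem tr_comp_eq_fdot {B : Space d →L[ℝ] Space d} (hB : ∀ a b, ⟪B a, b⟫ = ⟪a, B b⟫)
    (A : Space d →L[ℝ] Space d) : tr (B.comp A) = fdot B A :=
  sum_congr rfl fun _ _ => (hB _ _).symm

/-! ## Test functions -/

variable {u : Space d → ℝ} {α β : ℝ}

theorem inner_gradient (u : Space d → ℝ) (x w : Space d) : ⟪gradient u x, w⟫ = fderiv ℝ u x w := by
  rw [gradient, InnerProductSpace.toDual_symm_apply]

theorem contDiff_gradient (hu : ContDiff ℝ 2 u) : ContDiff ℝ 1 (gradient u) :=
  (InnerProductSpace.toDual ℝ (Space d)).symm.toContinuousLinearEquiv.contDiff.comp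
    (hu.fderiv_right (m := 1) (by norm_num))

theorem inner_hess (u : Space d → ℝ) (x a b : Space d) :
    ⟪fderiv ℝ (gradient u) x a, b⟫ = fderiv ℝ (fderiv ℝ u) x a b := by
  have h1 : gradient u = (InnerProductSpace.toDual ℝ (Space d)).symm ∘ fderiv ℝ u := rfl
  rw [h1, LinearIsometryEquiv.comp_fderiv]
  exact InnerProductSpace.toDual_symm_apply

theorem hess_symm (hu : ContDiff ℝ 2 u) (x a b : Space d) :
    ⟪fderiv ℝ (gradient u) x a, b⟫ = ⟪a, fderiv ℝ (gradient u) x b⟫ := by
  rw [real_inner_comm _ a, inner_hess, inner_hess,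
    (hu.contDiffAt.isSymmSndFDerivAt (by simp)).eq]

theorem hess_op (hu : Test2 u α β) (x : Space d) : ‖fderiv ℝ (gradient u) x‖ ≤ β :=
  ContinuousLinearMap.opNorm_le_bound _ ((frob_nonneg _).trans (hu.hess x)) fun w =>
    (norm_apply_le _ w).trans (mul_le_mul_of_nonneg_right (hu.hess x) (norm_nonneg w))

theorem fderiv_norm_le (hu : Test2 u α β) (x : Space d) : ‖fderiv ℝ u x‖ ≤ α := by
  have h := hu.grad x
  rwa [gradient, LinearIsometryEquiv.norm_map] at h

theorem lip (hu : Test2 u α β) (x y : Space d) : |u x - u y| ≤ α * ‖x - y‖ :=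
  convex_univ.norm_image_sub_le_of_norm_fderiv_le (fun z _ => hu.smooth.differentiable (by simp) z)
    (fun z _ => fderiv_norm_le hu z) (Set.mem_univ y) (Set.mem_univ x)

theorem grad_lip (hu : Test2 u α β) (x y : Space d) :
    ‖gradient u x - gradient u y‖ ≤ β * ‖x - y‖ :=
  convex_univ.norm_image_sub_le_of_norm_fderiv_le
    (fun z _ => (contDiff_gradient hu.smooth).differentiable (by simp) z)
    (fun z _ => hess_op hu z) (Set.mem_univ y) (Set.mem_univ x)

theorem taylor (hu : Test2 u α β) (w δ : Space d) :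
    |u (w + δ) - u w - ⟪gradient u w, δ⟫| ≤ β * ‖δ‖ ^ 2 := by
  set q : Space d → ℝ := fun z => u z - fderiv ℝ u w z
  have hd : ∀ z, HasFDerivAt q (fderiv ℝ u z - fderiv ℝ u w) z := fun z =>
    ((hu.smooth.differentiable (by simp) z).hasFDerivAt).sub (fderiv ℝ u w).hasFDerivAt
  have hb : ∀ z ∈ Metric.closedBall w ‖δ‖, ‖fderiv ℝ u z - fderiv ℝ u w‖ ≤ β * ‖δ‖ := by
    intro z hz
    have h1 : fderiv ℝ u z - fderiv ℝ u w
        = InnerProductSpace.toDual ℝ (Space d) (gradient u z - gradient u w) := by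
      simp [gradient]
    rw [h1, LinearIsometryEquiv.norm_map]
    refine (grad_lip hu z w).trans (mul_le_mul_of_nonneg_left ?_
      ((frob_nonneg _).trans (hu.hess w)))
    rwa [← dist_eq_norm, ← Metric.mem_closedBall]
  have h := (convex_closedBall w ‖δ‖).norm_image_sub_le_of_norm_hasFDerivWithin_le
    (fun z _ => (hd z).hasFDerivWithinAt) hb (Metric.mem_closedBall_self (norm_nonneg δ))
    (show w + δ ∈ Metric.closedBall w ‖δ‖ by simp [Metric.mem_closedBall])
  rw [add_sub_cancel_left, Real.norm_eq_abs, mul_assoc, ← sq] at h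
  convert h using 2
  simp only [q, map_add, inner_gradient]
  ring

/-! ## The inner chain -/

variable {p : Space d → Space d} {η h : ℝ} {J : ℕ}

theorem pot_op (hp : Pot p η) (x : Space d) : ‖fderiv ℝ p x‖ ≤ 2 * η := by
  refine ContinuousLinearMap.opNorm_le_bound _ (by linarith [hp.pos]) fun w => ?_
  obtain ⟨B, hB⟩ : ∃ B, B = fderiv ℝ p x := ⟨_, rfl⟩
  rw [← hB]
  rcases eq_or_ne (B w) 0 with h0 | h0
  · rw [h0, norm_zero]; have := hp.pos; positivity
  rcases eq_or_ne w 0 with hw | hw
  · simp [hw] at h0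
  have h1 := hp.upper x (‖B w‖ • w + ‖w‖ • B w)
  have h2 := hp.lower x (‖B w‖ • w - ‖w‖ • B w)
  have h3 := hp.symm x (B w) w
  rw [← hB] at h1 h2 h3
  have h4 : 0 ≤ η * ‖‖B w‖ • w - ‖w‖ • B w‖ ^ 2 := mul_nonneg hp.pos.le (sq_nonneg _)
  simp only [norm_add_sq_real, norm_sub_sq_real, norm_smul, Real.norm_eq_abs, abs_norm, map_add,
    map_sub, map_smul, inner_add_left, inner_add_right, inner_sub_left, inner_sub_right,
    real_inner_smul_left, real_inner_smul_right, h3, real_inner_self_eq_norm_sq] at h1 h2 h4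
  rw [real_inner_comm (B w) w] at *
  have hwp : 0 < ‖w‖ := norm_pos_iff.2 hw
  have hBp : 0 < ‖B w‖ := norm_pos_iff.2 h0
  have hcs := real_inner_le_norm w (B w)
  have hkey : ‖B w‖ * (‖B w‖ * ‖w‖) ≤ ‖w‖ * (2 * η) * (‖B w‖ * ‖w‖) := by
    nlinarith [mul_le_mul_of_nonneg_left hcs (mul_nonneg hp.pos.le (mul_nonneg hwp.le hBp.le))]
  have := le_of_mul_le_mul_right hkey (mul_pos hBp hwp)
  linarith

theorem pot_lip (hp : Pot p η) (x y : Space d) : ‖p x - p y‖ ≤ 2 * η * ‖x - y‖ :=
  convex_univ.norm_image_sub_le_of_norm_fderiv_le (fun z _ => hp.smooth.differentiable (by simp) z)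
    (fun z _ => pot_op hp z) (Set.mem_univ y) (Set.mem_univ x)

theorem eul_lip (hp : Pot p η) (hf : Fine h J) (v x y : Space d) :
    ‖eul p h v x - eul p h v y‖ ≤ (1 - h / 2) * ‖x - y‖ := by
  have e : eul p h v x - eul p h v y = (1 - h) • (x - y) - h • (p x - p y) := by
    unfold eul; module
  rw [e]
  refine (norm_sub_le _ _).trans ?_
  rw [norm_smul, norm_smul, Real.norm_eq_abs, Real.norm_eq_abs,
    abs_of_nonneg (by linarith [hf.small]), abs_of_pos hf.pos]
  have h1 := mul_le_mul_of_nonneg_left (pot_lip hp x y) hf.pos.le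
  have h2 := mul_le_mul_of_nonneg_right hp.small (mul_nonneg hf.pos.le (norm_nonneg (x - y)))
  have h3 := mul_nonneg hf.pos.le (norm_nonneg (x - y))
  nlinarith

theorem continuous_pot (hp : Pot p η) : Continuous p := hp.smooth.continuous

theorem continuous_eul (hp : Pot p η) (v : Space d) : Continuous (eul p h v) := by
  have := continuous_pot hp
  unfold eul; fun_prop

/-- A Lipschitz function. -/
def LipOn (L : ℝ) (f : Space d → ℝ) : Prop := 0 ≤ L ∧ ∀ x y, |f x - f y| ≤ L * ‖x - y‖

theorem LipOn.continuous {L : ℝ} {f : Space d → ℝ} (hf : LipOn L f) : Continuous f :=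
  P347.continuous_of_lip hf.1 hf.2

theorem LipOn.integrable_comp {L : ℝ} {f : Space d → ℝ} (hf : LipOn L f) {C : ℝ}
    {S : Space d → Space d} (hS : ∀ x y, ‖S x - S y‖ ≤ C * ‖x - y‖) (hSc : Continuous S) :
    Integrable (fun z => f (S z)) (stdGaussian (Space d)) :=
  P347.integrable_of_lip (L := L * C) (fun x y => (hf.2 _ _).trans
    ((mul_le_mul_of_nonneg_left (hS x y) hf.1).trans (le_of_eq (mul_assoc _ _ _).symm)))
    (hf.continuous.comp hSc)

theorem eul_noise_lip (hp : Pot p η) (hf : Fine h J) (v x : Space d) (σ : ℝ) (a b : Space d) :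
    ‖eul p h v (x + σ • a) - eul p h v (x + σ • b)‖ ≤ (1 - h / 2) * |σ| * ‖a - b‖ := by
  refine (eul_lip hp hf v _ _).trans (le_of_eq ?_)
  rw [add_sub_add_left_eq_sub, ← smul_sub, norm_smul, Real.norm_eq_abs]
  ring

theorem eulOp_integrable (hp : Pot p η) (hf : Fine h J) (v x : Space d) {L : ℝ}
    {f : Space d → ℝ} (hL : LipOn L f) :
    Integrable (fun z => f (eul p h v (x + √(2 * h) • z))) (stdGaussian (Space d)) := by
  have := continuous_eul (h := h) hp v
  exact hL.integrable_comp (eul_noise_lip hp hf v x _) (by fun_prop)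

theorem eulOp_lip (hp : Pot p η) (hf : Fine h J) (v : Space d) {L : ℝ} {f : Space d → ℝ}
    (hL : LipOn L f) : LipOn ((1 - h / 2) * L) (eulOp p h v f) := by
  refine ⟨mul_nonneg (by linarith [hf.small]) hL.1, fun x y => ?_⟩
  unfold eulOp gav
  rw [← integral_sub (eulOp_integrable hp hf v x hL) (eulOp_integrable hp hf v y hL),
    ← Real.norm_eq_abs]
  refine (norm_integral_le_of_norm_le_const (C := (1 - h / 2) * L * ‖x - y‖)
    (Filter.Eventually.of_forall fun z => ?_)).trans (by simp)
  rw [Real.norm_eq_abs]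
  refine (hL.2 _ _).trans ?_
  refine (mul_le_mul_of_nonneg_left (eul_lip hp hf v _ _) hL.1).trans (le_of_eq ?_)
  rw [add_sub_add_right_eq_sub]
  ring

theorem iterate_lip (hp : Pot p η) (hf : Fine h J) (v : Space d) {L : ℝ} {f : Space d → ℝ}
    (hL : LipOn L f) : ∀ j : ℕ, LipOn ((1 - h / 2) ^ j * L) ((eulOp p h v)^[j] f)
  | 0 => by simpa using hL
  | j + 1 => by
      rw [Function.iterate_succ_apply', pow_succ', mul_assoc]
      exact eulOp_lip hp hf v (iterate_lip hp hf v hL j)

/-- The Stein sum. -/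
def steinSum (p : Space d → Space d) (h : ℝ) (J : ℕ) (v : Space d) (u : Space d → ℝ)
    (x : Space d) : ℝ :=
  h * ∑ j ∈ Finset.range J, (eulOp p h v)^[j] u x

theorem eulOp_steinSum (hp : Pot p η) (hf : Fine h J) (v : Space d) {L : ℝ} {f : Space d → ℝ}
    (hL : LipOn L f) (x : Space d) :
    eulOp p h v (steinSum p h J v f) x - steinSum p h J v f x
      = h * ((eulOp p h v)^[J] f x - f x) := by
  have h1 : eulOp p h v (steinSum p h J v f) x
      = h * ∑ j ∈ Finset.range J, (eulOp p h v)^[j + 1] f x := by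
    simp only [Function.iterate_succ_apply']
    unfold eulOp gav steinSum
    rw [integral_const_mul, integral_finsetSum]
    · rfl
    · exact fun j _ => eulOp_integrable hp hf v x (iterate_lip hp hf v hL j)
  rw [h1, steinSum, ← mul_sub, ← sum_sub_distrib,
    Finset.sum_range_sub (fun j => (eulOp p h v)^[j] f x)]
  rfl

/-! ## Near invariance from a Stein identity -/

/-- The Laplacian. -/
def lap (f : Space d → ℝ) (x : Space d) : ℝ := tr (fderiv ℝ (gradient f) x)

theorem abs_lap_le (hu : Test2 u α β) (x : Space d) : |lap u x| ≤ √d * β :=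
  (abs_tr_le _).trans (mul_le_mul_of_nonneg_left (hu.hess x) (Real.sqrt_nonneg _))

theorem continuous_lap (hu : Test2 u α β) : Continuous (lap u) := by
  have := (contDiff_gradient hu.smooth).continuous_fderiv one_ne_zero
  unfold lap tr; fun_prop

/-- Gaussian integration by parts for fields with bounded derivative. -/
theorem ibp {F : Space d → Space d} (hF : ContDiff ℝ 1 F) {C : ℝ}
    (hC : ∀ x, ‖fderiv ℝ F x‖ ≤ C) :
    ∫ x, ⟪x, F x⟫ ∂stdGaussian (Space d) = ∫ x, tr (fderiv ℝ F x) ∂stdGaussian (Space d) :=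
  gauss_ibp (bas d) (tame_of_lip hF hC)

theorem tr_smul (c : ℝ) (A : Space d →L[ℝ] Space d) : tr (c • A) = c * tr A := by
  simp only [tr, smul_apply, real_inner_smul_right, mul_sum]

theorem tr_id : tr (ContinuousLinearMap.id ℝ (Space d)) = d := by
  simp [tr]

theorem integrable_norm_sq : Integrable (fun z => ‖z‖ ^ 2) (stdGaussian (Space d)) :=
  (IsGaussian.memLp_id (stdGaussian (Space d)) 2 (by simp)).integrable_norm_pow (p := 2) two_ne_zero

theorem integrable_norm_gauss : Integrable (fun z => ‖z‖) (stdGaussian (Space d)) :=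
  IsGaussian.integrable_id.norm

theorem gauss_moments :
    ∫ z, ‖z‖ ^ 2 ∂stdGaussian (Space d) = d ∧ ∫ z, ‖z‖ ∂stdGaussian (Space d) ≤ √d := by
  set γ := stdGaussian (Space d)
  have h2 : ∫ z, ‖z‖ ^ 2 ∂γ = d := by
    have := ibp (F := fun x : Space d => x) contDiff_id (C := 1)
      (fun x => by rw [fderiv_fun_id]; exact ContinuousLinearMap.norm_id_le)
    simpa [real_inner_self_eq_norm_sq, tr_id, fderiv_fun_id] using this
  refine ⟨h2, ?_⟩
  rcases Nat.eq_zero_or_pos d with h0 | h0
  · subst h0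
    have : ∀ z : Space 0, ‖z‖ = 0 := fun z => by simp [Subsingleton.elim z 0]
    simp [this]
  · have hs : 0 < √(d : ℝ) := Real.sqrt_pos.2 (by exact_mod_cast h0)
    have hi : Integrable (fun z : Space d => ‖z‖ ^ 2 / (2 * √d) + √d / 2) γ :=
      (integrable_norm_sq.div_const _).add (integrable_const _)
    calc ∫ z, ‖z‖ ∂γ ≤ ∫ z, (‖z‖ ^ 2 / (2 * √d) + √d / 2) ∂γ := by
          refine integral_mono integrable_norm_gauss hi fun z => ?_
          rw [div_add_div _ _ (by positivity) two_ne_zero, le_div_iff₀ (by positivity)]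
          nlinarith [sq_nonneg (‖z‖ - √d)]
      _ = √d := by
          rw [integral_add (integrable_norm_sq.div_const _) (integrable_const _), integral_div, h2]
          simp only [integral_const, probReal_univ, one_smul]
          have := Real.mul_self_sqrt (Nat.cast_nonneg (α := ℝ) d)
          field_simp
          nlinarith

/-- A Lipschitz function of a moved point is integrable on the product. -/
theorem integrable_moved {X : Type} [MeasurableSpace X] {μ : Measure X} [IsProbabilityMeasure μ]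
    {g : Space d → ℝ} {L : ℝ} (hg : LipOn L g) {v : Space d} {y : X → Space d}
    (i1 : Integrable (fun x => ‖y x - v‖) μ) {S : X × Space d → Space d} (hS : Measurable S)
    {a : ℝ} (ha : ∀ w, ‖S w - v‖ ≤ a * (‖y w.1 - v‖ + ‖w.2‖)) :
    Integrable (fun w => g (S w)) (μ.prod (stdGaussian (Space d))) := by
  refine ((integrable_const |g v|).add ((((i1.comp_fst _).add
    (integrable_norm_gauss.comp_snd μ)).const_mul a).const_mul L)).mono'
    (hg.continuous.measurable.comp hS).aestronglyMeasurable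
    (Filter.Eventually.of_forall fun w => ?_)
  rw [Real.norm_eq_abs]
  have h1 := (hg.2 (S w) v).trans (mul_le_mul_of_nonneg_left (ha w) hg.1)
  have h2 := abs_sub_abs_le_abs_sub (g (S w)) (g v)
  simp only [Pi.add_apply]
  linarith

theorem move_le (a v z : Space d) (r : ℝ) :
    ‖a + r • z - v‖ ≤ (1 + |r|) * (‖a - v‖ + ‖z‖) := by
  rw [add_sub_right_comm]
  refine (norm_add_le _ _).trans ?_
  rw [norm_smul, Real.norm_eq_abs]
  nlinarith [norm_nonneg z, norm_nonneg (a - v), abs_nonneg r,
    mul_nonneg (abs_nonneg r) (norm_nonneg (a - v))]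

section Core

variable {X : Type} [MeasurableSpace X] {μ : Measure X} [IsProbabilityMeasure μ] {y : X → Space d}
  {f : Space d → ℝ} {α' β' m : ℝ}

omit [IsProbabilityMeasure μ] in
theorem integrable_inner_grad (hv : Test2 f α' β') {D : X → Space d} (hy : Measurable y)
    (hDm : Measurable D) (iD : Integrable (fun x => ‖D x‖) μ) (s : Space d) :
    Integrable (fun x => ⟪gradient f (y x + s), D x⟫) μ :=
  (iD.const_mul α').mono'
    (((contDiff_gradient hv.smooth).continuous.measurable.comp (hy.add_const s)).inner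
      hDm).aestronglyMeasurable
    (Filter.Eventually.of_forall fun _ => (norm_inner_le_norm _ _).trans
      (mul_le_mul_of_nonneg_right (hv.grad _) (norm_nonneg _)))

/-- The noise part of a step. -/
theorem noise_part (hv : Test2 f α' β') (hy : Measurable y) {v : Space d}
    (i1 : Integrable (fun x => ‖y x - v‖) μ) {D : X → Space d} (hDm : Measurable D)
    (iD : Integrable (fun x => ‖D x‖) μ) (mD : ∫ x, ‖D x‖ ∂μ ≤ m) {R : ℝ}
    (hR : ∀ s : Space d, |∫ x, (lap f (y x + s) - ⟪gradient f (y x + s), D x⟫) ∂μ| ≤ R)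
    {σ : ℝ} (hσ0 : 0 ≤ σ) :
    |(∫ w, f (y w.1 + σ • w.2) ∂μ.prod (stdGaussian (Space d)))
        - (∫ w : X × Space d, f (y w.1) ∂μ.prod (stdGaussian (Space d)))
        - σ ^ 2 / 2 * ∫ x, ⟪gradient f (y x), D x⟫ ∂μ|
      ≤ σ ^ 2 * (R + β' * σ * √d * m) := by
  set γ := stdGaussian (Space d)
  set ν := μ.prod γ with hν
  have hm0 : 0 ≤ m := le_trans (integral_nonneg fun x => norm_nonneg _) mD
  have hα : 0 ≤ α' := (norm_nonneg _).trans (hv.grad v)
  have hβ : 0 ≤ β' := (frob_nonneg _).trans (hv.hess v)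
  obtain ⟨-, hz1⟩ := gauss_moments (d := d)
  have hgc : Continuous (gradient f) := (contDiff_gradient hv.smooth).continuous
  have hym : Measurable fun w : X × Space d => y w.1 := hy.comp measurable_fst
  have iz : Integrable (fun w : X × Space d => ‖w.2‖) ν :=
    integrable_norm_gauss.comp_snd μ
  have hLf : LipOn α' f := ⟨hα, fun a b => lip hv a b⟩
  set φ : ℝ → ℝ := fun r => ∫ w, f (y w.1 + r • w.2) ∂ν with hφ
  set L : ℝ := ∫ x, ⟪gradient f (y x), D x⟫ ∂μ with hL
  have iφ : ∀ r : ℝ, Integrable (fun w : X × Space d => f (y w.1 + r • w.2)) ν := fun r =>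
    integrable_moved hLf i1 (hym.add (measurable_snd.const_smul r)) fun w => move_le _ _ _ r
  have iF : ∀ r : ℝ, Integrable (fun w : X × Space d => ⟪gradient f (y w.1 + r • w.2), w.2⟫) ν :=
    fun r => (iz.const_mul α').mono' ((hgc.measurable.comp (hym.add
      (measurable_snd.const_smul r))).inner measurable_snd).aestronglyMeasurable
      (Filter.Eventually.of_forall fun w => (norm_inner_le_norm _ _).trans
        (mul_le_mul_of_nonneg_right (hv.grad _) (norm_nonneg _)))
  have iin := integrable_inner_grad hv hy hDm iD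
  have ilap : ∀ s : Space d, Integrable (fun x => lap f (y x + s)) μ := fun s =>
    (integrable_const (√d * β')).mono'
      ((continuous_lap hv).measurable.comp (hy.add_const s)).aestronglyMeasurable
      (Filter.Eventually.of_forall fun x => abs_lap_le hv _)
  -- the second order part
  have hder : ∀ r ∈ Set.Icc 0 σ,
      HasDerivAt φ (∫ w, ⟪gradient f (y w.1 + r • w.2), w.2⟫ ∂ν) r := by
    intro r _
    refine (hasDerivAt_integral_of_dominated_loc_of_deriv_le (s := Set.univ) Filter.univ_mem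
      (F := fun r (w : X × Space d) => f (y w.1 + r • w.2))
      (F' := fun r w => ⟪gradient f (y w.1 + r • w.2), w.2⟫)
      (bound := fun w => α' * ‖w.2‖)
      (Filter.Eventually.of_forall fun r => (iφ r).aestronglyMeasurable) (iφ r) ?_
      (Filter.Eventually.of_forall fun w r _ => ?_) (iz.const_mul α')
      (Filter.Eventually.of_forall fun w r _ => ?_)).2
    · exact (iF r).aestronglyMeasurable
    · exact (norm_inner_le_norm _ _).trans
        (mul_le_mul_of_nonneg_right (hv.grad _) (norm_nonneg _))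
    · rw [inner_gradient]
      have h1 : HasDerivAt (fun r : ℝ => y w.1 + r • w.2) w.2 r := by
        simpa using ((hasDerivAt_id r).smul_const w.2).const_add (y w.1)
      exact ((hv.smooth.differentiable (by simp) _).hasFDerivAt).comp_hasDerivAt r h1
  have hsecond : ∀ r ∈ Set.Icc 0 σ,
      |(∫ w, ⟪gradient f (y w.1 + r • w.2), w.2⟫ ∂ν) - r * L| ≤ σ * (R + β' * σ * √d * m) := by
    intro r hr
    have iG : Integrable (fun w : X × Space d => lap f (y w.1 + r • w.2)) ν :=
      (integrable_const (√d * β')).mono'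
        ((continuous_lap hv).measurable.comp (hym.add (measurable_snd.const_smul r))).aestronglyMeasurable
        (Filter.Eventually.of_forall fun w => abs_lap_le hv _)
    have e1 : ∫ w, ⟪gradient f (y w.1 + r • w.2), w.2⟫ ∂ν
        = r * ∫ z, ∫ x, lap f (y x + r • z) ∂μ ∂γ := by
      rw [← integral_prod_symm _ iG, integral_prod _ iG, integral_prod _ (iF r), ← integral_const_mul]
      refine integral_congr_ae (Filter.Eventually.of_forall fun x => ?_)
      have hFd : ∀ z, HasFDerivAt (fun z => gradient f (y x + r • z))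
          (r • fderiv ℝ (gradient f) (y x + r • z)) z := by
        intro z
        have h0 := (((contDiff_gradient hv.smooth).differentiable (by simp) (y x + r • z)).hasFDerivAt).comp z
          (((hasFDerivAt_id z).const_smul r).const_add (y x))
        rw [show r • fderiv ℝ (gradient f) (y x + r • z)
          = (fderiv ℝ (gradient f) (y x + r • z)).comp (r • ContinuousLinearMap.id ℝ (Space d)) by
            ext; simp]
        exact h0
      have := ibp (F := fun z => gradient f (y x + r • z))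
        ((contDiff_gradient hv.smooth).comp (contDiff_const.add (contDiff_id.const_smul r)))
        (C := |r| * β')
        (fun z => by
          rw [(hFd z).fderiv, norm_smul, Real.norm_eq_abs]
          exact mul_le_mul_of_nonneg_left (hess_op hv _) (abs_nonneg r))
      simp only [fun z => (hFd z).fderiv, tr_smul, integral_const_mul] at this
      simp only [real_inner_comm] at this ⊢
      exact this
    have iH : Integrable (fun z => ∫ x, lap f (y x + r • z) ∂μ) γ := iG.integral_prod_right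
    have e2 : ∀ z : Space d,
        |(∫ x, lap f (y x + r • z) ∂μ) - L| ≤ R + β' * σ * m * ‖z‖ := by
      intro z
      have h1 := hR (r • z)
      rw [integral_sub (ilap _) (iin _)] at h1
      have h2 : |(∫ x, ⟪gradient f (y x + r • z), D x⟫ ∂μ) - L| ≤ β' * σ * m * ‖z‖ := by
        have h0 : Integrable (fun x => ⟪gradient f (y x), D x⟫) μ := by simpa using iin 0
        rw [hL, ← integral_sub (iin _) h0, ← Real.norm_eq_abs]
        refine (norm_integral_le_of_norm_le (iD.const_mul (β' * (σ * ‖z‖)))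
          (Filter.Eventually.of_forall fun x => ?_)).trans ?_
        · rw [← inner_sub_left]
          refine (norm_inner_le_norm _ _).trans (mul_le_mul_of_nonneg_right ?_ (norm_nonneg _))
          refine (grad_lip hv _ _).trans (mul_le_mul_of_nonneg_left ?_ hβ)
          rw [add_sub_cancel_left, norm_smul, Real.norm_eq_abs, abs_of_nonneg hr.1]
          exact mul_le_mul_of_nonneg_right hr.2 (norm_nonneg _)
        · rw [integral_const_mul]
          calc β' * (σ * ‖z‖) * ∫ x, ‖D x‖ ∂μ ≤ β' * (σ * ‖z‖) * m :=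
                mul_le_mul_of_nonneg_left mD (by positivity)
            _ = _ := by ring
      exact (abs_sub_le _ _ _).trans (add_le_add h1 h2)
    have iH1 : Integrable (fun z : Space d => R + β' * σ * m * ‖z‖) γ :=
      (integrable_const R).add (integrable_norm_gauss.const_mul _)
    have e3 : |(∫ z, ∫ x, lap f (y x + r • z) ∂μ ∂γ) - L| ≤ R + β' * σ * √d * m := by
      have : (∫ z, ∫ x, lap f (y x + r • z) ∂μ ∂γ) - L
          = ∫ z, ((∫ x, lap f (y x + r • z) ∂μ) - L) ∂γ := by
        rw [integral_sub iH (integrable_const L)]; simp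
      rw [this, ← Real.norm_eq_abs]
      refine (norm_integral_le_of_norm_le iH1 (Filter.Eventually.of_forall e2)).trans ?_
      rw [integral_add (integrable_const R) (integrable_norm_gauss.const_mul _),
        integral_const_mul]
      simp only [integral_const, probReal_univ, one_smul]
      have := mul_le_mul_of_nonneg_left hz1 (by positivity : 0 ≤ β' * σ * m)
      simp only at this ⊢
      nlinarith
    rw [e1, ← mul_sub, abs_mul, abs_of_nonneg hr.1]
    exact mul_le_mul hr.2 e3 (abs_nonneg _) hσ0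
  have hd : ∀ r ∈ Set.Icc 0 σ, HasDerivWithinAt (fun r => φ r - r ^ 2 / 2 * L)
      ((∫ w, ⟪gradient f (y w.1 + r • w.2), w.2⟫ ∂ν) - r * L) (Set.Icc 0 σ) r := by
    intro r hr
    have h2 : HasDerivAt (fun r : ℝ => r ^ 2 / 2 * L) (r * L) r := by
      simpa using ((hasDerivAt_pow 2 r).div_const 2).mul_const L
    exact ((hder r hr).sub h2).hasDerivWithinAt
  have h1 := (convex_Icc 0 σ).norm_image_sub_le_of_norm_hasDerivWithin_le hd
    (fun r hr => (hsecond r hr)) (Set.left_mem_Icc.2 hσ0) (Set.right_mem_Icc.2 hσ0)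
  rw [Real.norm_eq_abs, Real.norm_eq_abs, sub_zero, abs_of_nonneg hσ0] at h1
  simp only [hφ, zero_smul, add_zero, zero_pow two_ne_zero, zero_div, zero_mul, sub_zero] at h1
  rw [sub_right_comm]
  refine h1.trans (le_of_eq ?_)
  ring

/-- The drift part of a step, at one point. -/
theorem drift_point (hp : Pot p η) (hf : Fine h J) (hv : Test2 f α' β') (v a z : Space d)
    {σ : ℝ} (hσ0 : 0 ≤ σ) :
    |f (eul p h v (a + σ • z)) - f (a + σ • z) + h * ⟪gradient f a, a + p a - v⟫|
      ≤ 2 * β' * h ^ 2 * (‖a + p a - v‖ ^ 2 + 4 * σ ^ 2 * ‖z‖ ^ 2)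
        + h * σ * (2 * α' * ‖z‖ + β' * (‖a + p a - v‖ * ‖z‖)) := by
  have hα : 0 ≤ α' := (norm_nonneg _).trans (hv.grad a)
  have hβ : 0 ≤ β' := (frob_nonneg _).trans (hv.hess a)
  set Da := a + p a - v with hDa
  set q := a + σ • z with hq
  set Dq := q + p q - v with hDq
  have hz : ‖q - a‖ = σ * ‖z‖ := by
    rw [hq, add_sub_cancel_left, norm_smul, Real.norm_eq_abs, abs_of_nonneg hσ0]
  have hdd : ‖Dq - Da‖ ≤ 2 * σ * ‖z‖ := by
    have e : Dq - Da = (q - a) + (p q - p a) := by simp only [hDq, hDa]; module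
    rw [e]
    have h1 := pot_lip hp q a
    rw [hz] at h1
    refine (norm_add_le _ _).trans ?_
    rw [hz]
    nlinarith [mul_le_mul_of_nonneg_right hp.small (mul_nonneg hσ0 (norm_nonneg z)),
      mul_nonneg hσ0 (norm_nonneg z)]
  have hEq : eul p h v q = q + (-h) • Dq := by simp only [eul, hDq]; module
  have h1 := taylor hv q ((-h) • Dq)
  rw [← hEq, norm_smul, Real.norm_eq_abs, abs_neg, abs_of_pos hf.pos, real_inner_smul_right] at h1
  have h2 : ‖Dq‖ ^ 2 ≤ 2 * (‖Da‖ ^ 2 + 4 * σ ^ 2 * ‖z‖ ^ 2) := by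
    have h3 : ‖Dq‖ ≤ ‖Da‖ + 2 * σ * ‖z‖ := by
      have := norm_add_le Da (Dq - Da)
      rw [add_sub_cancel] at this
      linarith
    nlinarith [pow_le_pow_left₀ (norm_nonneg _) h3 2, sq_nonneg (‖Da‖ - 2 * σ * ‖z‖)]
  have h4 : |⟪gradient f q, Dq⟫ - ⟪gradient f a, Da⟫|
      ≤ σ * (2 * α' * ‖z‖ + β' * (‖Da‖ * ‖z‖)) := by
    have e : ⟪gradient f q, Dq⟫ - ⟪gradient f a, Da⟫
        = ⟪gradient f q, Dq - Da⟫ + ⟪gradient f q - gradient f a, Da⟫ := by
      simp [inner_sub_left, inner_sub_right]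
    rw [e]
    refine (abs_add_le _ _).trans ?_
    have h5 := (abs_real_inner_le_norm (gradient f q) (Dq - Da)).trans
      (mul_le_mul (hv.grad q) hdd (norm_nonneg _) hα)
    have h7 : ‖gradient f q - gradient f a‖ ≤ β' * (σ * ‖z‖) := by
      rw [← hz]; exact grad_lip hv q a
    have h6 := (abs_real_inner_le_norm (gradient f q - gradient f a) Da).trans
      (mul_le_mul_of_nonneg_right h7 (norm_nonneg _))
    nlinarith
  rw [show f (eul p h v q) - f q + h * ⟪gradient f a, Da⟫
      = (f (eul p h v q) - f q - -h * ⟪gradient f q, Dq⟫)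
        + -h * (⟪gradient f q, Dq⟫ - ⟪gradient f a, Da⟫) by ring]
  refine (abs_add_le _ _).trans (add_le_add ?_ ?_)
  · refine h1.trans ?_
    rw [mul_pow]
    calc β' * (h ^ 2 * ‖Dq‖ ^ 2) ≤ β' * (h ^ 2 * (2 * (‖Da‖ ^ 2 + 4 * σ ^ 2 * ‖z‖ ^ 2))) :=
          mul_le_mul_of_nonneg_left (mul_le_mul_of_nonneg_left h2 (sq_nonneg h)) hβ
      _ = _ := by ring
  · rw [abs_mul, abs_neg, abs_of_pos hf.pos, mul_assoc h σ]
    exact mul_le_mul_of_nonneg_left h4 hf.pos.le

theorem eul_move (hp : Pot p η) (hf : Fine h J) (v a z : Space d) (σ : ℝ) :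
    ‖eul p h v (a + σ • z) - eul p h v v‖ ≤ (1 + |σ|) * (‖a - v‖ + ‖z‖) := by
  refine (eul_lip hp hf v _ _).trans ((mul_le_of_le_one_left (norm_nonneg _) ?_).trans (move_le _ _ _ σ))
  linarith [hf.pos]

theorem integrable_eul (hp : Pot p η) (hf : Fine h J) (hv : Test2 f α' β') (hy : Measurable y)
    {v : Space d} (i1 : Integrable (fun x => ‖y x - v‖) μ) (σ : ℝ) :
    Integrable (fun w : X × Space d => f (eul p h v (y w.1 + σ • w.2)))
      (μ.prod (stdGaussian (Space d))) := by
  have hα : 0 ≤ α' := (norm_nonneg _).trans (hv.grad v)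
  have hec := continuous_eul (h := h) hp v
  set w0 := eul p h v v - v
  have hg : LipOn α' fun x => f (x + w0) :=
    ⟨hα, fun a b => by simpa [add_sub_add_right_eq_sub] using lip hv (a + w0) (b + w0)⟩
  have h1 := integrable_moved (μ := μ) hg i1 (S := fun w => eul p h v (y w.1 + σ • w.2) - w0)
    ((hec.measurable.comp ((hy.comp measurable_fst).add (measurable_snd.const_smul σ))).sub_const _)
    (a := 1 + |σ|) fun w => by
      rw [show eul p h v (y w.1 + σ • w.2) - w0 - v
        = eul p h v (y w.1 + σ • w.2) - eul p h v v by simp [w0]; abel]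
      exact eul_move hp hf v _ _ σ
  simpa using h1

/-- The drift part of a step. -/
theorem drift_part (hp : Pot p η) (hf : Fine h J) (hv : Test2 f α' β')
    (hy : Measurable y) {v : Space d} (i1 : Integrable (fun x => ‖y x - v‖) μ)
    (iD : Integrable (fun x => ‖y x + p (y x) - v‖) μ)
    (mD : ∫ x, ‖y x + p (y x) - v‖ ∂μ ≤ m)
    (i2 : Integrable (fun x => ‖y x + p (y x) - v‖ ^ 2) μ)
    (m2 : ∫ x, ‖y x + p (y x) - v‖ ^ 2 ∂μ ≤ m ^ 2) {σ : ℝ} (hσ0 : 0 ≤ σ) :
    |(∫ w, f (eul p h v (y w.1 + σ • w.2)) ∂μ.prod (stdGaussian (Space d)))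
        - (∫ w, f (y w.1 + σ • w.2) ∂μ.prod (stdGaussian (Space d)))
        + h * ∫ x, ⟪gradient f (y x), y x + p (y x) - v⟫ ∂μ|
      ≤ 2 * β' * h ^ 2 * (m ^ 2 + 4 * σ ^ 2 * d) + h * σ * √d * (2 * α' + β' * m) := by
  set γ := stdGaussian (Space d)
  set ν := μ.prod γ
  set D : X → Space d := fun x => y x + p (y x) - v with hD
  have hm0 : 0 ≤ m := le_trans (integral_nonneg fun x => norm_nonneg _) mD
  have hα : 0 ≤ α' := (norm_nonneg _).trans (hv.grad v)
  have hβ : 0 ≤ β' := (frob_nonneg _).trans (hv.hess v)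
  obtain ⟨hz2, hz1⟩ := gauss_moments (d := d)
  have hDm : Measurable D := (hy.add ((continuous_pot hp).measurable.comp hy)).sub_const v
  have iL0 : Integrable (fun x => ⟪gradient f (y x), D x⟫) μ := by
    simpa using integrable_inner_grad hv hy hDm iD 0
  have iE := integrable_eul (σ := σ) hp hf hv hy i1
  have iφ : Integrable (fun w : X × Space d => f (y w.1 + σ • w.2)) ν :=
    integrable_moved (L := α') ⟨hα, fun a b => lip hv a b⟩ i1
      ((hy.comp measurable_fst).add (measurable_snd.const_smul σ)) fun w => move_le _ _ _ σ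
  have iz : Integrable (fun w : X × Space d => ‖w.2‖) ν :=
    integrable_norm_gauss.comp_snd μ
  have iz2 : Integrable (fun w : X × Space d => ‖w.2‖ ^ 2) ν := integrable_norm_sq.comp_snd μ
  have iD2 : Integrable (fun w : X × Space d => ‖D w.1‖ ^ 2) ν := i2.comp_fst γ
  have iDz : Integrable (fun w : X × Space d => ‖D w.1‖ * ‖w.2‖) ν :=
    iD.mul_prod integrable_norm_gauss
  rw [← integral_sub iE iφ, ← integral_const_mul,
    show (∫ x, h * ⟪gradient f (y x), D x⟫ ∂μ) = ∫ w : X × Space d, h * ⟪gradient f (y w.1), D w.1⟫ ∂ν by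
      rw [integral_fun_fst (μ := μ) (ν := γ) (fun x => h * ⟪gradient f (y x), D x⟫)]; simp,
    ← integral_add (iE.sub' iφ) ((iL0.const_mul h).comp_fst γ), ← Real.norm_eq_abs]
  have iA := ((iD2.add (iz2.const_mul (4 * σ ^ 2))).const_mul (2 * β' * h ^ 2))
  have iB := (((iz.const_mul (2 * α')).add (iDz.const_mul β')).const_mul (h * σ))
  refine (norm_integral_le_of_norm_le (iA.add iB) (Filter.Eventually.of_forall fun w =>
    drift_point hp hf hv v (y w.1) w.2 hσ0)).trans ?_
  rw [integral_add' iA iB, integral_const_mul, integral_const_mul]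
  simp only [Pi.add_apply]
  rw [integral_add iD2 (iz2.const_mul _), integral_add (iz.const_mul _) (iDz.const_mul _),
    integral_const_mul, integral_const_mul, integral_const_mul,
    integral_prod_mul (μ := μ) (ν := γ) (fun x => ‖D x‖) (fun z : Space d => ‖z‖),
    integral_fun_fst (μ := μ) (ν := γ) (fun x => ‖D x‖ ^ 2),
    integral_fun_snd (μ := μ) (ν := γ) (fun z : Space d => ‖z‖ ^ 2),
    integral_fun_snd (μ := μ) (ν := γ) (fun z : Space d => ‖z‖)]
  simp only [probReal_univ, one_smul]
  rw [show ∫ z, ‖z‖ ^ 2 ∂γ = d from hz2]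
  refine add_le_add (mul_le_mul_of_nonneg_left ?_ (mul_nonneg (by linarith) (sq_nonneg h))) ?_
  · linarith [m2]
  · have h1 := mul_le_mul mD hz1 (integral_nonneg fun z => norm_nonneg z) hm0
    rw [mul_assoc (h * σ)]
    refine mul_le_mul_of_nonneg_left ?_ (mul_nonneg hf.pos.le hσ0)
    have h2 := mul_le_mul_of_nonneg_left h1 hβ
    have h3 := mul_le_mul_of_nonneg_left hz1 hα
    nlinarith

/-- **Near invariance.** -/
theorem near_invariant (hp : Pot p η) (hf : Fine h J) (v : Space d) (hy : Measurable y) {R : ℝ} (hu : Test2 u α β)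
    (hv : Test2 (steinSum p h J v u) α' β')
    (i1 : Integrable (fun x => ‖y x - v‖) μ) (m1 : ∫ x, ‖y x - v‖ ∂μ ≤ m)
    (i2 : Integrable (fun x => ‖y x + p (y x) - v‖ ^ 2) μ)
    (m2 : ∫ x, ‖y x + p (y x) - v‖ ^ 2 ∂μ ≤ m ^ 2)
    (hR : ∀ s : Space d,
      |∫ x, (lap (steinSum p h J v u) (y x + s)
        - ⟪gradient (steinSum p h J v u) (y x + s), y x + p (y x) - v⟫) ∂μ| ≤ R) :
    |(∫ x, u (y x) ∂μ) - piJ p h J u v| ≤ 2 * R
      + √(2 * h) * √d * (2 * α' + 3 * β' * m) + 2 * β' * h * (m ^ 2 + 8 * h * d)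
      + (1 - h / 2) ^ J * α * m := by
  set γ := stdGaussian (Space d)
  set f := steinSum p h J v u with hfdef
  set σ := √(2 * h) with hσ
  have hσ0 : 0 ≤ σ := Real.sqrt_nonneg _
  have hσ2 : σ ^ 2 = 2 * h := Real.sq_sqrt (by linarith [hf.pos])
  have hR0 : 0 ≤ R := le_trans (abs_nonneg _) (hR 0)
  have hm0 : 0 ≤ m := le_trans (integral_nonneg fun x => norm_nonneg _) m1
  have hα : 0 ≤ α' := (norm_nonneg _).trans (hv.grad v)
  have hβ : 0 ≤ β' := (frob_nonneg _).trans (hv.hess v)
  obtain ⟨hz2, hz1⟩ := gauss_moments (d := d)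
  have hfc : Continuous f := hv.smooth.continuous
  have hgc : Continuous (gradient f) := (contDiff_gradient hv.smooth).continuous
  have hpc := continuous_pot hp
  set D : X → Space d := fun x => y x + p (y x) - v with hD
  have hDm : Measurable D := ((hy.add (hpc.measurable.comp hy)).sub measurable_const)
  have iD : Integrable (fun x => ‖D x‖) μ :=
    ((integrable_const (1 : ℝ)).add i2).mono' hDm.norm.aestronglyMeasurable
      (Filter.Eventually.of_forall fun x => by
        simp only [Pi.add_apply, norm_norm]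
        change ‖D x‖ ≤ 1 + ‖D x‖ ^ 2
        nlinarith [sq_nonneg (‖D x‖ - 1), norm_nonneg (D x)])
  have mD : ∫ x, ‖D x‖ ∂μ ≤ m := by
    rcases eq_or_lt_of_le hm0 with hm | hm
    · subst hm
      have h0 : ∫ x, ‖D x‖ ^ 2 ∂μ = 0 :=
        le_antisymm (by simpa using m2) (integral_nonneg fun x => sq_nonneg _)
      have h1 := (integral_eq_zero_iff_of_nonneg (fun x => sq_nonneg _) i2).1 h0
      refine le_of_eq (integral_eq_zero_of_ae ?_)
      filter_upwards [h1] with x hx
      simpa using hx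
    · calc ∫ x, ‖D x‖ ∂μ ≤ ∫ x, (‖D x‖ ^ 2 / (2 * m) + m / 2) ∂μ := by
            refine integral_mono iD ((i2.div_const _).add (integrable_const _)) fun x => ?_
            rw [div_add_div _ _ (by positivity) two_ne_zero, le_div_iff₀ (by positivity)]
            nlinarith [sq_nonneg (‖D x‖ - m)]
        _ ≤ m := by
            rw [integral_add (i2.div_const _) (integrable_const _), integral_div]
            simp only [integral_const, probReal_univ, one_smul]
            rw [div_add_div _ _ (by positivity) two_ne_zero, div_le_iff₀ (by positivity)]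
            nlinarith [m2]
  set ν := μ.prod γ with hν
  have hLf : LipOn α' f := ⟨hα, fun a b => lip hv a b⟩
  have hLu : LipOn α u := ⟨(norm_nonneg _).trans (hu.grad v), fun a b => lip hu a b⟩
  set φ : ℝ → ℝ := fun r => ∫ w, f (y w.1 + r • w.2) ∂ν with hφ
  set L : ℝ := ∫ x, ⟪gradient f (y x), D x⟫ ∂μ with hL
  set E : X × Space d → Space d := fun w => eul p h v (y w.1 + σ • w.2) with hE
  have iE : Integrable (fun w => f (E w)) ν := integrable_eul hp hf hv hy i1 σ
  have iφ : ∀ r : ℝ, Integrable (fun w : X × Space d => f (y w.1 + r • w.2)) ν := fun r =>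
    integrable_moved hLf i1 ((hy.comp measurable_fst).add (measurable_snd.const_smul r))
      fun w => move_le _ _ _ r
  have hA : |(∫ w, f (E w) ∂ν) - φ σ + h * L|
      ≤ 2 * β' * h ^ 2 * (m ^ 2 + 8 * h * d) + h * σ * √d * (2 * α' + β' * m) := by
    have := drift_part hp hf hv hy i1 iD mD i2 m2 hσ0
    rwa [hσ2, show (4 : ℝ) * (2 * h) * d = 8 * h * d by ring] at this
  have hB : |φ σ - φ 0 - h * L| ≤ 2 * h * (R + β' * σ * √d * m) := by
    have := noise_part hv hy i1 hDm iD mD hR hσ0
    rw [hσ2, show (2 * h) / 2 = h by ring] at this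
    have h0 : φ 0 = ∫ w : X × Space d, f (y w.1) ∂ν := by simp only [hφ, zero_smul, add_zero]
    rw [h0]
    exact this
  -- assembling
  have iu : Integrable (fun x => u (y x)) μ := by
    refine ((integrable_const |u v|).add (i1.const_mul α)).mono'
      (hLu.continuous.measurable.comp hy).aestronglyMeasurable (Filter.Eventually.of_forall fun x => ?_)
    rw [Real.norm_eq_abs]
    have := (abs_sub_abs_le_abs_sub (u (y x)) (u v)).trans (hLu.2 (y x) v)
    simp only [Pi.add_apply]; linarith
  have hK := iterate_lip hp hf v hLu J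
  set K := (eulOp p h v)^[J] u with hKdef
  have iK : Integrable (fun x => K (y x)) μ := by
    refine ((integrable_const |K v|).add (i1.const_mul ((1 - h / 2) ^ J * α))).mono'
      (hK.continuous.measurable.comp hy).aestronglyMeasurable (Filter.Eventually.of_forall fun x => ?_)
    rw [Real.norm_eq_abs]
    have := (abs_sub_abs_le_abs_sub (K (y x)) (K v)).trans (hK.2 (y x) v)
    simp only [Pi.add_apply]; linarith
  have e0 : (∫ w, f (E w) ∂ν) - φ 0 = h * ((∫ x, K (y x) ∂μ) - ∫ x, u (y x) ∂μ) := by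
    rw [hφ]
    simp only [zero_smul, add_zero]
    have i0 : Integrable (fun w : X × Space d => f (y w.1)) ν := by simpa using iφ 0
    rw [← integral_sub iE i0,
      integral_prod (fun w : X × Space d => f (E w) - f (y w.1)) (iE.sub i0),
      ← integral_sub iK iu, ← integral_const_mul]
    refine integral_congr_ae (Filter.Eventually.of_forall fun x => ?_)
    simp only
    rw [← eulOp_steinSum hp hf v hLu (y x), integral_sub (eulOp_integrable hp hf v (y x) hLf)
      (integrable_const _)]
    simp [eulOp, gav, hfdef]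
  have hKv : |(∫ x, K (y x) ∂μ) - piJ p h J u v| ≤ (1 - h / 2) ^ J * α * m := by
    have e : (∫ x, K (y x) ∂μ) - piJ p h J u v = ∫ x, (K (y x) - K v) ∂μ := by
      rw [integral_sub iK (integrable_const _)]; simp [piJ, hKdef]
    rw [e, ← Real.norm_eq_abs]
    refine (norm_integral_le_of_norm_le (i1.const_mul ((1 - h / 2) ^ J * α))
      (Filter.Eventually.of_forall fun x => hK.2 (y x) v)).trans ?_
    rw [integral_const_mul]
    exact mul_le_mul_of_nonneg_left m1 hK.1
  have htot : h * |(∫ x, K (y x) ∂μ) - ∫ x, u (y x) ∂μ| ≤ h * (2 * R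
      + σ * √d * (2 * α' + 3 * β' * m) + 2 * β' * h * (m ^ 2 + 8 * h * d)) := by
    have e : |(∫ w, f (E w) ∂ν) - φ 0| = h * |(∫ x, K (y x) ∂μ) - ∫ x, u (y x) ∂μ| := by
      rw [e0, abs_mul, abs_of_pos hf.pos]
    rw [← e]
    have h1 := abs_add_le ((∫ w, f (E w) ∂ν) - φ σ + h * L) (φ σ - φ 0 - h * L)
    rw [show (∫ w, f (E w) ∂ν) - φ σ + h * L + (φ σ - φ 0 - h * L)
      = (∫ w, f (E w) ∂ν) - φ 0 by ring] at h1
    nlinarith [hA, hB]
  have h9 := le_of_mul_le_mul_left htot hf.pos
  rw [abs_sub_comm] at h9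
  have := abs_sub_le (∫ x, u (y x) ∂μ) (∫ x, K (y x) ∂μ) (piJ p h J u v)
  linarith

end Core

/-! ## The two pieces -/

theorem contDiff_moved (hu : Test2 u α β) {T : Space d → Space d} (hT : ContDiff ℝ 1 T) :
    ContDiff ℝ 1 fun x => gradient u (T x) :=
  (contDiff_gradient hu.smooth).comp hT

theorem fdot_sub_comp (B A : Space d →L[ℝ] Space d) :
    fdot (B.comp (ContinuousLinearMap.id ℝ _ - A)) A = fdot B A - fdot (B.comp A) A := by
  simp only [fdot, ← sum_sub_distrib]
  refine sum_congr rfl fun i _ => ?_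
  simp [inner_sub_left]

theorem tr_sub_comp (B A : Space d →L[ℝ] Space d) :
    tr (B.comp (ContinuousLinearMap.id ℝ _ - A)) = tr B - tr (B.comp A) := by
  simp only [tr, ← sum_sub_distrib]
  refine sum_congr rfl fun i _ => ?_
  simp [inner_sub_right]

theorem abs_fdot_comp_le (B A : Space d →L[ℝ] Space d) :
    |fdot (B.comp A) A| ≤ frob B * (√d * ‖A‖ ^ 2) := by
  rw [fdot_comp_right]
  refine (abs_fdot_le _ _).trans (mul_le_mul_of_nonneg_left ?_ (frob_nonneg B))
  refine (frob_comp_le _ _).trans ?_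
  rw [LinearIsometryEquiv.norm_map, sq, ← mul_assoc]
  exact mul_le_mul_of_nonneg_right (frob_le_norm A) (norm_nonneg A)

/-- Collecting the errors of the finite chain. -/
theorem collect (hf : Fine h J) {r m α' β' R a : ℝ} (hr : 0 ≤ r) (hm : m = 5 * (1 + d + r))
    (hα' : 0 ≤ α') (hβ' : 0 ≤ β') (ha : 0 ≤ a) :
    2 * R + √(2 * h) * √d * (2 * α' + 3 * β' * m) + 2 * β' * h * (m ^ 2 + 8 * h * d)
      + (1 - h / 2) ^ J * a * m
      ≤ 2 * R + chainErr d h J r * (4 * α' + 82 * β' + 5 * a) := by
  set P : ℝ := 1 + d + r with hP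
  have hd0 : (0 : ℝ) ≤ d := Nat.cast_nonneg d
  have hP1 : 1 ≤ P := by linarith
  have hh := hf.pos
  have hs : √(2 * h) ≤ 2 * √h := by
    rw [Real.sqrt_mul two_pos.le]
    refine mul_le_mul_of_nonneg_right ?_ (Real.sqrt_nonneg _)
    rw [Real.sqrt_le_left two_pos.le]; norm_num
  have hd : √(d : ℝ) ≤ P := by
    rw [Real.sqrt_le_left (by linarith)]; nlinarith
  have hrh : h ≤ √h := (Real.le_sqrt hh.le hh.le).2 (by nlinarith [hf.small])
  have hpow : 0 ≤ (1 - h / 2) ^ J := pow_nonneg (by linarith [hf.small]) _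
  have e1 : √(2 * h) * √d * (2 * α' + 3 * β' * m) ≤ P ^ 3 * √h * (4 * α' + 30 * β') := by
    subst hm
    calc √(2 * h) * √d * (2 * α' + 3 * β' * (5 * P))
        ≤ 2 * √h * P * (2 * α' + 3 * β' * (5 * P)) :=
          mul_le_mul_of_nonneg_right (mul_le_mul hs hd (Real.sqrt_nonneg _) (by positivity))
            (by positivity)
      _ = √h * (4 * α' * P + 30 * β' * P ^ 2) := by ring
      _ ≤ √h * (4 * α' * P ^ 3 + 30 * β' * P ^ 3) :=
          mul_le_mul_of_nonneg_left (add_le_add
            (mul_le_mul_of_nonneg_left (le_self_pow₀ hP1 (by norm_num)) (by positivity))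
            (mul_le_mul_of_nonneg_left (pow_le_pow_right₀ hP1 (by norm_num)) (by positivity)))
            (Real.sqrt_nonneg _)
      _ = _ := by ring
  have e2 : 2 * β' * h * (m ^ 2 + 8 * h * d) ≤ P ^ 3 * √h * (52 * β') := by
    subst hm
    have h1 : (5 * P) ^ 2 + 8 * h * d ≤ 26 * P ^ 3 := by
      have h2 : 8 * h * d ≤ d := by nlinarith [hf.small]
      nlinarith [pow_le_pow_right₀ hP1 (show 2 ≤ 3 by norm_num), le_self_pow₀ hP1 (show 3 ≠ 0 by norm_num)]
    calc 2 * β' * h * ((5 * P) ^ 2 + 8 * h * d) ≤ 2 * β' * √h * (26 * P ^ 3) :=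
          mul_le_mul (mul_le_mul_of_nonneg_left hrh (by positivity)) h1 (by positivity) (by positivity)
      _ = _ := by ring
  have e3 : (1 - h / 2) ^ J * a * m ≤ P ^ 3 * (1 - h / 2) ^ J * (5 * a) := by
    subst hm
    calc (1 - h / 2) ^ J * a * (5 * P) = P * ((1 - h / 2) ^ J * (5 * a)) := by ring
      _ ≤ P ^ 3 * ((1 - h / 2) ^ J * (5 * a)) :=
          mul_le_mul_of_nonneg_right (le_self_pow₀ hP1 (by norm_num)) (by positivity)
      _ = _ := by ring
  have e4 : P ^ 3 * √h * (4 * α' + 30 * β') + P ^ 3 * √h * (52 * β')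
      + P ^ 3 * (1 - h / 2) ^ J * (5 * a)
      ≤ P ^ 3 * (√h + (1 - h / 2) ^ J) * (4 * α' + 82 * β' + 5 * a) := by
    have h1 : 0 ≤ P ^ 3 * √h * (5 * a) := by positivity
    have h2 : 0 ≤ P ^ 3 * (1 - h / 2) ^ J * (4 * α' + 82 * β') :=
      mul_nonneg (mul_nonneg (by positivity) hpow) (by positivity)
    nlinarith
  unfold chainErr
  linarith

/-- The Stein defect of a deterministic map. -/
theorem defect_stein (hp : Pot p η) (v c s : Space d) {Ψ : Space d → Space d} (hΨ : ContDiff ℝ 1 Ψ)
    (hΨ8 : ∀ x, ‖fderiv ℝ Ψ x‖ ≤ 8 * η) {A B : ℝ}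
    (hlin : ∀ (a : Space d → Space d) (α β : ℝ), 0 ≤ α → 0 ≤ β → Field a α β →
      |defLin (cgrad p c v) Ψ a| ≤ A * α + B * β)
    {f : Space d → ℝ} {α' β' : ℝ} (hv : Test2 f α' β') :
    |∫ x, (lap f (c + (x - Ψ x) + s) - ⟪gradient f (c + (x - Ψ x) + s),
        c + (x - Ψ x) + p (c + (x - Ψ x)) - v⟫) ∂stdGaussian (Space d)|
      ≤ A * α' + B * (2 * β') + β' * (√d * (8 * η) ^ 2) := by
  set γ := stdGaussian (Space d)
  have hη0 := hp.pos.le
  have hα : 0 ≤ α' := (norm_nonneg _).trans (hv.grad 0)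
  have hβ : 0 ≤ β' := (frob_nonneg _).trans (hv.hess 0)
  set T : Space d → Space d := fun x => c + (x - Ψ x) + s with hT
  set a : Space d → Space d := fun x => gradient f (T x) with ha
  have hTc : ContDiff ℝ 1 T := (contDiff_const.add (contDiff_id.sub hΨ)).add contDiff_const
  have hac : ContDiff ℝ 1 a := contDiff_moved hv hTc
  set H : Space d → Space d →L[ℝ] Space d := fun x => fderiv ℝ (gradient f) (T x) with hH
  set I := ContinuousLinearMap.id ℝ (Space d)
  have hTd : ∀ x, HasFDerivAt T (I - fderiv ℝ Ψ x) x := fun x =>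
    (((hasFDerivAt_id x).sub (hΨ.differentiable (by simp) x).hasFDerivAt).const_add c).add_const s
  have hDa : ∀ x, fderiv ℝ a x = (H x).comp (I - fderiv ℝ Ψ x) := fun x =>
    ((((contDiff_gradient hv.smooth).differentiable (by simp) (T x)).hasFDerivAt).comp x (hTd x)).fderiv
  have hI1 : ∀ x, ‖I - fderiv ℝ Ψ x‖ ≤ 2 := fun x => by
    refine (norm_sub_le _ _).trans ?_
    linarith [ContinuousLinearMap.norm_id_le (𝕜 := ℝ) (E := Space d), hΨ8 x, hp.small]
  have hfield : Field a α' (2 * β') := by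
    refine ⟨hac, fun x => hv.grad _, fun x => ?_⟩
    rw [hDa, mul_comm 2]
    exact (frob_comp_le _ _).trans (mul_le_mul (hv.hess _) (hI1 x) (norm_nonneg _) hβ)
  have hDa0 : ∀ x, ‖fderiv ℝ a x‖ ≤ 2 * β' := fun x =>
    ContinuousLinearMap.opNorm_le_bound _ (by positivity) fun w => (norm_apply_le _ w).trans
      (mul_le_mul_of_nonneg_right (hfield.deriv x) (norm_nonneg w))
  have hfd : Continuous fun x => fderiv ℝ a x := hac.continuous_fderiv one_ne_zero
  have hΨd : Continuous fun x => fderiv ℝ Ψ x := hΨ.continuous_fderiv one_ne_zero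
  have hHc : Continuous H := ((contDiff_gradient hv.smooth).continuous_fderiv one_ne_zero).comp hTc.continuous
  have hacc := hac.continuous
  have i1 : Integrable (fun x => ⟪x, a x⟫) γ :=
    (integrable_norm_gauss.const_mul α').mono' (by fun_prop) (Filter.Eventually.of_forall fun x => by
      refine (norm_inner_le_norm _ _).trans ?_
      rw [mul_comm]
      exact mul_le_mul_of_nonneg_right (hv.grad _) (norm_nonneg _))
  have i2 : Integrable (fun x => tr (fderiv ℝ a x)) γ := by
    refine (integrable_const (√d * (2 * β'))).mono' (by unfold tr; fun_prop)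
      (Filter.Eventually.of_forall fun x => (abs_tr_le _).trans
        (mul_le_mul_of_nonneg_left (hfield.deriv x) (Real.sqrt_nonneg _)))
  set g := cgrad p c v with hg
  have hgl : ∀ x, ‖fderiv ℝ (fun x => Ψ x - g (x - Ψ x)) x‖ ≤ 2 := fun x => by
    have h1 : HasFDerivAt g (fderiv ℝ p (c + (x - Ψ x))) (x - Ψ x) := by
      have h0 := (hp.smooth.differentiable (by simp) (c + (x - Ψ x))).hasFDerivAt.comp (x - Ψ x)
        ((hasFDerivAt_id (x - Ψ x)).const_add c)
      exact (h0.add_const c).sub_const v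
    have h2 := (hΨ.differentiable (by simp) x).hasFDerivAt.sub
      (h1.comp x ((hasFDerivAt_id x).sub (hΨ.differentiable (by simp) x).hasFDerivAt))
    refine le_of_eq_of_le (congrArg norm h2.fderiv) ?_
    refine (norm_sub_le _ _).trans ?_
    have h3 := (ContinuousLinearMap.opNorm_comp_le (fderiv ℝ p (c + (x - Ψ x))) (I - fderiv ℝ Ψ x)).trans
      (mul_le_mul (pot_op hp _) (hI1 x) (norm_nonneg _) (by positivity))
    linarith [hΨ8 x, hp.small]
  have hgc : ContDiff ℝ 1 fun x => Ψ x - g (x - Ψ x) :=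
    hΨ.sub (((hp.smooth.comp (contDiff_const.add (contDiff_id.sub hΨ))).add contDiff_const).sub contDiff_const)
  have hgc' := hgc.continuous
  have hΨc := hΨ.continuous
  have i3 : Integrable (fun x => ⟪a x, Ψ x - g (x - Ψ x)⟫) γ := by
    set q : Space d → Space d := fun x => Ψ x - g (x - Ψ x)
    refine (((integrable_const ‖q 0‖).add (integrable_norm_gauss.const_mul 2)).const_mul α').mono'
      (hacc.inner hgc').aestronglyMeasurable (Filter.Eventually.of_forall fun x => ?_)
    refine (norm_inner_le_norm _ _).trans (mul_le_mul (hv.grad _) ?_ (norm_nonneg _) hα)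
    have h0 : ‖q x - q 0‖ ≤ 2 * ‖x - 0‖ := convex_univ.norm_image_sub_le_of_norm_fderiv_le
      (fun z _ => hgc.differentiable (by simp) z) (fun z _ => hgl z) (Set.mem_univ 0) (Set.mem_univ x)
    rw [sub_zero] at h0
    simp only [Pi.add_apply]
    linarith [norm_le_norm_add_norm_sub' (q x) (q 0)]
  have i4 : Integrable (fun x => fdot (fderiv ℝ a x) (fderiv ℝ Ψ x)) γ := by
    refine (integrable_const (2 * β' * (√d * (8 * η)))).mono' (by unfold fdot; fun_prop)
      (Filter.Eventually.of_forall fun x => (abs_fdot_le _ _).trans (mul_le_mul (hfield.deriv x)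
        ((frob_le_norm _).trans (mul_le_mul_of_nonneg_left (hΨ8 x) (Real.sqrt_nonneg _)))
        (frob_nonneg _) (by positivity)))
  have hq : ∀ x, |fdot ((H x).comp (fderiv ℝ Ψ x)) (fderiv ℝ Ψ x)| ≤ β' * (√d * (8 * η) ^ 2) :=
    fun x => (abs_fdot_comp_le _ _).trans (mul_le_mul (hv.hess _) (mul_le_mul_of_nonneg_left
      (pow_le_pow_left₀ (norm_nonneg _) (hΨ8 x) 2) (Real.sqrt_nonneg _)) (by positivity) hβ)
  have i5 : Integrable (fun x => fdot ((H x).comp (fderiv ℝ Ψ x)) (fderiv ℝ Ψ x)) γ :=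
    (integrable_const _).mono' (by unfold fdot; fun_prop) (Filter.Eventually.of_forall hq)
  have key : ∀ x, lap f (T x) - ⟪gradient f (T x), c + (x - Ψ x) + p (c + (x - Ψ x)) - v⟫
      = (tr (fderiv ℝ a x) - ⟪x, a x⟫)
        + (fdot (fderiv ℝ a x) (fderiv ℝ Ψ x) + ⟪a x, Ψ x - g (x - Ψ x)⟫)
        + fdot ((H x).comp (fderiv ℝ Ψ x)) (fderiv ℝ Ψ x) := by
    intro x
    rw [hDa, tr_sub_comp, fdot_sub_comp, tr_comp_eq_fdot (hess_symm hv.smooth (T x))]
    have h1 : ⟪gradient f (T x), c + (x - Ψ x) + p (c + (x - Ψ x)) - v⟫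
        = ⟪x, a x⟫ - ⟪a x, Ψ x - g (x - Ψ x)⟫ := by
      rw [real_inner_comm (a x) x, ← inner_sub_right]
      congr 1
      simp only [hg, cgrad]; abel
    rw [h1]
    show tr (H x) - _ = _
    ring
  have e : ∫ x, (lap f (T x) - ⟪gradient f (T x), c + (x - Ψ x) + p (c + (x - Ψ x)) - v⟫) ∂γ
      = defLin g Ψ a + ∫ x, fdot ((H x).comp (fderiv ℝ Ψ x)) (fderiv ℝ Ψ x) ∂γ := by
    have i21 : Integrable (fun x => tr (fderiv ℝ a x) - ⟪x, a x⟫) γ := i2.sub i1
    have i43 : Integrable (fun x => fdot (fderiv ℝ a x) (fderiv ℝ Ψ x)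
        + ⟪a x, Ψ x - g (x - Ψ x)⟫) γ := i4.add i3
    have i2143 : Integrable (fun x => (tr (fderiv ℝ a x) - ⟪x, a x⟫)
        + (fdot (fderiv ℝ a x) (fderiv ℝ Ψ x) + ⟪a x, Ψ x - g (x - Ψ x)⟫)) γ := i21.add i43
    rw [integral_congr_ae (Filter.Eventually.of_forall key), integral_add i2143 i5,
      integral_add i21 i43, integral_sub i2 i1, ibp hac hDa0, sub_self, zero_add]
    rfl
  show |∫ x, (lap f (T x) - ⟪gradient f (T x), _⟫) ∂γ| ≤ _
  rw [e]
  refine (abs_add_le _ _).trans (add_le_add (hlin a α' (2 * β') hα (by positivity) hfield) ?_)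
  rw [← Real.norm_eq_abs]
  exact (norm_integral_le_of_norm_le_const (Filter.Eventually.of_forall hq)).trans (by simp)

/-- L3 from the bound on the Stein sum. -/
theorem defect (hS : SteinSumSpec) : DefectSpec := by
  obtain ⟨C0, hC0, hS⟩ := hS
  refine ⟨300 * C0 + 5, by positivity,
    fun d p η h J hp hf v c Ψ hΨ hΨ8 A B hA hB hlin u α β hα hβ hu => ?_⟩
  have hη := hp.pos.le
  set γ := stdGaussian (Space d)
  set α' := C0 * α
  set β' := C0 * (β + η * α)
  have hα' : 0 ≤ α' := by positivity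
  have hβ' : 0 ≤ β' := by positivity
  have hv : Test2 (steinSum p h J v u) α' β' := hS d p η h J hp hf v u α β hα hβ hu
  set y : Space d → Space d := fun x => c + (x - Ψ x) with hy
  set r := ‖v‖ + ‖c‖ + ‖Ψ 0‖ with hr
  have hr0 : 0 ≤ r := by positivity
  set m := 5 * (1 + (d : ℝ) + r) with hm
  obtain ⟨hz2, hz1⟩ := gauss_moments (d := d)
  have hsq : √(d : ℝ) ≤ 1 + d := by
    rw [Real.sqrt_le_left (by positivity)]; nlinarith [Nat.cast_nonneg (α := ℝ) d]
  have hT : ∀ x, ‖x - Ψ x‖ ≤ 2 * ‖x‖ + ‖Ψ 0‖ := fun x => by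
    have h0 : ‖Ψ x - Ψ 0‖ ≤ 8 * η * ‖x - 0‖ := convex_univ.norm_image_sub_le_of_norm_fderiv_le
      (fun z _ => hΨ.differentiable (by simp) z) (fun z _ => hΨ8 z) (Set.mem_univ 0) (Set.mem_univ x)
    rw [sub_zero] at h0
    have h1 := norm_sub_le x (Ψ x)
    have h2 := norm_le_norm_add_norm_sub' (Ψ x) (Ψ 0)
    nlinarith [mul_le_mul_of_nonneg_right hp.small (norm_nonneg x)]
  have hy1 : ∀ x, ‖y x - v‖ ≤ r + 2 * ‖x‖ := fun x => by
    have h1 := (norm_sub_le (y x) v).trans (add_le_add (norm_add_le c (x - Ψ x)) le_rfl)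
    linarith [hT x]
  have hy2 : ∀ x, ‖y x + p (y x) - v‖ ≤ 2 * r + 3 * ‖x‖ := fun x => by
    have h1 := (norm_sub_le (y x + p (y x)) v).trans (add_le_add (norm_add_le _ _) le_rfl)
    have h2 := pot_lip hp (y x) 0
    rw [hp.zero, sub_zero, sub_zero] at h2
    have h3 : ‖y x‖ ≤ ‖c‖ + ‖x - Ψ x‖ := norm_add_le _ _
    nlinarith [mul_le_mul_of_nonneg_right hp.small (norm_nonneg (y x)), hT x, norm_nonneg v,
      norm_nonneg c, norm_nonneg (Ψ 0), norm_nonneg x]
  have hyc : Continuous y := continuous_const.add (continuous_id.sub hΨ.continuous)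
  have hpc := continuous_pot hp
  have j1 : Integrable (fun x : Space d => r + 2 * ‖x‖) γ :=
    (integrable_const r).add (integrable_norm_gauss.const_mul 2)
  have j2 : Integrable (fun x : Space d => 8 * r ^ 2 + 18 * ‖x‖ ^ 2) γ :=
    (integrable_const _).add (integrable_norm_sq.const_mul 18)
  have hD2 : ∀ x, ‖y x + p (y x) - v‖ ^ 2 ≤ 8 * r ^ 2 + 18 * ‖x‖ ^ 2 := fun x => by
    nlinarith [pow_le_pow_left₀ (norm_nonneg _) (hy2 x) 2, sq_nonneg (2 * r - 3 * ‖x‖)]
  have i1 : Integrable (fun x => ‖y x - v‖) γ :=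
    j1.mono' (by fun_prop) (Filter.Eventually.of_forall fun x => by simpa using hy1 x)
  have i2 : Integrable (fun x => ‖y x + p (y x) - v‖ ^ 2) γ :=
    j2.mono' (by fun_prop) (Filter.Eventually.of_forall fun x => by simpa using hD2 x)
  have m1 : ∫ x, ‖y x - v‖ ∂γ ≤ m := by
    refine (integral_mono i1 j1 hy1).trans ?_
    rw [integral_add (integrable_const r) (integrable_norm_gauss.const_mul 2), integral_const_mul]
    simp only [integral_const, probReal_univ, one_smul]
    nlinarith [hz1, hsq, Nat.cast_nonneg (α := ℝ) d]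
  have m2 : ∫ x, ‖y x + p (y x) - v‖ ^ 2 ∂γ ≤ m ^ 2 := by
    refine (integral_mono i2 j2 hD2).trans ?_
    rw [integral_add (integrable_const _) (integrable_norm_sq.const_mul 18),
      integral_const_mul (18 : ℝ), show ∫ z, ‖z‖ ^ 2 ∂γ = d from hz2]
    simp only [integral_const, probReal_univ, one_smul]
    nlinarith [Nat.cast_nonneg (α := ℝ) d, hr0]
  have hfin := (near_invariant hp hf hyc.measurable (μ := γ) (v := v) (y := y) hu hv i1 m1 i2 m2
    fun s => defect_stein hp v c s hΨ hΨ8 hlin hv).trans (collect hf hr0 hm hα' hβ' hα)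
  refine hfin.trans ?_
  have hce : 0 ≤ chainErr d h J r := by
    have := pow_nonneg (show (0 : ℝ) ≤ 1 - h / 2 by linarith [hf.small]) J
    unfold chainErr; positivity
  set E := chainErr d h J r
  set w := √(d : ℝ)
  have hw : 0 ≤ w := Real.sqrt_nonneg _
  have hs : η * α ≤ α := mul_le_of_le_one_left hα (by linarith [hp.small])
  have h1 : 2 * (A * α' + B * (2 * β') + β' * (w * (8 * η) ^ 2))
      ≤ (300 * C0 + 5) * (A * α + (B + η ^ 2 * w) * (β + η * α)) := by
    have hAα : 0 ≤ A * α := mul_nonneg hA hα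
    have hBb : 0 ≤ B * (β + η * α) := by positivity
    have hEb : 0 ≤ η ^ 2 * w * (β + η * α) := by positivity
    simp only [α', β']
    nlinarith [mul_nonneg hC0.le hAα, mul_nonneg hC0.le hBb, mul_nonneg hC0.le hEb]
  have h2 : E * (4 * α' + 82 * β' + 5 * α) ≤ (300 * C0 + 5) * (E * (α + β)) := by
    rw [mul_left_comm (300 * C0 + 5)]
    refine mul_le_mul_of_nonneg_left ?_ hce
    simp only [α', β']
    nlinarith [mul_nonneg hC0.le hα, mul_nonneg hC0.le hβ, mul_le_mul_of_nonneg_left hs hC0.le]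
  linarith

/-! ### The target -/

section Target

variable {U : Space d → ℝ}

theorem pot_mono (hp : Pot p η) (a w : Space d) : 0 ≤ ⟪p (a + w) - p a, w⟫ := by
  have hd : ∀ t, HasDerivAt (fun t : ℝ => ⟪p (a + t • w), w⟫) ⟪fderiv ℝ p (a + t • w) w, w⟫ t :=
    fun t => by
    have h1 : HasDerivAt (fun t : ℝ => a + t • w) w t := by
      simpa using ((hasDerivAt_id t).smul_const w).const_add a
    have h2 := ((hp.smooth.differentiable (by simp) _).hasFDerivAt.comp_hasDerivAt t h1).inner ℝ
      (hasDerivAt_const t w)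
    simpa using h2
  have h := monotone_of_hasDerivAt_nonneg hd fun t =>
    le_trans (mul_nonneg hp.pos.le (sq_nonneg _)) (hp.lower (a + t • w) w)
  have h0 := h (zero_le_one (α := ℝ))
  simp only [zero_smul, add_zero, one_smul] at h0
  rw [inner_sub_left]
  linarith

theorem pot_ge (hd : Differentiable ℝ U) (hp : Pot (gradient U) η) (x : Space d) : U 0 ≤ U x := by
  have hder : ∀ t : ℝ, HasDerivAt (fun t : ℝ => U (t • x)) ⟪gradient U (t • x), x⟫ t := fun t => by
    rw [inner_gradient]
    have h1 : HasDerivAt (fun t : ℝ => t • x) x t := by simpa using (hasDerivAt_id t).smul_const x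
    exact (hd _).hasFDerivAt.comp_hasDerivAt t h1
  have hm : MonotoneOn (fun t : ℝ => U (t • x)) (Set.Icc 0 1) := by
    refine monotoneOn_of_deriv_nonneg (convex_Icc 0 1)
      (fun t _ => (hder t).continuousAt.continuousWithinAt)
      (fun t _ => (hder t).differentiableAt.differentiableWithinAt) fun t ht => ?_
    rw [interior_Icc] at ht
    rw [(hder t).deriv]
    have h1 := pot_mono hp 0 (t • x)
    rw [zero_add, hp.zero, sub_zero, real_inner_smul_right] at h1
    exact nonneg_of_mul_nonneg_right h1 ht.1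
  simpa using hm (Set.left_mem_Icc.2 zero_le_one) (Set.right_mem_Icc.2 zero_le_one) zero_le_one

/-- The weight of the target. -/
def wgt (U : Space d → ℝ) (v x : Space d) : ℝ := Real.exp (-(U x + ‖x - v‖ ^ 2 / 2))

theorem integrable_wgt (hd : Differentiable ℝ U) (hp : Pot (gradient U) η) (v : Space d)
    {F : Space d → ℝ} (hF : Measurable F) {K : ℝ} (hK : ∀ x, |F x| ≤ K * (1 + ‖x - v‖) ^ 2) :
    Integrable fun x => F x * wgt U v x := by
  have hK0 : 0 ≤ K := by
    have := (abs_nonneg _).trans (hK v)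
    simpa using this
  have hi : Integrable fun x : Space d =>
      16 * K * Real.exp (-U 0) * Real.exp (-(3 / 8) * ‖x - v‖ ^ 2) :=
    (((integrable_gauss (E := Space d) (a := 3 / 8) (by norm_num)).comp_sub_right v)).const_mul _
  have := hd.continuous
  refine hi.mono' (hF.mul (by unfold wgt; fun_prop)).aestronglyMeasurable
    (Filter.Eventually.of_forall fun x => ?_)
  set t := ‖x - v‖
  have h1 : (1 + t) ^ 2 ≤ 16 * Real.exp (t ^ 2 / 8) := by
    nlinarith [Real.add_one_le_exp (t ^ 2 / 8), sq_nonneg (1 - t)]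
  have h2 : wgt U v x ≤ Real.exp (-U 0) * Real.exp (-(t ^ 2 / 2)) := by
    rw [wgt, ← Real.exp_add, Real.exp_le_exp]
    linarith [pot_ge hd hp x]
  have hw0 : 0 ≤ wgt U v x := (Real.exp_pos _).le
  rw [Real.norm_eq_abs, abs_mul, abs_of_nonneg hw0]
  calc |F x| * wgt U v x ≤ K * (16 * Real.exp (t ^ 2 / 8)) * (Real.exp (-U 0) * Real.exp (-(t ^ 2 / 2))) :=
        mul_le_mul ((hK x).trans (mul_le_mul_of_nonneg_left h1 hK0)) h2 hw0 (by positivity)
    _ = _ := by
        rw [show -(3 / 8) * t ^ 2 = t ^ 2 / 8 + -(t ^ 2 / 2) by ring, Real.exp_add]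
        ring

theorem hasFDerivAt_wgt (hd : Differentiable ℝ U) (v x : Space d) :
    HasFDerivAt (wgt U v)
      (-wgt U v x • InnerProductSpace.toDual ℝ (Space d) (x + gradient U x - v)) x := by
  have h1 : HasFDerivAt (fun x => ‖x - v‖ ^ 2 / 2) (innerSL ℝ (x - v)) x := by
    have h0 := ((hasFDerivAt_id x).sub_const v).norm_sq.const_mul (2 : ℝ)⁻¹
    refine (h0.congr_fderiv ?_).congr_of_eventuallyEq (Filter.Eventually.of_forall fun z => ?_)
    · ext z; simp
    · simp only [id_eq]; ring
  refine HasFDerivAt.congr_fderiv ((((hd x).hasFDerivAt.add h1).neg).exp) ?_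
  ext w
  simp only [wgt, smul_apply, InnerProductSpace.toDual_apply_apply, inner_sub_left, inner_add_left,
    inner_gradient, neg_apply, add_apply, innerSL_apply_apply, smul_eq_mul, Pi.neg_apply,
    Pi.add_apply]
  ring

/-- Integration by parts against the target. -/
theorem wgt_parts (hd : Differentiable ℝ U) (hp : Pot (gradient U) η) (v : Space d)
    {Φ : Space d → Space d} (hΦ : ContDiff ℝ 1 Φ) {K : ℝ}
    (hK : ∀ x, ‖Φ x‖ ≤ K * (1 + ‖x - v‖)) (hK' : ∀ x, ‖fderiv ℝ Φ x‖ ≤ K) :
    ∫ x, ⟪Φ x, x + gradient U x - v⟫ * wgt U v x = ∫ x, tr (fderiv ℝ Φ x) * wgt U v x := by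
  have hK0 : 0 ≤ K := (norm_nonneg _).trans (hK' 0)
  have hgU := continuous_pot hp
  have hDc := hΦ.continuous_fderiv one_ne_zero
  have hΦc := hΦ.continuous
  set e := bas d
  set D : Space d → Space d := fun x => x + gradient U x - v with hD
  have hDle : ∀ x, ‖D x‖ ≤ (2 + ‖v‖) * (1 + ‖x - v‖) := fun x => by
    have h1 : D x = (x - v) + gradient U x := by simp only [hD]; abel
    have h2 := norm_add_le (x - v) (gradient U x)
    rw [← h1] at h2
    have h3 := pot_lip hp x 0
    rw [hp.zero, sub_zero, sub_zero] at h3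
    have h4 := norm_le_norm_add_norm_sub' x v
    nlinarith [mul_le_mul_of_nonneg_right hp.small (norm_nonneg x), norm_nonneg v,
      norm_nonneg (x - v), mul_nonneg (norm_nonneg v) (norm_nonneg (x - v))]
  have hc : ∀ (i : Fin d) (x : Space d), |⟪e i, x⟫| ≤ ‖x‖ := fun i x => by
    simpa using abs_real_inner_le_norm (e i) x
  have iA : ∀ i, Integrable fun x => ⟪e i, fderiv ℝ Φ x (e i)⟫ * wgt U v x := fun i =>
    integrable_wgt hd hp v (by fun_prop) (K := K) fun x => by
      refine (hc i _).trans ?_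
      refine ((fderiv ℝ Φ x).le_of_opNorm_le (hK' x) _).trans ?_
      rw [e.orthonormal.1 i, mul_one]
      exact le_mul_of_one_le_right hK0 (one_le_pow₀ (by linarith [norm_nonneg (x - v)]))
  have iB : ∀ i, Integrable fun x => ⟪e i, Φ x⟫ * ⟪e i, D x⟫ * wgt U v x := fun i =>
    integrable_wgt hd hp v (by fun_prop) (K := K * (2 + ‖v‖)) fun x => by
      rw [abs_mul]
      refine (mul_le_mul ((hc i _).trans (hK x)) ((hc i _).trans (hDle x)) (abs_nonneg _)
        (by positivity)).trans (le_of_eq ?_)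
      ring
  have iC : ∀ i, Integrable fun x => ⟪e i, Φ x⟫ * wgt U v x := fun i =>
    integrable_wgt hd hp v (by fun_prop) (K := K) fun x => by
      refine ((hc i _).trans (hK x)).trans (mul_le_mul_of_nonneg_left ?_ hK0)
      exact le_self_pow₀ (by linarith [norm_nonneg (x - v)]) two_ne_zero
  have key : ∀ i, ∫ x, ⟪e i, Φ x⟫ * ⟪e i, D x⟫ * wgt U v x
      = ∫ x, ⟪e i, fderiv ℝ Φ x (e i)⟫ * wgt U v x := by
    intro i
    have hF : ∀ x, HasFDerivAt (fun x => ⟪e i, Φ x⟫) ((innerSL ℝ (e i)).comp (fderiv ℝ Φ x)) x :=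
      fun x => (innerSL ℝ (e i)).hasFDerivAt.comp x (hΦ.differentiable (by simp) x).hasFDerivAt
    have hW : ∀ x, fderiv ℝ (wgt U v) x (e i) = -(wgt U v x * ⟪e i, D x⟫) := fun x => by
      rw [(hasFDerivAt_wgt hd v x).fderiv, real_inner_comm (D x)]
      simp [hD, InnerProductSpace.toDual_apply_apply, inner_sub_left, inner_add_left]
    have h := integral_mul_fderiv_eq_neg_fderiv_mul_of_integrable (μ := volume)
      (f := fun x => ⟪e i, Φ x⟫) (g := wgt U v) (v := e i) ?_ ?_ (iC i)
      (fun x _ => (hF x).differentiableAt) (fun x _ => (hasFDerivAt_wgt hd v x).differentiableAt)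
    · simp only [hW, fun x => (hF x).fderiv] at h
      simp only [ContinuousLinearMap.comp_apply, innerSL_apply_apply, mul_neg, integral_neg,
        neg_inj] at h
      rw [← h]
      exact integral_congr_ae (Filter.Eventually.of_forall fun x => by simp only; ring)
    · simp only [fun x => (hF x).fderiv]
      simpa using iA i
    · simp only [hW]
      refine (iB i).neg.congr (Filter.Eventually.of_forall fun x => ?_)
      simp only [Pi.neg_apply]; ring
  show ∫ x, ⟪Φ x, D x⟫ * wgt U v x = _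
  have e1 : ∀ x, ⟪Φ x, D x⟫ * wgt U v x = ∑ i, ⟪e i, Φ x⟫ * ⟪e i, D x⟫ * wgt U v x := fun x => by
    rw [← sum_mul, parseval]
    exact congrArg (fun t => t * wgt U v x) (sum_congr rfl fun i _ => by rw [real_inner_comm (Φ x)])
  simp only [e1, tr, sum_mul]
  rw [integral_finsetSum _ fun i _ => iB i, integral_finsetSum _ fun i _ => iA i]
  exact sum_congr rfl fun i _ => key i

/-- Invariance from the bound on the Stein sum. -/
theorem invariant (hS : SteinSumSpec) : InvariantSpec := by
  obtain ⟨C0, hC0, hS⟩ := hS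
  refine ⟨200 * C0 + 5, by positivity, fun d U η h J hU hp hf u α β hα hβ hu v => ?_⟩
  have hd : Differentiable ℝ U := hU.differentiable (by simp)
  have hη := hp.pos.le
  set p := gradient U
  set α' := C0 * α
  set β' := C0 * (β + η * α)
  have hα' : 0 ≤ α' := by positivity
  have hβ' : 0 ≤ β' := by positivity
  have hv : Test2 (steinSum p h J v u) α' β' := hS d p η h J hp hf v u α β hα hβ hu
  have hpc := continuous_pot hp
  have hwc : Continuous (wgt U v) := by
    have := hd.continuous
    unfold wgt; fun_prop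
  have hw0 : ∀ x, 0 < wgt U v x := fun x => Real.exp_pos _
  have iw : Integrable (wgt U v) := by
    simpa using integrable_wgt hd hp v (F := fun _ => 1) measurable_const (K := 1)
      fun x => by rw [abs_one, one_mul]; exact one_le_pow₀ (by linarith [norm_nonneg (x - v)])
  set Z := ∫ x, wgt U v x with hZ
  have hZ0 : 0 < Z := by
    rw [hZ, integral_pos_iff_support_of_nonneg (fun x => (hw0 x).le) iw]
    simp [Function.support, fun x => (hw0 x).ne', Measure.measure_univ_pos, NeZero.ne]
  set μ := volume.withDensity fun x => ENNReal.ofReal (wgt U v x / Z)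
  have hμ : IsProbabilityMeasure μ := ⟨by
    rw [withDensity_apply _ MeasurableSet.univ, Measure.restrict_univ,
      ← ofReal_integral_eq_lintegral_ofReal (iw.div_const Z)
        (Filter.Eventually.of_forall fun x => div_nonneg (hw0 x).le hZ0.le), integral_div, ← hZ,
      div_self hZ0.ne', ENNReal.ofReal_one]⟩
  have hmean : ∀ F : Space d → ℝ, ∫ x, F x ∂μ = (∫ x, F x * wgt U v x) / Z := fun F => by
    rw [integral_withDensity_eq_integral_toReal_smul (hwc.measurable.div_const Z).ennreal_ofReal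
      (Filter.Eventually.of_forall fun x => ENNReal.ofReal_lt_top), ← integral_div]
    refine integral_congr_ae (Filter.Eventually.of_forall fun x => ?_)
    simp only [ENNReal.toReal_ofReal (div_nonneg (hw0 x).le hZ0.le), smul_eq_mul]
    ring
  have hint : ∀ {F : Space d → ℝ}, Integrable (fun x => F x * wgt U v x) → Integrable F μ := by
    intro F hF
    rw [integrable_withDensity_iff (hwc.measurable.div_const Z).ennreal_ofReal
      (Filter.Eventually.of_forall fun x => ENNReal.ofReal_lt_top)]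
    refine (hF.div_const Z).congr (Filter.Eventually.of_forall fun x => ?_)
    simp only [ENNReal.toReal_ofReal (div_nonneg (hw0 x).le hZ0.le)]
    ring
  have j2 : Integrable (fun x => ‖x - v‖ ^ 2) μ := hint <| integrable_wgt hd hp v (by fun_prop)
    (K := 1) fun x => by
      rw [abs_of_nonneg (sq_nonneg _), one_mul]
      exact pow_le_pow_left₀ (norm_nonneg _) (by linarith) 2
  have hp2 : ∀ x, ‖p x‖ ≤ (‖x - v‖ + ‖v‖) / 4 := fun x => by
    have h3 := pot_lip hp x 0
    rw [hp.zero, sub_zero, sub_zero] at h3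
    have h4 := norm_le_norm_add_norm_sub' x v
    nlinarith [mul_le_mul_of_nonneg_right hp.small (norm_nonneg x)]
  have hsecond : ∫ x, ‖x - v‖ ^ 2 ∂μ ≤ 2 * d + ‖v‖ ^ 2 := by
    have hid : ∀ x : Space d, fderiv ℝ (fun x : Space d => x - v) x = ContinuousLinearMap.id ℝ _ :=
      fun x => ((hasFDerivAt_id x).sub_const v).fderiv
    have hparts := wgt_parts hd hp v (Φ := fun x => x - v) (contDiff_id.sub contDiff_const) (K := 1)
      (fun x => by linarith [norm_nonneg (x - v)])
      (fun x => by rw [hid]; exact ContinuousLinearMap.norm_id_le)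
    simp only [hid, tr_id] at hparts
    have h1 : ∫ x, ⟪x - v, x + p x - v⟫ ∂μ = d := by
      rw [hmean, hparts, integral_const_mul, ← hZ, mul_div_assoc, div_self hZ0.ne', mul_one]
    have h2 : ∀ x, ‖x - v‖ ^ 2 / 2 - ‖v‖ ^ 2 / 2 ≤ ⟪x - v, x + p x - v⟫ := fun x => by
      have e : x + p x - v = (x - v) + ((p x - p v) + p v) := by abel
      rw [e, inner_add_right, inner_add_right, real_inner_self_eq_norm_sq]
      have h3 : 0 ≤ ⟪x - v, p x - p v⟫ := by
        have := pot_mono hp v (x - v)
        rwa [add_sub_cancel, real_inner_comm] at this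
      have h4 := neg_le_of_abs_le (abs_real_inner_le_norm (x - v) (p v))
      have h5 : ‖p v‖ ≤ ‖v‖ / 4 := by simpa using hp2 v
      nlinarith [mul_le_mul_of_nonneg_left h5 (norm_nonneg (x - v)),
        sq_nonneg (‖x - v‖ - ‖v‖ / 4)]
    have ii : Integrable (fun x => ⟪x - v, x + p x - v⟫) μ := hint <| integrable_wgt hd hp v
      (by fun_prop) (K := 2 + ‖v‖) fun x => by
        refine (abs_real_inner_le_norm _ _).trans ?_
        have h3 : ‖x + p x - v‖ ≤ ‖x - v‖ + ‖p x‖ := by
          rw [show x + p x - v = (x - v) + p x by abel]; exact norm_add_le _ _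
        nlinarith [hp2 x, norm_nonneg (x - v), norm_nonneg v,
          mul_le_mul_of_nonneg_left h3 (norm_nonneg (x - v)),
          mul_le_mul_of_nonneg_left (hp2 x) (norm_nonneg (x - v)),
          mul_nonneg (norm_nonneg v) (sq_nonneg ‖x - v‖)]
    have h6 := integral_mono ((j2.div_const 2).sub (integrable_const _)) ii h2
    rw [integral_sub' (j2.div_const 2) (integrable_const _), integral_div, h1] at h6
    simp only [integral_const, probReal_univ, one_smul] at h6
    linarith
  set r := ‖v‖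
  set m := 5 * (1 + (d : ℝ) + r) with hm
  have hD2 : ∀ x, ‖x + p x - v‖ ^ 2 ≤ 4 * ‖x - v‖ ^ 2 + r ^ 2 := fun x => by
    have h3 : ‖x + p x - v‖ ≤ ‖x - v‖ + ‖p x‖ := by
      rw [show x + p x - v = (x - v) + p x by abel]; exact norm_add_le _ _
    nlinarith [hp2 x, pow_le_pow_left₀ (norm_nonneg _) h3 2, norm_nonneg (p x),
      norm_nonneg (x - v), sq_nonneg (‖x - v‖ - r), norm_nonneg v]
  have j1 : Integrable (fun x => ‖x - v‖) μ :=
    ((integrable_const (1 : ℝ)).add j2).mono' (by fun_prop) (Filter.Eventually.of_forall fun x => by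
      simp only [Pi.add_apply, norm_norm]; nlinarith [sq_nonneg (‖x - v‖ - 1), norm_nonneg (x - v)])
  have j3 : Integrable (fun x => ‖x + p x - v‖ ^ 2) μ :=
    ((j2.const_mul 4).add (integrable_const (r ^ 2))).mono' (by fun_prop)
      (Filter.Eventually.of_forall fun x => by simpa using hD2 x)
  have hr0 : 0 ≤ r := norm_nonneg v
  have hd0 : (0 : ℝ) ≤ d := Nat.cast_nonneg d
  have m1 : ∫ x, ‖x - v‖ ∂μ ≤ m := by
    refine (integral_mono j1 ((j2.div_const (1 + d + r)).add (integrable_const (1 + d + r)))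
      fun x => ?_).trans ?_
    · simp only [Pi.add_apply]
      rw [div_add' _ _ _ (by positivity), le_div_iff₀ (by positivity)]
      nlinarith [sq_nonneg (‖x - v‖ - (1 + d + r)), norm_nonneg (x - v)]
    · rw [integral_add' (j2.div_const _) (integrable_const _), integral_div]
      simp only [integral_const, probReal_univ, one_smul]
      rw [div_add' _ _ _ (by positivity), div_le_iff₀ (by positivity), hm]
      nlinarith
  have m2 : ∫ x, ‖x + p x - v‖ ^ 2 ∂μ ≤ m ^ 2 := by
    refine (integral_mono j3 ((j2.const_mul 4).add (integrable_const _)) hD2).trans ?_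
    rw [integral_add' (j2.const_mul 4) (integrable_const _), integral_const_mul]
    simp only [integral_const, probReal_univ, one_smul]
    rw [hm]; nlinarith
  have hR : ∀ s : Space d, |∫ x, (lap (steinSum p h J v u) (x + s)
      - ⟪gradient (steinSum p h J v u) (x + s), x + p x - v⟫) ∂μ| ≤ 0 := by
    intro s
    set f := steinSum p h J v u
    have hT : ∀ x, fderiv ℝ (fun x => gradient f (x + s)) x = fderiv ℝ (gradient f) (x + s) :=
      fun x => fderiv_comp_add_right s
    have hc : ContDiff ℝ 1 fun x => gradient f (x + s) :=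
      contDiff_moved hv (contDiff_id.add contDiff_const)
    have hK : ∀ x, ‖gradient f (x + s)‖ ≤ (α' + β') * (1 + ‖x - v‖) := fun x =>
      (hv.grad _).trans (by nlinarith [norm_nonneg (x - v)])
    have hparts := wgt_parts hd hp v hc hK (fun x => by rw [hT]; linarith [hess_op hv (x + s)])
    simp only [hT] at hparts
    have iT : Integrable (fun x => lap f (x + s)) μ :=
      (integrable_const (√d * β')).mono'
        ((continuous_lap hv).comp (continuous_add_const s)).aestronglyMeasurable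
        (Filter.Eventually.of_forall fun x => abs_lap_le hv _)
    have hyv : Integrable (fun x => ‖x + p x - v‖) μ :=
      ((integrable_const (1 : ℝ)).add j3).mono' (by fun_prop) (Filter.Eventually.of_forall fun x => by
        simp only [Pi.add_apply, norm_norm]
        nlinarith [sq_nonneg (‖x + p x - v‖ - 1), norm_nonneg (x + p x - v)])
    have hDm : Measurable fun x => x + p x - v :=
      ((continuous_id.add hpc).sub continuous_const).measurable
    have iI := integrable_inner_grad hv measurable_id hDm hyv s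
    refine le_of_eq (abs_eq_zero.2 ?_)
    simp only [id_eq] at iI
    rw [integral_sub iT iI, hmean, hmean, hparts, sub_eq_zero]
    rfl
  have hfin := (near_invariant hp hf measurable_id (μ := μ) (v := v) (y := fun x => x) hu hv j1 m1
    j3 m2 hR).trans (collect hf hr0 hm hα' hβ' hα)
  rw [hmean] at hfin
  refine (le_of_eq ?_).trans (hfin.trans ?_)
  · simp only [hZ, wgt]
  · have hce : 0 ≤ chainErr d h J r := by
      have := pow_nonneg (show (0 : ℝ) ≤ 1 - h / 2 by linarith [hf.small]) J
      unfold chainErr; positivity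
    rw [mul_zero, zero_add, mul_comm (200 * C0 + 5) (chainErr d h J r), mul_assoc]
    refine mul_le_mul_of_nonneg_left ?_ hce
    have hs : η * α ≤ α := mul_le_of_le_one_left hα (by linarith [hp.small])
    simp only [α', β']
    nlinarith [mul_nonneg hC0.le hα, mul_nonneg hC0.le hβ, mul_le_mul_of_nonneg_left hs hC0.le]

end Target

end

end P347.Quarter.Defect
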