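import Vale.Agent.P347.Local.Model

/-!
# P347: definitions for the weak second-order sampler

Unit coordinates: `p` is the gradient of the potential, its derivative is between `η` and `2 η`.
-/

namespace P347.Quarter

open MeasureTheory ProbabilityTheory
open scoped RealInnerProductSpace

noncomputable section

variable {d M : ℕ}

/-- The Frobenius pairing. -/
def fdot (A B : Space d →L[ℝ] Space d) : ℝ :=
  ∑ i, ⟪A (EuclideanSpace.basisFun (Fin d) ℝ i), B (EuclideanSpace.basisFun (Fin d) ℝ i)⟫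

/-- The Frobenius norm. -/
def frob (A : Space d →L[ℝ] Space d) : ℝ := √(fdot A A)

/-- Averaging over a Gaussian shift of size `σ`. -/
def gav {F : Type} [NormedAddCommGroup F] [NormedSpace ℝ F] (σ : ℝ) (f : Space d → F)
    (x : Space d) : F :=
  ∫ z, f (x + σ • z) ∂stdGaussian (Space d)

/-- The Ornstein-Uhlenbeck average. -/
def ou {F : Type} [NormedAddCommGroup F] [NormedSpace ℝ F] (θ : ℝ) (f : Space d → F)
    (x : Space d) : F :=
  ∫ z, f (θ • x + √(1 - θ ^ 2) • z) ∂stdGaussian (Space d)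

/-- The gradient field of a unit potential. -/
structure Pot (p : Space d → Space d) (η : ℝ) : Prop where
  smooth : ContDiff ℝ 1 p
  zero : p 0 = 0
  pos : 0 < η
  small : η ≤ 1 / 8
  symm : ∀ x a b, ⟪fderiv ℝ p x a, b⟫ = ⟪a, fderiv ℝ p x b⟫
  lower : ∀ x a, η * ‖a‖ ^ 2 ≤ ⟪fderiv ℝ p x a, a⟫
  upper : ∀ x a, ⟪fderiv ℝ p x a, a⟫ ≤ 2 * η * ‖a‖ ^ 2

/-- The drift map of the inner chain towards `exp (-U - ‖· - v‖ ^ 2 / 2)`. -/
def eul (p : Space d → Space d) (h : ℝ) (v x : Space d) : Space d := x - h • (x + p x - v)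

/-- One step of the inner chain, the noise before the drift. -/
def eulOp {F : Type} [NormedAddCommGroup F] [NormedSpace ℝ F] (p : Space d → Space d) (h : ℝ)
    (v : Space d) (f : Space d → F) : Space d → F :=
  gav √(2 * h) fun x => f (eul p h v x)

/-- `J` steps of the inner chain from its centre `v`. -/
def piJ {F : Type} [NormedAddCommGroup F] [NormedSpace ℝ F] (p : Space d → Space d) (h : ℝ)
    (J : ℕ) (f : Space d → F) (v : Space d) : F :=
  (eulOp p h v)^[J] f v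

/-- The proximal chain. -/
def qop {F : Type} [NormedAddCommGroup F] [NormedSpace ℝ F] (p : Space d → Space d) (h : ℝ)
    (J : ℕ) (f : Space d → F) : Space d → F :=
  gav 1 (piJ p h J f)

/-- The inner chain is fine and long. -/
structure Fine (h : ℝ) (J : ℕ) : Prop where
  pos : 0 < h
  small : h ≤ 1 / 8
  long : (1 - h / 2) ^ J ≤ 1 / 16

/-- A test function with gradient at most `α` and Hessian at most `β` in Frobenius norm. -/
structure Test2 (u : Space d → ℝ) (α β : ℝ) : Prop where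
  smooth : ContDiff ℝ 2 u
  grad : ∀ x, ‖gradient u x‖ ≤ α
  hess : ∀ x, frob (fderiv ℝ (gradient u) x) ≤ β

/-- A vector test function. -/
structure Field (a : Space d → Space d) (α β : ℝ) : Prop where
  smooth : ContDiff ℝ 1 a
  bound : ∀ x, ‖a x‖ ≤ α
  deriv : ∀ x, frob (fderiv ℝ a x) ≤ β

/-- The recentred gradient of the inner potential. -/
def cgrad (p : Space d → Space d) (c v x : Space d) : Space d := p (c + x) + c - v

/-- A quadrature rule in Ornstein-Uhlenbeck time. -/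
structure Rule (M : ℕ) where
  time : Fin M → ℝ
  weight : Fin M → ℝ

/-- The contraction of a node. -/
def Rule.th (R : Rule M) (q : Fin M) : ℝ := Real.exp (-R.time q)

/-- The noise size of a node. -/
def Rule.sd (R : Rule M) (q : Fin M) : ℝ := √(1 - R.th q ^ 2)

/-- The rule integrates `e^{-(t - t₀)} (1 + λ) e^{-λ t}` over `t ≥ t₀`, up to `δ`. -/
structure Rule.Good (R : Rule M) (δ t0 : ℝ) : Prop where
  t0_pos : 0 < t0
  le_time : ∀ q, t0 ≤ R.time q
  nonneg : ∀ q, 0 ≤ R.weight q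
  sum_weight : ∑ q, R.weight q ≤ 2
  sum_div : ∑ q, R.weight q / R.sd q ≤ 8
  quad : ∀ l : ℝ, 0 ≤ l →
    |∑ q, R.weight q * ((1 + l) * Real.exp (-(l * R.time q))) - Real.exp (-(l * t0))| ≤ δ

/-- The seeds: for every node one Gaussian for it and one for each node inside it. -/
abbrev Seeds (d M : ℕ) : Type := EuclideanSpace ℝ (Fin M × Option (Fin M) × Fin d)

/-- One block of the seeds. -/
def slot (W : Seeds d M) (q : Fin M) (r : Option (Fin M)) : Space d :=
  WithLp.toLp 2 fun i => W (q, r, i)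

/-- The first level inner map, its seeds being `U`. -/
def s1 (R : Rule M) (g : Space d → Space d) (x : Space d) (U : Fin M → Space d) : Space d :=
  x - ∑ r, R.weight r • g (R.th r • x + R.sd r • U r)

/-- What node `q` of the second level contributes. -/
def hq (R : Rule M) (g : Space d → Space d) (x : Space d) (W : Seeds d M) (q : Fin M) : Space d :=
  g (s1 R g (R.th q • x + R.sd q • slot W q none) fun r => slot W q (some r))

/-- The inner map. -/
def s2 (R : Rule M) (g : Space d → Space d) (x : Space d) (W : Seeds d M) : Space d :=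
  x - ∑ q, R.weight q • hq R g x W q

/-- The mean of `g` after the first level. -/
def gmean1 (R : Rule M) (g : Space d → Space d) (x : Space d) : Space d :=
  ∫ U, g (s1 R g x fun r => slot U r none) ∂stdGaussian (Seeds d M)

/-- The deterministic displacement. -/
def psi (R : Rule M) (g : Space d → Space d) (x : Space d) : Space d :=
  ∑ q, R.weight q • ou (R.th q) (gmean1 R g) x

/-- The linear part of the defect of `x ↦ x - Ψ x` against a field. -/
def defLin (g Ψ a : Space d → Space d) : ℝ :=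
  ∫ x, (fdot (fderiv ℝ a x) (fderiv ℝ Ψ x) + ⟪a x, Ψ x - g (x - Ψ x)⟫) ∂stdGaussian (Space d)

/-- Error of the finite inner chain. -/
def chainErr (d : ℕ) (h : ℝ) (J : ℕ) (r : ℝ) : ℝ :=
  (1 + d + r) ^ 3 * (√h + (1 - h / 2) ^ J)

/-! ## The pieces -/

/-- L1: smoothing of the chain. -/
def SmoothingSpec : Prop :=
  ∃ C : ℝ, 0 < C ∧ ∀ (d : ℕ) (p : Space d → Space d) (η h : ℝ) (J : ℕ), Pot p η → Fine h J →
    ∀ f : Space d → ℝ, Continuous f → (∀ x, f x ∈ Set.Icc (0 : ℝ) 1) → ∀ k : ℕ, 1 ≤ k →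
      Test2 ((qop p h J)^[k] f) (C / √k) (C * (1 / k + η)) ∧
        ∀ x, (qop p h J)^[k] f x ∈ Set.Icc (0 : ℝ) 1

/-- L1: contraction of the chain. -/
def ContractionSpec : Prop :=
  ∀ (d : ℕ) (p : Space d → Space d) (η h : ℝ) (J : ℕ), Pot p η → Fine h J →
    ∀ (f : Space d → ℝ) (K : ℝ), (∀ x y, |f x - f y| ≤ K * ‖x - y‖) → ∀ (k : ℕ) (x y : Space d),
      |(qop p h J)^[k] f x - (qop p h J)^[k] f y| ≤ (1 + η / 2)⁻¹ ^ k * (K * ‖x - y‖)

/-- L1: the Stein sum of the inner chain. -/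
def SteinSumSpec : Prop :=
  ∃ C : ℝ, 0 < C ∧ ∀ (d : ℕ) (p : Space d → Space d) (η h : ℝ) (J : ℕ), Pot p η → Fine h J →
    ∀ (v : Space d) (u : Space d → ℝ) (α β : ℝ), 0 ≤ α → 0 ≤ β → Test2 u α β →
      Test2 (fun x => h * ∑ j ∈ Finset.range J, (eulOp p h v)^[j] u x) (C * α) (C * (β + η * α))

/-- L3: the exact defect of a deterministic map. -/
def DefectSpec : Prop :=
  ∃ C : ℝ, 0 < C ∧ ∀ (d : ℕ) (p : Space d → Space d) (η h : ℝ) (J : ℕ), Pot p η → Fine h J →
    ∀ (v c : Space d) (Ψ : Space d → Space d), ContDiff ℝ 1 Ψ →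
    (∀ x, ‖fderiv ℝ Ψ x‖ ≤ 8 * η) → ∀ (A B : ℝ), 0 ≤ A → 0 ≤ B →
    (∀ (a : Space d → Space d) (α β : ℝ), 0 ≤ α → 0 ≤ β → Field a α β →
      |defLin (cgrad p c v) Ψ a| ≤ A * α + B * β) →
    ∀ (u : Space d → ℝ) (α β : ℝ), 0 ≤ α → 0 ≤ β → Test2 u α β →
      |(∫ x, u (c + (x - Ψ x)) ∂stdGaussian (Space d)) - piJ p h J u v|
        ≤ C * (A * α + (B + η ^ 2 * √d) * (β + η * α)
          + chainErr d h J (‖v‖ + ‖c‖ + ‖Ψ 0‖) * (α + β))

/-- Invariance of the target, up to the error of the finite chain. -/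
def InvariantSpec : Prop :=
  ∃ C : ℝ, 0 < C ∧ ∀ (d : ℕ) (U : Space d → ℝ) (η h : ℝ) (J : ℕ), ContDiff ℝ 2 U →
    Pot (gradient U) η → Fine h J → ∀ (u : Space d → ℝ) (α β : ℝ), 0 ≤ α → 0 ≤ β →
    Test2 u α β → ∀ v : Space d,
      |(∫ x, u x * Real.exp (-(U x + ‖x - v‖ ^ 2 / 2))) / (∫ x, Real.exp (-(U x + ‖x - v‖ ^ 2 / 2)))
          - piJ (gradient U) h J u v|
        ≤ C * chainErr d h J ‖v‖ * (α + β)

/-- Existence of rules. -/
def RuleSpec : Prop :=
  ∃ C : ℝ, 0 < C ∧ ∀ d : ℕ, 2 ≤ d → ∃ (M : ℕ) (R : Rule M), (M : ℝ) ≤ C * Real.log d ^ 3 ∧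
    R.Good (1 / (d : ℝ) ^ 20) (1 / (d : ℝ) ^ 20)

/-- The rule applied to a Lipschitz vector function. -/
def QuadSpec : Prop :=
  ∃ C : ℝ, 0 < C ∧ ∀ (d M : ℕ) (R : Rule M) (δ t0 : ℝ), R.Good δ t0 →
    ∀ (G : Space d → Space d) (L : ℝ), ContDiff ℝ 1 G → (∀ x, ‖fderiv ℝ G x‖ ≤ L) →
    ∀ (a : Space d → Space d) (α β : ℝ), 0 ≤ α → Field a α β →
      |∫ x, (fdot (fderiv ℝ a x) (fderiv ℝ (fun y => ∑ q, R.weight q • ou (R.th q) G y) x)
          + ⟪a x, (∑ q, R.weight q • ou (R.th q) G x) - G x⟫) ∂stdGaussian (Space d)|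
        ≤ C * α * (δ * √(∫ x, ‖G x‖ ^ 2 ∂stdGaussian (Space d)) + L * √(t0 * d))

/-- L2 and L4: one inner map against the inner chain. -/
def StepSpec : Prop :=
  ∃ C : ℝ, 0 < C ∧ ∀ (d M : ℕ) (R : Rule M) (δ t0 : ℝ), R.Good δ t0 →
    ∀ (p : Space d → Space d) (η h : ℝ) (J : ℕ), Pot p η → Fine h J →
    ∀ (v c : Space d) (ρ : ℝ), ‖cgrad p c v 0‖ ≤ ρ →
    ∀ (u : Space d → ℝ) (α β : ℝ), 0 ≤ α → 0 ≤ β → Test2 u α β →
      |(∫ z, ∫ W, u (c + s2 R (cgrad p c v) z W) ∂stdGaussian (Seeds d M)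
          ∂stdGaussian (Space d)) - piJ p h J u v|
        ≤ C * (η ^ 3 * √d * α + η ^ 2 * √d * (β + η * α)
          + (ρ + η * √d + 1) * (δ + √t0) * √d * α + (ρ + η * ρ * √d) * (α + β)
          + chainErr d h J (‖v‖ + ‖c‖ + ρ) * (α + β))

end

end P347.Quarter
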