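import Mathlib

/-!
# P347: change of variables for a small perturbation of the identity

For `ψ` differentiable with continuous derivative `D` of norm at most `η < 1`, the map `x + ψ x` is a
homeomorphism and carries the weight `jac` times a Gaussian law to that Gaussian law. For symmetric
operators of norm at most one half, the logarithm of the determinant is expanded to second order, with
a remainder that is bounded and Lipschitz in the Frobenius norm.
-/

open MeasureTheory Finset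
open scoped RealInnerProductSpace

namespace P347.Quarter

noncomputable section

variable {E : Type} [NormedAddCommGroup E] [InnerProductSpace ℝ E]

/-- A differentiable perturbation whose derivative is a contraction. -/
structure Small (ψ : E → E) (D : E → E →L[ℝ] E) (η : ℝ) : Prop where
  deriv : ∀ x, HasFDerivAt ψ (D x) x
  cont : Continuous D
  bound : ∀ x, ‖D x‖ ≤ η
  lt_one : η < 1

/-- The perturbed identity. -/
def shift (ψ : E → E) (x : E) : E := x + ψ x

variable {ψ : E → E} {D : E → E →L[ℝ] E} {η : ℝ}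

theorem Small.nonneg (h : Small ψ D η) : 0 ≤ η := le_trans (norm_nonneg _) (h.bound 0)

theorem Small.continuous (h : Small ψ D η) : Continuous ψ :=
  continuous_iff_continuousAt.2 fun x => (h.deriv x).continuousAt

theorem Small.lip (h : Small ψ D η) (x y : E) : ‖ψ x - ψ y‖ ≤ η * ‖x - y‖ :=
  convex_univ.norm_image_sub_le_of_norm_hasFDerivWithin_le
    (fun z _ => (h.deriv z).hasFDerivWithinAt) (fun z _ => h.bound z) (Set.mem_univ y) (Set.mem_univ x)

theorem Small.hasFDerivAt_shift (h : Small ψ D η) (x : E) :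
    HasFDerivAt (shift ψ) (1 + D x) x :=
  (hasFDerivAt_id x).add (h.deriv x)

theorem Small.shift_anti (h : Small ψ D η) (x y : E) :
    (1 - η) * ‖x - y‖ ≤ ‖shift ψ x - shift ψ y‖ := by
  have h1 : x - y = (shift ψ x - shift ψ y) - (ψ x - ψ y) := by unfold shift; abel
  have h2 := norm_sub_le (shift ψ x - shift ψ y) (ψ x - ψ y)
  rw [← h1] at h2
  linarith [h.lip x y]

theorem Small.injective_shift (h : Small ψ D η) : Function.Injective (shift ψ) := by
  intro x y he
  have h1 := h.shift_anti x y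
  rw [he, sub_self, norm_zero] at h1
  have h2 : ‖x - y‖ ≤ 0 := by nlinarith [h.lt_one, norm_nonneg (x - y)]
  exact sub_eq_zero.1 (norm_le_zero_iff.1 h2)

theorem Small.surjective_shift [CompleteSpace E] (h : Small ψ D η) :
    Function.Surjective (shift ψ) := by
  intro y
  have hc : ContractingWith η.toNNReal fun x : E => y - ψ x := by
    refine ⟨Real.toNNReal_lt_one.2 h.lt_one, LipschitzWith.of_dist_le' fun a b => ?_⟩
    rw [dist_eq_norm, dist_eq_norm, sub_sub_sub_cancel_left, norm_sub_rev]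
    exact h.lip a b
  refine ⟨hc.fixedPoint _, ?_⟩
  have h1 : y - ψ (hc.fixedPoint _) = hc.fixedPoint _ := hc.fixedPoint_isFixedPt
  calc shift ψ (hc.fixedPoint _) = (y - ψ (hc.fixedPoint _)) + ψ (hc.fixedPoint _) := by
        rw [h1]; rfl
    _ = y := sub_add_cancel _ _

/-- The perturbed identity as a homeomorphism. -/
def Small.homeo [CompleteSpace E] (h : Small ψ D η) : E ≃ₜ E where
  toEquiv := Equiv.ofBijective (shift ψ) ⟨h.injective_shift, h.surjective_shift⟩
  continuous_toFun := continuous_id.add h.continuous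
  continuous_invFun := by
    refine (LipschitzWith.of_dist_le' (K := (1 - η)⁻¹) fun a b => ?_).continuous
    set e := Equiv.ofBijective (shift ψ) ⟨h.injective_shift, h.surjective_shift⟩
    have h1 := h.shift_anti (e.symm a) (e.symm b)
    have ha : shift ψ (e.symm a) = a := e.apply_symm_apply a
    have hb : shift ψ (e.symm b) = b := e.apply_symm_apply b
    rw [ha, hb] at h1
    rw [dist_eq_norm, dist_eq_norm]
    have h2 : 0 < 1 - η := by linarith [h.lt_one]
    rw [← mul_le_mul_iff_right₀ h2]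
    calc (1 - η) * ‖e.symm a - e.symm b‖ ≤ ‖a - b‖ := h1
      _ = (1 - η) * ((1 - η)⁻¹ * ‖a - b‖) := by field_simp

theorem Small.homeo_apply [CompleteSpace E] (h : Small ψ D η) (x : E) : h.homeo x = shift ψ x := rfl

variable [FiniteDimensional ℝ E]

theorem det_one_add_ne_zero {A : E →L[ℝ] E} (hA : ‖A‖ < 1) : (1 + A).det ≠ 0 := by
  intro h0
  obtain ⟨x, hx, hx0⟩ := Submodule.exists_mem_ne_zero_of_ne_bot
    (bot_lt_iff_ne_bot.1 (LinearMap.bot_lt_ker_of_det_eq_zero h0))
  have h1 : x + A x = 0 := LinearMap.mem_ker.1 hx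
  have h2 : ‖x‖ ≤ ‖A‖ * ‖x‖ := by
    have := A.le_opNorm x
    rwa [eq_neg_of_add_eq_zero_right h1, norm_neg] at this
  have h3 : 0 < ‖x‖ := norm_pos_iff.2 hx0
  nlinarith

theorem det_one_add_pos {A : E →L[ℝ] E} (hA : ‖A‖ < 1) : 0 < (1 + A).det := by
  by_contra hle
  have hf : ContinuousOn (fun t : ℝ => (1 + t • A).det) (Set.Icc 0 1) :=
    ((ContinuousLinearMap.continuous_det (𝕜 := ℝ) (E := E)).comp
      (by fun_prop : Continuous fun t : ℝ => 1 + t • A)).continuousOn
  have h1 : (1 + (1 : ℝ) • A).det ≤ 0 := by rw [one_smul]; exact not_lt.1 hle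
  have h0 : (0 : ℝ) ≤ (1 + (0 : ℝ) • A).det := by
    rw [zero_smul, add_zero]
    simp [ContinuousLinearMap.det]
  obtain ⟨t, ht, ht0⟩ := intermediate_value_Icc' zero_le_one hf ⟨h1, h0⟩
  refine det_one_add_ne_zero ?_ ht0
  rw [norm_smul, Real.norm_eq_abs, abs_of_nonneg ht.1]
  calc t * ‖A‖ ≤ 1 * ‖A‖ := mul_le_mul_of_nonneg_right ht.2 (norm_nonneg _)
    _ < 1 := by rwa [one_mul]

theorem Small.det_pos (h : Small ψ D η) (x : E) : 0 < (1 + D x).det :=
  det_one_add_pos (lt_of_le_of_lt (h.bound x) h.lt_one)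

/-- The Gaussian weight of the perturbation. -/
def jac (ψ : E → E) (D : E → E →L[ℝ] E) (x : E) : ℝ :=
  (1 + D x).det * Real.exp (-⟪x, ψ x⟫ - ‖ψ x‖ ^ 2 / 2)

theorem Small.jac_pos (h : Small ψ D η) (x : E) : 0 < jac ψ D x :=
  mul_pos (h.det_pos x) (Real.exp_pos _)

omit [FiniteDimensional ℝ E] in
theorem Small.continuous_jac (h : Small ψ D η) : Continuous (jac ψ D) := by
  have := h.continuous
  exact ((ContinuousLinearMap.continuous_det (𝕜 := ℝ) (E := E)).comp
    (continuous_const.add h.cont)).mul (by fun_prop)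

omit [FiniteDimensional ℝ E] in
/-- The weight completes the square. -/
theorem jac_mul_exp (x : E) :
    (1 + D x).det * Real.exp (-(‖shift ψ x‖ ^ 2) / 2)
      = Real.exp (-(‖x‖ ^ 2) / 2) * jac ψ D x := by
  rw [jac, mul_left_comm, ← Real.exp_add]
  congr 2
  rw [shift, norm_add_sq_real]
  ring

variable [MeasurableSpace E] [BorelSpace E]

theorem Small.lintegral_comp (h : Small ψ D η) (μ : Measure E) [μ.IsAddHaarMeasure]
    (g : E → ENNReal) :
    ∫⁻ x, ENNReal.ofReal (1 + D x).det * g (shift ψ x) ∂μ = ∫⁻ y, g y ∂μ := by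
  have h1 := lintegral_image_eq_lintegral_abs_det_fderiv_mul μ MeasurableSet.univ
    (fun x _ => (h.hasFDerivAt_shift x).hasFDerivWithinAt) h.injective_shift.injOn g
  rw [Set.image_univ, h.surjective_shift.range_eq, Measure.restrict_univ] at h1
  rw [h1]
  exact lintegral_congr fun x => by rw [abs_of_pos (h.det_pos x)]

theorem Small.integral_comp (h : Small ψ D η) (μ : Measure E) [μ.IsAddHaarMeasure] (g : E → ℝ) :
    ∫ x, (1 + D x).det * g (shift ψ x) ∂μ = ∫ y, g y ∂μ := by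
  have h1 := integral_image_eq_integral_abs_det_fderiv_smul μ MeasurableSet.univ
    (fun x _ => (h.hasFDerivAt_shift x).hasFDerivWithinAt) h.injective_shift.injOn g
  rw [Set.image_univ, h.surjective_shift.range_eq, Measure.restrict_univ] at h1
  rw [h1]
  exact integral_congr_ae (Filter.Eventually.of_forall fun x => by
    simp only [smul_eq_mul, abs_of_pos (h.det_pos x)])

/-- Integrals against the Gaussian weight. -/
theorem Small.integral_exp_comp (h : Small ψ D η) (μ : Measure E) [μ.IsAddHaarMeasure]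
    (f : E → ℝ) :
    ∫ x, Real.exp (-(‖x‖ ^ 2) / 2) * (jac ψ D x * f (shift ψ x)) ∂μ
      = ∫ y, Real.exp (-(‖y‖ ^ 2) / 2) * f y ∂μ := by
  rw [← h.integral_comp μ fun y => Real.exp (-(‖y‖ ^ 2) / 2) * f y]
  exact integral_congr_ae (Filter.Eventually.of_forall fun x => by
    simp only [← mul_assoc, jac_mul_exp])

/-- A Gaussian law, weighted by `jac`, is carried to itself by the perturbed identity. -/
theorem Small.map_withDensity (h : Small ψ D η) (μ : Measure E) [μ.IsAddHaarMeasure]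
    {g : E → ℝ} {c : ℝ} (hg : ∀ x, g x = c * Real.exp (-(‖x‖ ^ 2) / 2)) (hc : 0 ≤ c) :
    ((μ.withDensity fun x => ENNReal.ofReal (g x)).withDensity
        fun x => ENNReal.ofReal (jac ψ D x)).map (shift ψ)
      = μ.withDensity fun x => ENNReal.ofReal (g x) := by
  have hψ := h.continuous
  have hS : Measurable (shift ψ) := (continuous_id.add hψ).measurable
  have hgm : Measurable fun x => ENNReal.ofReal (g x) := by
    simp only [hg]; fun_prop
  have hjm : Measurable fun x => ENNReal.ofReal (jac ψ D x) :=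
    h.continuous_jac.measurable.ennreal_ofReal
  ext s hs
  rw [Measure.map_apply hS hs, withDensity_apply _ (hS hs), withDensity_apply _ hs,
    setLIntegral_withDensity_eq_setLIntegral_mul _ hgm hjm (hS hs),
    ← lintegral_indicator (hS hs), ← lintegral_indicator hs,
    ← h.lintegral_comp μ (s.indicator fun x => ENNReal.ofReal (g x))]
  refine lintegral_congr fun x => ?_
  by_cases hx : shift ψ x ∈ s
  · rw [Set.indicator_of_mem hx, Set.indicator_of_mem (s := shift ψ ⁻¹' s) hx, Pi.mul_apply,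
      ← ENNReal.ofReal_mul (h.det_pos x).le, hg (shift ψ x), hg x,
      ← ENNReal.ofReal_mul (mul_nonneg hc (Real.exp_pos _).le)]
    congr 1
    rw [mul_assoc, ← jac_mul_exp]
    ring
  · rw [Set.indicator_of_notMem hx, Set.indicator_of_notMem (s := shift ψ ⁻¹' s) hx, mul_zero]

/-- The law of the inverse of a Gaussian point has density `jac`. -/
theorem Small.map_symm_withDensity (h : Small ψ D η) (μ : Measure E) [μ.IsAddHaarMeasure]
    {g : E → ℝ} {c : ℝ} (hg : ∀ x, g x = c * Real.exp (-(‖x‖ ^ 2) / 2)) (hc : 0 ≤ c) :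
    (μ.withDensity fun x => ENNReal.ofReal (g x)).map h.homeo.symm
      = (μ.withDensity fun x => ENNReal.ofReal (g x)).withDensity
          fun x => ENNReal.ofReal (jac ψ D x) := by
  conv_lhs => rw [← h.map_withDensity μ hg hc]
  have hS : Measurable (shift ψ) := (continuous_id.add h.continuous).measurable
  rw [Measure.map_map h.homeo.symm.continuous.measurable hS]
  have : ⇑h.homeo.symm ∘ shift ψ = id := funext fun x => h.homeo.symm_apply_apply x
  rw [this, Measure.map_id]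

end

noncomputable section LogDet

variable {E : Type} [NormedAddCommGroup E] [InnerProductSpace ℝ E] [FiniteDimensional ℝ E]

/-- The squared Frobenius norm. -/
def frobSq (A : E →L[ℝ] E) : ℝ := ∑ i, ‖A (stdOrthonormalBasis ℝ E i)‖ ^ 2

/-- The trace. -/
def trace' (A : E →L[ℝ] E) : ℝ := LinearMap.trace ℝ E (A : E →ₗ[ℝ] E)

/-- The remainder of the second-order expansion of the logarithm of `det (1 + A)`. -/
def logDetRem (A : E →L[ℝ] E) : ℝ := Real.log (1 + A).det - trace' A + frobSq A / 2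

omit [FiniteDimensional ℝ E] in
theorem norm_sq_eq_sum {ι : Type} [Fintype ι] (b : OrthonormalBasis ι ℝ E) (x : E) :
    ‖x‖ ^ 2 = ∑ j, ⟪x, b j⟫ ^ 2 := by
  rw [← real_inner_self_eq_norm_sq, ← b.sum_inner_mul_inner x x]
  exact sum_congr rfl fun j _ => by rw [real_inner_comm x (b j)]; ring

theorem frobSq_nonneg (A : E →L[ℝ] E) : 0 ≤ frobSq A := sum_nonneg fun _ _ => sq_nonneg _

/-- The Frobenius norm does not depend on the basis. -/
theorem frobSq_eq {ι : Type} [Fintype ι] (b : OrthonormalBasis ι ℝ E) (A : E →L[ℝ] E) :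
    frobSq A = ∑ i, ‖A (b i)‖ ^ 2 := by
  set c := stdOrthonormalBasis ℝ E
  have key : ∀ {κ : Type} [Fintype κ] (e : OrthonormalBasis κ ℝ E),
      ∑ i, ‖A (e i)‖ ^ 2 = ∑ j, ‖(LinearMap.adjoint (A : E →ₗ[ℝ] E)) (c j)‖ ^ 2 := by
    intro κ _ e
    simp only [norm_sq_eq_sum c]
    rw [sum_comm]
    refine sum_congr rfl fun j _ => ?_
    rw [← norm_sq_eq_sum c, norm_sq_eq_sum e]
    refine sum_congr rfl fun i _ => ?_
    rw [LinearMap.adjoint_inner_left, real_inner_comm]
    rfl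
  rw [key b]
  exact key c

variable {η : ℝ}

theorem frobSq_le {A : E →L[ℝ] E} (hn : ‖A‖ ≤ η) :
    frobSq A ≤ Module.finrank ℝ E * η ^ 2 := by
  calc frobSq A ≤ ∑ _i : Fin (Module.finrank ℝ E), η ^ 2 := by
        refine sum_le_sum fun i _ => pow_le_pow_left₀ (norm_nonneg _) ?_ 2
        simpa using A.le_of_opNorm_le hn (stdOrthonormalBasis ℝ E i)
    _ = _ := by rw [sum_const, card_univ, Fintype.card_fin, nsmul_eq_mul]

/-- Spectral data of a symmetric operator of small norm. -/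
theorem eigen_data {A : E →L[ℝ] E} (hA : (A : E →ₗ[ℝ] E).IsSymmetric) (hn : ‖A‖ ≤ η) :
    ∃ (b : OrthonormalBasis (Fin (Module.finrank ℝ E)) ℝ E) (μ : Fin (Module.finrank ℝ E) → ℝ),
      (∀ i, A (b i) = μ i • b i) ∧ (∀ i, |μ i| ≤ η) ∧ (1 + A).det = ∏ i, (1 + μ i) ∧
      trace' A = ∑ i, μ i ∧ frobSq A = ∑ i, μ i ^ 2 := by
  set b := hA.eigenvectorBasis rfl
  set μ := hA.eigenvalues rfl
  have hAb : ∀ i, A (b i) = μ i • b i := fun i => hA.apply_eigenvectorBasis rfl i
  refine ⟨b, μ, hAb, fun i => ?_, ?_, ?_, ?_⟩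
  · have h1 := A.le_of_opNorm_le hn (b i)
    rwa [hAb, norm_smul, b.orthonormal.1 i, mul_one, mul_one, Real.norm_eq_abs] at h1
  · have hM : LinearMap.toMatrix b.toBasis b.toBasis ((1 + A : E →L[ℝ] E) : E →ₗ[ℝ] E)
        = Matrix.diagonal fun i => 1 + μ i := by
      ext i j
      rw [LinearMap.toMatrix_apply, OrthonormalBasis.coe_toBasis,
        OrthonormalBasis.coe_toBasis_repr_apply, b.repr_apply_apply]
      have : ((1 + A : E →L[ℝ] E) : E →ₗ[ℝ] E) (b j) = (1 + μ j) • b j := by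
        rw [add_smul, one_smul, ← hAb]; rfl
      rw [this, real_inner_smul_right, orthonormal_iff_ite.1 b.orthonormal i j]
      by_cases hij : i = j
      · subst hij; simp
      · simp [hij]
    rw [ContinuousLinearMap.det, ← LinearMap.det_toMatrix b.toBasis, hM, Matrix.det_diagonal]
  · rw [trace', LinearMap.trace_eq_sum_inner _ b]
    refine sum_congr rfl fun i _ => ?_
    show ⟪b i, A (b i)⟫ = μ i
    rw [hAb, real_inner_smul_right, real_inner_self_eq_norm_sq, b.orthonormal.1 i]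
    ring
  · rw [frobSq_eq b]
    refine sum_congr rfl fun i _ => ?_
    rw [hAb, norm_smul, b.orthonormal.1 i, mul_one, Real.norm_eq_abs, sq_abs]

/-- The trace of the square is the squared Frobenius norm. -/
theorem trace'_mul_self {A : E →L[ℝ] E} (hA : (A : E →ₗ[ℝ] E).IsSymmetric) :
    trace' (A * A) = frobSq A := by
  rw [trace', LinearMap.trace_eq_sum_inner _ (stdOrthonormalBasis ℝ E)]
  refine sum_congr rfl fun i _ => ?_
  rw [← real_inner_self_eq_norm_sq]
  exact (hA _ _).symm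

/-- Comparison of spectral sums of two symmetric operators. -/
theorem spectral_sum_sub_le {n : ℕ} {A B : E →L[ℝ] E} (hB : (B : E →ₗ[ℝ] E).IsSymmetric) (u v : OrthonormalBasis (Fin n) ℝ E) (a b : Fin n → ℝ)
    (hu : ∀ i, A (u i) = a i • u i) (hv : ∀ j, B (v j) = b j • v j) (f : ℝ → ℝ)
    (w : Fin n → Fin n → ℝ) (hf : ∀ i j, |f (a i) - f (b j)| ≤ w i j * |a i - b j|) :
    |∑ i, f (a i) - ∑ j, f (b j)|
      ≤ √(∑ i, ∑ j, ⟪u i, v j⟫ ^ 2 * w i j ^ 2) * √(frobSq (A - B)) := by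
  have hP1 : ∀ i, ∑ j, ⟪u i, v j⟫ ^ 2 = 1 := fun i => by
    rw [← norm_sq_eq_sum v, u.orthonormal.1 i, one_pow]
  have hP2 : ∀ j, ∑ i, ⟪u i, v j⟫ ^ 2 = 1 := fun j => by
    rw [← one_pow 2, ← v.orthonormal.1 j, norm_sq_eq_sum u]
    exact sum_congr rfl fun i _ => by rw [real_inner_comm]
  have h1 : ∑ i, f (a i) - ∑ j, f (b j)
      = ∑ i, ∑ j, ⟪u i, v j⟫ ^ 2 * (f (a i) - f (b j)) := by
    simp only [mul_sub, sum_sub_distrib]
    rw [sum_comm (f := fun i j => ⟪u i, v j⟫ ^ 2 * f (b j))]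
    congr 1
    · exact sum_congr rfl fun i _ => by rw [← sum_mul, hP1, one_mul]
    · exact sum_congr rfl fun j _ => by rw [← sum_mul, hP2, one_mul]
  have hF : frobSq (A - B) = ∑ i, ∑ j, ⟪u i, v j⟫ ^ 2 * (a i - b j) ^ 2 := by
    rw [frobSq_eq u]
    refine sum_congr rfl fun i _ => ?_
    rw [norm_sq_eq_sum v]
    refine sum_congr rfl fun j _ => ?_
    have : ⟪B (u i), v j⟫ = b j * ⟪u i, v j⟫ := by
      have := hB (u i) (v j)
      simp only [ContinuousLinearMap.coe_coe] at this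
      rw [this, hv, real_inner_smul_right]
    rw [sub_apply, inner_sub_left, this, hu, real_inner_smul_left]
    ring
  rw [h1, hF, ← Fintype.sum_prod_type', ← Fintype.sum_prod_type', ← Fintype.sum_prod_type']
  refine (abs_sum_le_sum_abs _ _).trans ?_
  calc ∑ x : Fin n × Fin n, |⟪u x.1, v x.2⟫ ^ 2 * (f (a x.1) - f (b x.2))|
      ≤ ∑ x : Fin n × Fin n, (|⟪u x.1, v x.2⟫| * |w x.1 x.2|) *
          (|⟪u x.1, v x.2⟫| * |a x.1 - b x.2|) := by
        refine sum_le_sum fun x _ => ?_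
        rw [abs_mul, abs_of_nonneg (sq_nonneg _), ← sq_abs]
        calc |⟪u x.1, v x.2⟫| ^ 2 * |f (a x.1) - f (b x.2)|
            ≤ |⟪u x.1, v x.2⟫| ^ 2 * (|w x.1 x.2| * |a x.1 - b x.2|) :=
              mul_le_mul_of_nonneg_left ((hf _ _).trans
                (mul_le_mul_of_nonneg_right (le_abs_self _) (abs_nonneg _))) (sq_nonneg _)
          _ = _ := by ring
    _ ≤ _ := by
        refine (Real.sum_mul_le_sqrt_mul_sqrt _ _ _).trans (le_of_eq ?_)
        simp only [mul_pow, sq_abs]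

/-- The scalar remainder. -/
def logRem (t : ℝ) : ℝ := Real.log (1 + t) - t + t ^ 2 / 2

theorem logRem_sub_le {a b m : ℝ} (ha : |a| ≤ m) (hb : |b| ≤ m) (hm : m ≤ 1 / 2) :
    |logRem a - logRem b| ≤ 2 * m ^ 2 * |a - b| := by
  have hd : ∀ t ∈ Set.Icc (-m) m,
      HasDerivWithinAt logRem (1 / (1 + t) - 1 + t) (Set.Icc (-m) m) t := by
    intro t ht
    have h1 : 1 + t ≠ 0 := by linarith [ht.1]
    have h2 : HasDerivAt (fun s => Real.log (1 + s)) (1 / (1 + t)) t :=
      ((hasDerivAt_id t).const_add 1).log h1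
    have h3 : HasDerivAt (fun s => s ^ 2 / 2) t t := by
      simpa using (hasDerivAt_pow 2 t).div_const 2
    exact ((h2.sub (hasDerivAt_id t)).add h3).hasDerivWithinAt
  have hbd : ∀ t ∈ Set.Icc (-m) m, ‖1 / (1 + t) - 1 + t‖ ≤ 2 * m ^ 2 := by
    intro t ht
    have h1 : 0 < 1 + t := by linarith [ht.1]
    rw [Real.norm_eq_abs, show 1 / (1 + t) - 1 + t = t ^ 2 / (1 + t) by field_simp; ring,
      abs_of_nonneg (by positivity), div_le_iff₀ h1]
    nlinarith [ht.1, ht.2, sq_nonneg m]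
  simpa [Real.norm_eq_abs] using (convex_Icc (-m) m).norm_image_sub_le_of_norm_hasDerivWithin_le
    hd hbd (abs_le.1 hb) (abs_le.1 ha)

omit [FiniteDimensional ℝ E] in
theorem logDet_eq_sum {A : E →L[ℝ] E} (hη : η < 1)
    {n : ℕ} (μ : Fin n → ℝ) (hμ : ∀ i, |μ i| ≤ η) (hd : (1 + A).det = ∏ i, (1 + μ i)) :
    Real.log (1 + A).det = ∑ i, Real.log (1 + μ i) := by
  rw [hd, Real.log_prod]
  intro i _
  linarith [(abs_le.1 (hμ i)).1]

/-- The remainder is a spectral sum. -/
theorem logDetRem_eq {A : E →L[ℝ] E} (hA : (A : E →ₗ[ℝ] E).IsSymmetric) (hn : ‖A‖ ≤ η)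
    (hη : η ≤ 1 / 2) :
    ∃ (b : OrthonormalBasis (Fin (Module.finrank ℝ E)) ℝ E) (μ : Fin (Module.finrank ℝ E) → ℝ),
      (∀ i, A (b i) = μ i • b i) ∧ (∀ i, |μ i| ≤ η) ∧ frobSq A = ∑ i, μ i ^ 2 ∧
      logDetRem A = ∑ i, logRem (μ i) := by
  obtain ⟨b, μ, hb, hμ, hd, ht, hf⟩ := eigen_data hA hn
  refine ⟨b, μ, hb, hμ, hf, ?_⟩
  rw [logDetRem, logDet_eq_sum (by linarith) μ hμ hd, ht, hf]
  simp only [logRem, sum_add_distrib, sum_sub_distrib, sum_div]

/-- Second-order expansion of the logarithm of the determinant. -/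
theorem abs_logDetRem_le {A : E →L[ℝ] E} (hA : (A : E →ₗ[ℝ] E).IsSymmetric) (hn : ‖A‖ ≤ η)
    (hη : η ≤ 1 / 2) : |logDetRem A| ≤ 2 * η * frobSq A := by
  obtain ⟨b, μ, -, hμ, hf, hr⟩ := logDetRem_eq hA hn hη
  rw [hr, hf, mul_sum]
  refine (abs_sum_le_sum_abs _ _).trans (sum_le_sum fun i _ => ?_)
  have h1 := logRem_sub_le (a := μ i) (b := 0) (m := |μ i|) le_rfl (by simp)
    ((hμ i).trans hη)
  simp only [sub_zero, show logRem 0 = 0 by simp [logRem]] at h1
  calc |logRem (μ i)| ≤ 2 * |μ i| ^ 2 * |μ i| := h1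
    _ ≤ 2 * |μ i| ^ 2 * η := mul_le_mul_of_nonneg_left (hμ i) (by positivity)
    _ = 2 * η * μ i ^ 2 := by rw [sq_abs]; ring

/-- The remainder is Lipschitz in the Frobenius norm. -/
theorem logDetRem_sub_le {A B : E →L[ℝ] E} (hA : (A : E →ₗ[ℝ] E).IsSymmetric)
    (hB : (B : E →ₗ[ℝ] E).IsSymmetric) (hna : ‖A‖ ≤ η) (hnb : ‖B‖ ≤ η) (hη : η ≤ 1 / 2) :
    |logDetRem A - logDetRem B|
      ≤ 2 * η ^ 2 * √(Module.finrank ℝ E) * √(frobSq (A - B)) := by
  obtain ⟨u, a, hu, ha, -, hra⟩ := logDetRem_eq hA hna hη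
  obtain ⟨v, b, hv, hb, -, hrb⟩ := logDetRem_eq hB hnb hη
  rw [hra, hrb]
  refine (spectral_sum_sub_le hB u v a b hu hv logRem (fun _ _ => 2 * η ^ 2)
    fun i j => logRem_sub_le (ha i) (hb j) hη).trans (mul_le_mul_of_nonneg_right ?_ (Real.sqrt_nonneg _))
  rw [Real.sqrt_le_left (by positivity), mul_pow _ (√_), Real.sq_sqrt (by positivity)]
  simp only [← sum_mul, ← norm_sq_eq_sum v, u.orthonormal.1, one_pow, one_mul, sum_const, card_univ,
    Fintype.card_fin, nsmul_eq_mul]
  exact le_of_eq (by ring)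

/-- The remainder is Lipschitz in the Frobenius norm, with the constant of the two arguments. -/
theorem logDetRem_sub_le_frob {A B : E →L[ℝ] E} (hA : (A : E →ₗ[ℝ] E).IsSymmetric)
    (hB : (B : E →ₗ[ℝ] E).IsSymmetric) (hna : ‖A‖ ≤ η) (hnb : ‖B‖ ≤ η) (hη : η ≤ 1 / 2) :
    |logDetRem A - logDetRem B|
      ≤ 2 * η * √(2 * (frobSq A + frobSq B)) * √(frobSq (A - B)) := by
  have hη0 : 0 ≤ η := le_trans (norm_nonneg _) hna
  obtain ⟨u, a, hu, ha, hfa, hra⟩ := logDetRem_eq hA hna hη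
  obtain ⟨v, b, hv, hb, hfb, hrb⟩ := logDetRem_eq hB hnb hη
  rw [hra, hrb]
  refine (spectral_sum_sub_le hB u v a b hu hv logRem (fun i j => 2 * η * (|a i| + |b j|))
    fun i j => ?_).trans (mul_le_mul_of_nonneg_right ?_ (Real.sqrt_nonneg _))
  · refine (logRem_sub_le (m := max |a i| |b j|) (le_max_left _ _) (le_max_right _ _)
      (max_le ((ha i).trans hη) ((hb j).trans hη))).trans
      (mul_le_mul_of_nonneg_right ?_ (abs_nonneg _))
    have h1 : max |a i| |b j| ≤ η := max_le (ha i) (hb j)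
    have h2 : max |a i| |b j| ≤ |a i| + |b j| :=
      max_le (by linarith [abs_nonneg (b j)]) (by linarith [abs_nonneg (a i)])
    have h3 : 0 ≤ max |a i| |b j| := le_trans (abs_nonneg _) (le_max_left _ _)
    nlinarith [mul_le_mul h1 h2 h3 hη0]
  · rw [Real.sqrt_le_left (by positivity), mul_pow _ (√_),
      Real.sq_sqrt (by linarith [frobSq_nonneg A, frobSq_nonneg B])]
    have hle : ∀ i j, ⟪u i, v j⟫ ^ 2 * (2 * η * (|a i| + |b j|)) ^ 2
        ≤ 8 * η ^ 2 * (⟪u i, v j⟫ ^ 2 * a i ^ 2 + ⟪u i, v j⟫ ^ 2 * b j ^ 2) := by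
      intro i j
      have h1 : (|a i| + |b j|) ^ 2 ≤ 2 * (a i ^ 2 + b j ^ 2) := by
        nlinarith [sq_abs (a i), sq_abs (b j), sq_nonneg (|a i| - |b j|)]
      calc ⟪u i, v j⟫ ^ 2 * (2 * η * (|a i| + |b j|)) ^ 2
          = ⟪u i, v j⟫ ^ 2 * (4 * η ^ 2) * (|a i| + |b j|) ^ 2 := by ring
        _ ≤ ⟪u i, v j⟫ ^ 2 * (4 * η ^ 2) * (2 * (a i ^ 2 + b j ^ 2)) :=
            mul_le_mul_of_nonneg_left h1 (by positivity)
        _ = _ := by ring
    refine (sum_le_sum fun i _ => sum_le_sum fun j _ => hle i j).trans (le_of_eq ?_)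
    simp only [← mul_sum, sum_add_distrib]
    rw [sum_comm (f := fun i j => ⟪u i, v j⟫ ^ 2 * b j ^ 2), hfa, hfb]
    simp only [← sum_mul, ← norm_sq_eq_sum v, u.orthonormal.1, one_pow, one_mul]
    have hP2 : ∀ j, ∑ i, ⟪u i, v j⟫ ^ 2 = 1 := fun j => by
      rw [← one_pow 2, ← v.orthonormal.1 j, norm_sq_eq_sum u]
      exact sum_congr rfl fun i _ => by rw [real_inner_comm]
    simp only [hP2, one_mul]
    ring

end LogDet

end P347.Quarter
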