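import Vale.Agent.P347.Quarter.Gav

/-!
# P347: smoothing of an averaging operator

If one step of an averaging operator has `s ^ 2 ‖∇ T f‖ ^ 2 ≤ T (f ^ 2) - (T f) ^ 2` and
`‖∇ T f‖ ≤ c T ‖∇ f‖` with `c ≤ 1`, then `n` steps have `n s ^ 2 ‖∇ T^n f‖ ^ 2 ≤ T^n (f ^ 2)`.
-/

namespace P347.Quarter

open MeasureTheory ProbabilityTheory Filter Topology
open scoped RealInnerProductSpace

noncomputable section

variable {d : ℕ}

/-! ### Frobenius norm -/

/-- An operator through its columns, as a Euclidean vector. -/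
def cols (A : Space d →L[ℝ] Space d) : PiLp 2 fun _ : Fin d => Space d :=
  WithLp.toLp 2 fun i => A (EuclideanSpace.basisFun (Fin d) ℝ i)

theorem frob_eq_norm (A : Space d →L[ℝ] Space d) : frob A = ‖cols A‖ := by
  rw [PiLp.norm_eq_of_L2, frob, fdot]
  simp only [real_inner_self_eq_norm_sq, cols]

theorem fdot_eq_inner (A B : Space d →L[ℝ] Space d) : fdot A B = ⟪cols A, cols B⟫ := by
  simp [fdot, cols, PiLp.inner_apply]

theorem frob_add_le (A B : Space d →L[ℝ] Space d) : frob (A + B) ≤ frob A + frob B := by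
  simp only [frob_eq_norm]
  refine le_trans (le_of_eq ?_) (norm_add_le _ _)
  congr 1

theorem frob_smul (r : ℝ) (A : Space d →L[ℝ] Space d) : frob (r • A) = |r| * frob A := by
  simp only [frob_eq_norm]
  rw [← Real.norm_eq_abs, ← norm_smul]
  congr 1

theorem frob_neg (A : Space d →L[ℝ] Space d) : frob (-A) = frob A := by
  rw [← neg_one_smul ℝ A, frob_smul]; simp

theorem frob_zero : frob (0 : Space d →L[ℝ] Space d) = 0 := by
  simp [frob, fdot]

theorem frob_sub_le (A B : Space d →L[ℝ] Space d) : frob (A - B) ≤ frob A + frob B := by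
  rw [sub_eq_add_neg, ← frob_neg B]
  exact frob_add_le A (-B)

theorem abs_fdot_le (A B : Space d →L[ℝ] Space d) : |fdot A B| ≤ frob A * frob B := by
  rw [fdot_eq_inner, frob_eq_norm, frob_eq_norm]
  exact abs_real_inner_le_norm _ _

theorem frob_sum_le {ι : Type} (s : Finset ι) (A : ι → Space d →L[ℝ] Space d) :
    frob (∑ i ∈ s, A i) ≤ ∑ i ∈ s, frob (A i) := by
  classical
  induction s using Finset.induction_on with
  | empty => simp [frob_zero]
  | insert a s ha ih =>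
    rw [Finset.sum_insert ha, Finset.sum_insert ha]
    exact (frob_add_le _ _).trans (by linarith)

/-- The rows of a derivative are the gradients of the components. -/
theorem frob_fderiv_eq {Φ : Space d → Space d} {x : Space d} (h : DifferentiableAt ℝ Φ x) :
    frob (fderiv ℝ Φ x)
      = √(∑ k, ‖gradient (fun y => ⟪EuclideanSpace.basisFun (Fin d) ℝ k, Φ y⟫) x‖ ^ 2) := by
  rw [frob, fdot_self_eq]
  congr 1
  refine Finset.sum_congr rfl fun k _ => ?_
  rw [gradient]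
  congr 3
  exact (((innerSL ℝ (EuclideanSpace.basisFun (Fin d) ℝ k)).hasFDerivAt).comp x
    h.hasFDerivAt).fderiv.symm

/-! ### Averaging operators -/

/-- An averaging operator `T`, with the same operator `Tv` on vector functions. -/
structure Avg (T : (Space d → ℝ) → Space d → ℝ) (Tv : (Space d → Space d) → Space d → Space d)
    (s c : ℝ) : Prop where
  pos : 0 < s
  c_nonneg : 0 ≤ c
  c_le : c ≤ 1
  bdd : ∀ {f : Space d → ℝ} {B : ℝ}, Bdd f B → Bdd (T f) B
  bddv : ∀ {Φ : Space d → Space d} {B : ℝ}, Bdd Φ B → Bdd (Tv Φ) B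
  smooth : ∀ {f : Space d → ℝ} {B : ℝ}, Bdd f B → ContDiff ℝ 1 (T f)
  smoothv : ∀ {Φ : Space d → Space d} {B : ℝ}, Bdd Φ B → ContDiff ℝ 1 (Tv Φ)
  sub : ∀ {f g : Space d → ℝ} {B B' : ℝ}, Bdd f B → Bdd g B' → ∀ x,
    T (fun y => f y - g y) x = T f x - T g x
  smul : ∀ {f : Space d → ℝ} {B : ℝ}, Bdd f B → ∀ (r : ℝ) x, T (fun y => r * f y) x = r * T f x
  mono : ∀ {f g : Space d → ℝ} {B B' : ℝ}, Bdd f B → Bdd g B' → (∀ y, f y ≤ g y) →
    ∀ x, T f x ≤ T g x
  inner : ∀ {Φ : Space d → Space d} {B : ℝ}, Bdd Φ B → ∀ e x,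
    ⟪e, Tv Φ x⟫ = T (fun y => ⟪e, Φ y⟫) x
  var : ∀ {f : Space d → ℝ} {B : ℝ}, Bdd f B → ∀ x,
    s ^ 2 * ‖gradient (T f) x‖ ^ 2 ≤ T (fun y => f y ^ 2) x - T f x ^ 2
  grad : ∀ {f : Space d → ℝ} {L : ℝ}, Lip1 f L → ∀ x,
    ‖gradient (T f) x‖ ≤ c * T (fun y => ‖gradient f y‖) x

theorem Bdd.sq {f : Space d → ℝ} {B : ℝ} (h : Bdd f B) : Bdd (fun y => f y ^ 2) (B ^ 2) :=
  ⟨h.cont.pow 2, fun y => by
    rw [norm_pow]; exact pow_le_pow_left₀ (norm_nonneg _) (h.bound y) 2⟩

theorem bdd_const (r : ℝ) : Bdd (fun _ : Space d => r) |r| :=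
  ⟨continuous_const, fun _ => le_of_eq (Real.norm_eq_abs r)⟩

theorem norm_gradient {f : Space d → ℝ} (x : Space d) : ‖gradient f x‖ = ‖fderiv ℝ f x‖ := by
  simp [gradient]

theorem Lip1.bdd_gradient {f : Space d → ℝ} {L : ℝ} (h : Lip1 f L) : Bdd (gradient f) L :=
  ⟨continuous_gradient h.smooth, fun x => (norm_gradient x).trans_le (h.bound x)⟩

theorem Bdd.norm {F : Type} [NormedAddCommGroup F] [NormedSpace ℝ F] {f : Space d → F} {B : ℝ}
    (h : Bdd f B) : Bdd (fun y => ‖f y‖) B :=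
  ⟨h.cont.norm, fun y => by simpa using h.bound y⟩

variable {T : (Space d → ℝ) → Space d → ℝ} {Tv : (Space d → Space d) → Space d → Space d} {s c : ℝ}

theorem Avg.jensen (A : Avg T Tv s c) {f : Space d → ℝ} {B : ℝ} (h : Bdd f B) (x : Space d) :
    T f x ^ 2 ≤ T (fun y => f y ^ 2) x :=
  sub_nonneg.1 ((mul_nonneg (sq_nonneg s) (sq_nonneg _)).trans (A.var h x))

theorem Avg.nonneg (A : Avg T Tv s c) {f : Space d → ℝ} {B : ℝ} (h : Bdd f B)
    (h0 : ∀ y, 0 ≤ f y) (x : Space d) : 0 ≤ T f x := by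
  have h1 := A.mono (bdd_const 0) h h0 x
  have h2 : T (fun _ : Space d => (0 : ℝ)) x = 0 := by
    simpa using A.smul (bdd_const 0) 0 x
  linarith

theorem Avg.bdd_iter (A : Avg T Tv s c) {f : Space d → ℝ} {B : ℝ} (h : Bdd f B) :
    ∀ n, Bdd (T^[n] f) B
  | 0 => h
  | n + 1 => by rw [Function.iterate_succ_apply']; exact A.bdd (A.bdd_iter h n)

theorem Avg.bddv_iter (A : Avg T Tv s c) {Φ : Space d → Space d} {B : ℝ} (h : Bdd Φ B) :
    ∀ n, Bdd (Tv^[n] Φ) B
  | 0 => h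
  | n + 1 => by rw [Function.iterate_succ_apply']; exact A.bddv (A.bddv_iter h n)

theorem Avg.grad_le (A : Avg T Tv s c) {f : Space d → ℝ} {B : ℝ} (h : Bdd f B) (x : Space d) :
    ‖gradient (T f) x‖ ≤ B / s := by
  have h1 := A.var h x
  have h2 : T (fun y => f y ^ 2) x ≤ B ^ 2 :=
    (le_abs_self _).trans ((A.bdd h.sq).bound x)
  have h3 : (s * ‖gradient (T f) x‖) ^ 2 ≤ B ^ 2 := by
    rw [mul_pow]; linarith [sq_nonneg (T f x)]
  rw [le_div_iff₀ A.pos, mul_comm]
  exact (abs_le_of_sq_le_sq' h3 h.nonneg).2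

theorem Avg.lip1 (A : Avg T Tv s c) {f : Space d → ℝ} {B : ℝ} (h : Bdd f B) :
    Lip1 (T f) (B / s) :=
  ⟨A.smooth h, fun x => (norm_gradient x).ge.trans (A.grad_le h x)⟩

/-- `n` steps. -/
theorem Avg.iter_var (A : Avg T Tv s c) {f : Space d → ℝ} {B : ℝ} (h : Bdd f B) :
    ∀ (n : ℕ) (x : Space d), ((n : ℝ) + 1) * s ^ 2 * ‖gradient (T^[n + 1] f) x‖ ^ 2
      ≤ T^[n + 1] (fun y => f y ^ 2) x - T^[n + 1] f x ^ 2
  | 0, x => by simpa using A.var h x
  | n + 1, x => by
    set g := T^[n + 1] f with hg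
    set g2 := T^[n + 1] (fun y => f y ^ 2) with hg2
    have bg : Bdd g B := A.bdd_iter h _
    have bg2 : Bdd g2 (B ^ 2) := A.bdd_iter h.sq _
    have hL : Lip1 g (B / s) := by
      rw [hg, Function.iterate_succ_apply']
      exact A.lip1 (A.bdd_iter h n)
    have hN := hL.bdd_gradient.norm
    have hrec : ∀ y, ((n : ℝ) + 1) * s ^ 2 * ‖gradient g y‖ ^ 2 ≤ g2 y - g y ^ 2 :=
      A.iter_var h n
    have b1 : Bdd (fun y => ((n : ℝ) + 1) * s ^ 2 * ‖gradient g y‖ ^ 2)
        (((n : ℝ) + 1) * s ^ 2 * (B / s) ^ 2) :=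
      ⟨continuous_const.mul hN.sq.cont, fun y => by
        rw [norm_mul, Real.norm_of_nonneg (by positivity : (0 : ℝ) ≤ ((n : ℝ) + 1) * s ^ 2)]
        exact mul_le_mul_of_nonneg_left (hN.sq.bound y) (by positivity)⟩
    have b2 : Bdd (fun y => g2 y - g y ^ 2) (B ^ 2 + B ^ 2) :=
      ⟨bg2.cont.sub bg.sq.cont, fun y => (norm_sub_le _ _).trans
        (add_le_add (bg2.bound y) (bg.sq.bound y))⟩
    have h1 := A.mono b1 b2 hrec x
    rw [A.smul hN.sq, A.sub bg2 bg.sq] at h1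
    have h2 := A.jensen hN x
    have h3 := A.grad hL x
    have h4 : ‖gradient (T g) x‖ ^ 2 ≤ T (fun y => ‖gradient g y‖) x ^ 2 := by
      refine pow_le_pow_left₀ (norm_nonneg _) (h3.trans ?_) 2
      exact mul_le_of_le_one_left (A.nonneg hN (fun _ => norm_nonneg _) x) A.c_le
    have h5 := A.var bg x
    rw [Function.iterate_succ_apply' T (n + 1) f, Function.iterate_succ_apply' T (n + 1) (fun y => f y ^ 2),
      ← hg, ← hg2]
    push_cast
    nlinarith [mul_le_mul_of_nonneg_left (h4.trans h2)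
      (by positivity : (0 : ℝ) ≤ ((n : ℝ) + 1) * s ^ 2)]

theorem Avg.smul_iter (A : Avg T Tv s c) {f : Space d → ℝ} {B : ℝ} (h : Bdd f B) (r : ℝ) :
    ∀ n x, T^[n] (fun y => r * f y) x = r * T^[n] f x
  | 0, _ => rfl
  | n + 1, x => by
    rw [Function.iterate_succ_apply', Function.iterate_succ_apply',
      funext (A.smul_iter h r n), A.smul (A.bdd_iter h n)]

theorem Avg.inner_iter (A : Avg T Tv s c) {Φ : Space d → Space d} {B : ℝ} (h : Bdd Φ B)
    (e : Space d) : ∀ n, (fun x => ⟪e, Tv^[n] Φ x⟫) = T^[n] (fun y => ⟪e, Φ y⟫)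
  | 0 => rfl
  | n + 1 => by
    funext x
    rw [Function.iterate_succ_apply', Function.iterate_succ_apply', A.inner (A.bddv_iter h n),
      A.inner_iter h e n]

/-- Smoothing of the gradient after `n ≥ 1` steps. -/
theorem Avg.iter_grad_le (A : Avg T Tv s c) {f : Space d → ℝ} {B : ℝ} (h : Bdd f B) {n : ℕ}
    (hn : 1 ≤ n) (x : Space d) : ‖gradient (T^[n] f) x‖ ≤ B / (s * √n) := by
  obtain ⟨m, rfl⟩ : ∃ m, n = m + 1 := ⟨n - 1, by omega⟩
  have h1 := A.iter_var h m x
  have h2 : T^[m + 1] (fun y => f y ^ 2) x ≤ B ^ 2 :=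
    (le_abs_self _).trans ((A.bdd_iter h.sq _).bound x)
  have hs := A.pos
  have h3 : (s * √((m + 1 : ℕ) : ℝ) * ‖gradient (T^[m + 1] f) x‖) ^ 2 ≤ B ^ 2 := by
    rw [mul_pow, mul_pow, Real.sq_sqrt (Nat.cast_nonneg _)]
    push_cast
    linarith [sq_nonneg (T^[m + 1] f x)]
  rw [le_div_iff₀ (by positivity), mul_comm]
  exact (abs_le_of_sq_le_sq' h3 h.nonneg).2

theorem Avg.differentiableAt_iter (A : Avg T Tv s c) {Φ : Space d → Space d} {B : ℝ}
    (h : Bdd Φ B) {n : ℕ} (hn : 1 ≤ n) (x : Space d) : DifferentiableAt ℝ (Tv^[n] Φ) x := by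
  obtain ⟨m, rfl⟩ : ∃ m, n = m + 1 := ⟨n - 1, by omega⟩
  rw [Function.iterate_succ_apply']
  exact (A.smoothv (A.bddv_iter h m)).differentiable one_ne_zero x

/-- Smoothing of a vector function. -/
theorem Avg.iter_frob_le (A : Avg T Tv s c) {Φ : Space d → Space d} {B : ℝ} (h : Bdd Φ B) {n : ℕ}
    (hn : 1 ≤ n) (x : Space d) : frob (fderiv ℝ (Tv^[n] Φ) x) ≤ B / (s * √n) := by
  obtain ⟨m, rfl⟩ : ∃ m, n = m + 1 := ⟨n - 1, by omega⟩
  set b := EuclideanSpace.basisFun (Fin d) ℝ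
  have hs := A.pos
  rw [frob_fderiv_eq (A.differentiableAt_iter h (Nat.le_add_left 1 m) x)]
  simp only [A.inner_iter h]
  have hk : ∀ k, ((m : ℝ) + 1) * s ^ 2 * ‖gradient (T^[m + 1] fun y => ⟪b k, Φ y⟫) x‖ ^ 2
      ≤ T^[m + 1] (fun y => ⟪b k, Φ y⟫ ^ 2) x := fun k => by
    linarith [A.iter_var (h.inner (b k)) m x, sq_nonneg (T^[m + 1] (fun y => ⟪b k, Φ y⟫) x)]
  have hsum : ∑ k, T^[m + 1] (fun y => ⟪b k, Φ y⟫ ^ 2) x ≤ B ^ 2 := by
    have e : ∀ (S : Finset (Fin d)) (j : ℕ) (y : Space d),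
        ∑ k ∈ S, T^[j] (fun z => ⟪b k, Φ z⟫ ^ 2) y = T^[j] (fun z => ∑ k ∈ S, ⟪b k, Φ z⟫ ^ 2) y := by
      intro S
      induction S using Finset.induction_on with
      | empty =>
        intro j y
        simp only [Finset.sum_empty]
        simpa using (A.smul_iter (bdd_const (d := d) 0) 0 j y).symm
      | insert a S ha ih =>
        intro j
        induction j with
        | zero => intro y; rfl
        | succ j ihj =>
          intro y
          have bS : Bdd (fun z => ∑ k ∈ S, ⟪b k, Φ z⟫ ^ 2) (∑ _k ∈ S, (1 * B) ^ 2) :=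
            ⟨continuous_finsetSum _ fun k _ => (h.inner (b k)).sq.cont, fun z =>
              (norm_sum_le _ _).trans (Finset.sum_le_sum fun k _ => by
                simpa [b, OrthonormalBasis.norm_eq_one] using (h.inner (b k)).sq.bound z)⟩
          have bI : Bdd (fun z => ∑ k ∈ insert a S, ⟪b k, Φ z⟫ ^ 2)
              (∑ _k ∈ insert a S, (1 * B) ^ 2) :=
            ⟨continuous_finsetSum _ fun k _ => (h.inner (b k)).sq.cont, fun z =>
              (norm_sum_le _ _).trans (Finset.sum_le_sum fun k _ => by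
                simpa [b, OrthonormalBasis.norm_eq_one] using (h.inner (b k)).sq.bound z)⟩
          rw [Finset.sum_insert ha, ih (j + 1)]
          simp only [Function.iterate_succ_apply']
          have h1 := A.sub (A.bdd_iter bI j) (A.bdd_iter bS j) y
          have h2 : (fun z => T^[j] (fun z => ∑ k ∈ insert a S, ⟪b k, Φ z⟫ ^ 2) z
              - T^[j] (fun z => ∑ k ∈ S, ⟪b k, Φ z⟫ ^ 2) z)
              = T^[j] (fun z => ⟪b a, Φ z⟫ ^ 2) := by
            funext z
            rw [← ihj z, ← ih j z, Finset.sum_insert ha, add_sub_cancel_right]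
          rw [h2] at h1
          linarith
    rw [e]
    simp only [b, sum_sq_inner]
    exact (le_abs_self _).trans ((A.bdd_iter (h.norm.sq) _).bound x)
  rw [Real.sqrt_le_left (div_nonneg h.nonneg (by positivity)), div_pow, mul_pow,
    Real.sq_sqrt (Nat.cast_nonneg _), le_div_iff₀ (by positivity)]
  refine le_trans (le_of_eq ?_) ((Finset.sum_le_sum fun k _ => hk k).trans hsum)
  rw [Finset.sum_mul]
  refine Finset.sum_congr rfl fun k _ => ?_
  push_cast
  ring

/-- A vector function keeps, and contracts, its derivative. -/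
theorem Avg.frob_contract (A : Avg T Tv s c) {Φ : Space d → Space d} {B D : ℝ} (h : Bdd Φ B)
    (hΦ : ContDiff ℝ 1 Φ) (hD : ∀ y, frob (fderiv ℝ Φ y) ≤ D) (x : Space d) :
    frob (fderiv ℝ (Tv Φ) x) ≤ c * D := by
  set b := EuclideanSpace.basisFun (Fin d) ℝ
  have hD0 : 0 ≤ D := (frob_nonneg _).trans (hD 0)
  rw [frob_fderiv_eq ((A.smoothv h).differentiable one_ne_zero x)]
  simp only [A.inner h]
  set n : Fin d → Space d → ℝ := fun k y => ‖gradient (fun z => ⟪b k, Φ z⟫) y‖ with hn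
  have hdsq : ∀ y, ∑ k, n k y ^ 2 ≤ D ^ 2 := fun y => by
    have h1 := hD y
    rw [frob_fderiv_eq (hΦ.differentiable one_ne_zero y), Real.sqrt_le_left hD0] at h1
    exact h1
  have hkle : ∀ k y, n k y ≤ D := fun k y =>
    (abs_le_of_sq_le_sq' ((Finset.single_le_sum (fun i _ => sq_nonneg (n i y))
      (Finset.mem_univ k)).trans (hdsq y)) hD0).2
  have hl : ∀ k, Lip1 (fun z => ⟪b k, Φ z⟫) D := fun k =>
    ⟨contDiff_const.inner ℝ hΦ, fun y => (norm_gradient y).ge.trans (hkle k y)⟩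
  have hk : ∀ k, ‖gradient (T fun y => ⟪b k, Φ y⟫) x‖ ^ 2
      ≤ c ^ 2 * T (fun y => n k y ^ 2) x := fun k => by
    refine (pow_le_pow_left₀ (norm_nonneg _) (A.grad (hl k) x) 2).trans ?_
    rw [mul_pow]
    exact mul_le_mul_of_nonneg_left (A.jensen (hl k).bdd_gradient.norm x) (sq_nonneg c)
  have hsum : ∀ S : Finset (Fin d), ∑ k ∈ S, T (fun y => n k y ^ 2) x
      = T (fun y => ∑ k ∈ S, n k y ^ 2) x := by
    intro S
    induction S using Finset.induction_on with
    | empty =>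
      simp only [Finset.sum_empty]
      simpa using (A.smul (bdd_const (d := d) 0) 0 x).symm
    | insert a S ha ih =>
      have bb : ∀ U : Finset (Fin d), Bdd (fun y => ∑ k ∈ U, n k y ^ 2) (∑ _k ∈ U, D ^ 2) :=
        fun U => ⟨continuous_finsetSum _ fun k _ => (hl k).bdd_gradient.norm.sq.cont, fun y =>
          (norm_sum_le _ _).trans (Finset.sum_le_sum fun k _ => (hl k).bdd_gradient.norm.sq.bound y)⟩
      have h1 := A.sub (bb (insert a S)) (bb S) x
      simp only [Finset.sum_insert ha, add_sub_cancel_right] at h1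
      rw [Finset.sum_insert ha, ih]
      simp only [Finset.sum_insert ha]
      linarith
  rw [Real.sqrt_le_left (mul_nonneg A.c_nonneg hD0), mul_pow]
  refine (Finset.sum_le_sum fun k _ => hk k).trans ?_
  rw [← Finset.mul_sum, hsum]
  refine mul_le_mul_of_nonneg_left ?_ (sq_nonneg c)
  have bu : Bdd (fun y => ∑ k, n k y ^ 2) (D ^ 2) :=
    ⟨continuous_finsetSum _ fun k _ => (hl k).bdd_gradient.norm.sq.cont, fun y => by
      rw [Real.norm_of_nonneg (Finset.sum_nonneg fun k _ => sq_nonneg _)]; exact hdsq y⟩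
  exact (le_abs_self _).trans ((A.bdd bu).bound x)

theorem Avg.frob_contract_iter (A : Avg T Tv s c) {Φ : Space d → Space d} {B D : ℝ} (h : Bdd Φ B)
    (hΦ : ContDiff ℝ 1 Φ) (hD : ∀ y, frob (fderiv ℝ Φ y) ≤ D) :
    ∀ (n : ℕ) (x : Space d), frob (fderiv ℝ (Tv^[n] Φ) x) ≤ c ^ n * D
  | 0, x => by simpa using hD x
  | n + 1, x => by
    have hs : ContDiff ℝ 1 (Tv^[n] Φ) := by
      cases n with
      | zero => exact hΦ
      | succ m => rw [Function.iterate_succ_apply']; exact A.smoothv (A.bddv_iter h m)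
    rw [Function.iterate_succ_apply', pow_succ']
    exact (A.frob_contract (A.bddv_iter h n) hs (A.frob_contract_iter h hΦ hD n) x).trans
      (le_of_eq (mul_assoc _ _ _).symm)

end

end P347.Quarter
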