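import Mathlib

/-!
# P347: polynomials of a symmetric operator between zero and the identity

Without completeness or a functional calculus: compress the operator to the finite-dimensional space
spanned by the first powers applied to the vector, and diagonalise there.
-/

open scoped InnerProductSpace

namespace P347

open Polynomial Submodule

variable {E : Type} [NormedAddCommGroup E] [InnerProductSpace ℝ E]

/-- The finite case. -/
theorem poly_norm_le_fin [FiniteDimensional ℝ E] {T : E →ₗ[ℝ] E} (hs : T.IsSymmetric)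
    (h0 : ∀ x, 0 ≤ ⟪T x, x⟫_ℝ) (h1 : ∀ x, ⟪T x, x⟫_ℝ ≤ ‖x‖ ^ 2) (p : ℝ[X]) {M : ℝ}
    (hM : ∀ t ∈ Set.Icc (0 : ℝ) 1, |p.eval t| ≤ M) (g : E) :
    ‖(aeval T p) g‖ ≤ M * ‖g‖ := by
  have hM0 : 0 ≤ M := le_trans (abs_nonneg _) (hM 0 ⟨le_rfl, zero_le_one⟩)
  set n := Module.finrank ℝ E with hn
  set b := hs.eigenvectorBasis hn.symm with hb
  set μ := hs.eigenvalues hn.symm with hμ
  have hT : ∀ i, T (b i) = μ i • b i := fun i => hs.apply_eigenvectorBasis hn.symm i
  have hmem : ∀ i, μ i ∈ Set.Icc (0 : ℝ) 1 := by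
    intro i
    have h2 := h0 (b i)
    have h3 := h1 (b i)
    rw [hT, inner_smul_left, real_inner_self_eq_norm_sq, b.norm_eq_one] at h2 h3
    simp only [conj_trivial] at h2 h3
    exact ⟨by linarith, by linarith⟩
  have heig : ∀ i, (aeval T p) (b i) = p.eval (μ i) • b i := fun i =>
    Module.End.aeval_apply_of_hasEigenvector (hs.hasEigenvector_eigenvectorBasis hn.symm i)
  have hexp : (aeval T p) g = ∑ i, (p.eval (μ i) * ⟪b i, g⟫_ℝ) • b i := by
    conv_lhs => rw [← b.sum_repr' g]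
    rw [map_sum]
    refine Finset.sum_congr rfl fun i _ => ?_
    rw [map_smul, heig, smul_smul, mul_comm]
  refine pow_le_pow_iff_left₀ (norm_nonneg _) (by positivity) two_ne_zero |>.1 ?_
  rw [mul_pow, ← b.sum_sq_inner_left, ← b.sum_sq_inner_left g, Finset.mul_sum]
  refine Finset.sum_le_sum fun i _ => ?_
  rw [hexp, real_inner_comm, b.orthonormal.inner_right_fintype, mul_pow, real_inner_comm g]
  refine mul_le_mul_of_nonneg_right ?_ (sq_nonneg _)
  rw [← sq_abs]
  exact pow_le_pow_left₀ (abs_nonneg _) (hM _ (hmem i)) 2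

/-- A polynomial of a symmetric operator with `0 ≤ A ≤ 1` has norm at most its supremum on `[0, 1]`. -/
theorem poly_norm_le {A : E →ₗ[ℝ] E} (hs : A.IsSymmetric)
    (h0 : ∀ x, 0 ≤ ⟪A x, x⟫_ℝ) (h1 : ∀ x, ⟪A x, x⟫_ℝ ≤ ‖x‖ ^ 2) (p : ℝ[X]) {M : ℝ}
    (hM : ∀ t ∈ Set.Icc (0 : ℝ) 1, |p.eval t| ≤ M) (g : E) :
    ‖(aeval A p) g‖ ≤ M * ‖g‖ := by
  set v : Fin (p.natDegree + 1) → E := fun k => (A ^ (k : ℕ)) g with hv
  set K : Submodule ℝ E := span ℝ (Set.range v) with hK
  have : FiniteDimensional ℝ K := FiniteDimensional.span_of_finite ℝ (Set.finite_range v)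
  have hmem : ∀ k ≤ p.natDegree, (A ^ k) g ∈ K := fun k hk =>
    subset_span ⟨⟨k, Nat.lt_succ_of_le hk⟩, rfl⟩
  set T : K →ₗ[ℝ] K := K.orthogonalProjectionOnto.toLinearMap ∘ₗ A ∘ₗ K.subtype with hT
  have hTin : ∀ a b : K, ⟪T a, b⟫_ℝ = ⟪A (a : E), (b : E)⟫_ℝ := fun a b => by
    simp [hT]
  have hTs : T.IsSymmetric := fun a b => by
    rw [hTin, hs, real_inner_comm (T b) a, hTin]
    exact real_inner_comm _ _
  have hpow : ∀ k ≤ p.natDegree,
      (((T ^ k) ⟨g, by simpa using hmem 0 (Nat.zero_le _)⟩ : K) : E) = (A ^ k) g := by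
    intro k
    induction k with
    | zero => simp
    | succ k ih =>
      intro hk
      rw [pow_succ', Module.End.mul_apply, pow_succ', Module.End.mul_apply, ← ih (by omega)]
      rw [hT]
      simp only [LinearMap.comp_apply, Submodule.coe_subtype, ContinuousLinearMap.coe_coe]
      rw [ih (by omega)]
      have := hmem (k + 1) hk
      rw [pow_succ', Module.End.mul_apply] at this
      exact K.starProjection_eq_self_iff.2 this
  have hval : (((aeval T p) ⟨g, by simpa using hmem 0 (Nat.zero_le _)⟩ : K) : E)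
      = (aeval A p) g := by
    rw [aeval_eq_sum_range, aeval_eq_sum_range, LinearMap.sum_apply, LinearMap.sum_apply,
      Submodule.coe_sum]
    refine Finset.sum_congr rfl fun k hk => ?_
    simp only [LinearMap.smul_apply, Submodule.coe_smul]
    rw [hpow k (Nat.lt_succ_iff.1 (Finset.mem_range.1 hk))]
  rw [← hval]
  exact poly_norm_le_fin hTs (fun a => by rw [hTin]; exact h0 _)
    (fun a => by rw [hTin]; exact h1 _) p hM _

end P347
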