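import Vale.Agent.P347.Any.Scale
import Vale.Agent.P347.Any.Hybrid
import Vale.Agent.P347.Quarter.Defs

/-!
# P347: the weak second-order sampler as a machine

A step takes a smoothed state, centres by a fixed-point iteration, applies the inner map and adds
the noise of the next step. Only gradients are used.
-/

namespace P347.Quarter

open MeasureTheory ProbabilityTheory
open scoped RealInnerProductSpace

noncomputable section

variable {d M : ℕ}

/-- The gradient of the potential in the unit of `η`. -/
def pOf (V : Space d → ℝ) (η : ℝ) (y : Space d) : Space d := √η • gradient V (√η • y)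

/-- The approximate centre. -/
def centre (p : Space d → Space d) (v : Space d) : ℕ → Space d
  | 0 => 0
  | i + 1 => v - p (centre p v i)

/-- The inner map about the approximate centre. -/
def innerOut (R : Rule M) (p : Space d → Space d) (G : ℕ) (v z : Space d) (W : Seeds d M) :
    Space d :=
  centre p v G + s2 R (cgrad p (centre p v G) v) z W

/-- The seeds of one step: those of the inner map and the next noise. -/
abbrev MapSeed (d M : ℕ) : Type := (Space d × Seeds d M) × Space d

/-- The law of these seeds. -/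
def mapLaw (d M : ℕ) : Measure (MapSeed d M) :=
  ((stdGaussian (Space d)).prod (stdGaussian (Seeds d M))).prod (stdGaussian (Space d))

instance (d M : ℕ) : IsProbabilityMeasure (mapLaw d M) := by unfold mapLaw; infer_instance

/-- One step, in the original coordinates. -/
def stepMap (V : Space d → ℝ) (R : Rule M) (G : ℕ) (η η' : ℝ) (w : MapSeed d M) (x : Space d) :
    Space d :=
  √η • innerOut R (pOf V η) G ((√η)⁻¹ • x) w.1.1 w.1.2 + √η' • w.2

/-- Gradient queries that do not depend on answers. -/
def grads {β : Type} (N : ℕ) (f : β → Fin N → Space d) : Alg d β (Fin N → Space d) :=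
  (Alg.many f).seq (Alg.pure d fun z i => (z.2 i).2)

theorem grads_size {β : Type} (N : ℕ) (f : β → Fin N → Space d) : (grads N f).size = N := rfl

theorem grads_eval {β : Type} (N : ℕ) (f : β → Fin N → Space d) (V : Space d → ℝ) (b : β) :
    (grads N f).eval (oracle V) b = fun i => gradient V (f b i) := by
  rw [grads, Alg.seq_eval, Alg.pure_eval, Alg.many_eval]
  rfl

theorem grads_meas {β : Type} [MeasurableSpace β] {N : ℕ} {f : β → Fin N → Space d}
    (hf : Measurable f) : (grads N f).Meas :=
  Alg.seq_meas (Alg.many_meas hf) (Alg.pure_meas (measurable_pi_lambda _ fun i =>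
    measurable_snd.comp ((measurable_pi_apply i).comp measurable_snd)))

/-- The centre from queries. -/
def centreAlg (η : ℝ) : ℕ → Alg d (Space d) (Space d)
  | 0 => Alg.pure d fun _ => 0
  | i + 1 => (centreAlg η i).seq ((grads 1 fun z _ => √η • z.2).seq
      (Alg.pure d fun z => z.1.1 - √η • z.2 0))

theorem centreAlg_size (η : ℝ) : ∀ i, (centreAlg (d := d) η i).size = i
  | 0 => rfl
  | i + 1 => by simp [centreAlg, Alg.seq, Alg.pure, grads, Alg.many, centreAlg_size η i]

theorem centreAlg_eval (V : Space d → ℝ) (η : ℝ) (v : Space d) :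
    ∀ i, (centreAlg η i).eval (oracle V) v = centre (pOf V η) v i
  | 0 => rfl
  | i + 1 => by
    simp only [centreAlg, Alg.seq_eval, Alg.pure_eval, grads_eval, centreAlg_eval V η v i]
    rfl

theorem centreAlg_meas (η : ℝ) : ∀ i, (centreAlg (d := d) η i).Meas
  | 0 => Alg.pure_meas measurable_const
  | i + 1 => Alg.seq_meas (centreAlg_meas η i) (Alg.seq_meas
      (grads_meas (measurable_pi_lambda _ fun _ => by fun_prop))
      (Alg.pure_meas (by fun_prop)))

/-- Where node `q` starts. -/
def nodeX (R : Rule M) (z : Space d) (W : Seeds d M) (q : Fin M) : Space d :=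
  R.th q • z + R.sd q • slot W q none

/-- The argument of the gradient at an inner node. -/
def innerPoint (R : Rule M) (z : Space d) (W : Seeds d M) (i : Fin (M * M)) : Space d :=
  R.th (finProdFinEquiv.symm i).2 • nodeX R z W (finProdFinEquiv.symm i).1
    + R.sd (finProdFinEquiv.symm i).2
      • slot W (finProdFinEquiv.symm i).1 (some (finProdFinEquiv.symm i).2)

/-- The parameters and what is known after centring. -/
abbrev InnerArg (d M : ℕ) : Type := (Space d × (Space d × Seeds d M)) × Space d

/-- The node points after the first level of gradients. -/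
def outerPoint (R : Rule M) (η : ℝ) (a : InnerArg d M × (Fin (M * M) → Space d)) (q : Fin M) :
    Space d :=
  a.1.2 + (nodeX R a.1.1.2.1 a.1.1.2.2 q
    - ∑ r, R.weight r • (√η • a.2 (finProdFinEquiv (q, r)) + a.1.2 - a.1.1.1))

/-- The inner map from queries. -/
def innerAlg (R : Rule M) (η : ℝ) (G : ℕ) :
    Alg d (Space d × (Space d × Seeds d M)) (Space d) :=
  ((centreAlg η G).comap fun b => b.1).seq
    ((grads (M * M) fun a i => √η • (a.2 + innerPoint R a.1.2.1 a.1.2.2 i)).seq
      ((grads M fun a q => √η • outerPoint R η a q).seq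
        (Alg.pure d fun a => a.1.1.2 + (a.1.1.1.2.1
          - ∑ q, R.weight q • (√η • a.2 q + a.1.1.2 - a.1.1.1.1)))))

theorem innerAlg_size (R : Rule M) (η : ℝ) (G : ℕ) :
    (innerAlg (d := d) R η G).size = G + (M * M + M) := by
  simp [innerAlg, Alg.seq, Alg.comap, Alg.pure, grads, Alg.many, centreAlg_size]

theorem innerAlg_eval (V : Space d → ℝ) (R : Rule M) (η : ℝ) (G : ℕ) (v z : Space d)
    (W : Seeds d M) :
    (innerAlg R η G).eval (oracle V) (v, (z, W)) = innerOut R (pOf V η) G v z W := by
  simp only [innerAlg, Alg.seq_eval, Alg.comap_eval, Alg.pure_eval, grads_eval, centreAlg_eval,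
    innerOut, s2, hq, s1, cgrad, pOf, outerPoint, innerPoint, nodeX, Equiv.symm_apply_apply]

theorem measurable_slot (q : Fin M) (r : Option (Fin M)) :
    Measurable fun W : Seeds d M => slot W q r := by
  unfold slot; fun_prop

theorem innerAlg_meas (R : Rule M) (η : ℝ) (G : ℕ) : (innerAlg (d := d) R η G).Meas := by
  have hs := measurable_slot (d := d) (M := M)
  refine Alg.seq_meas (Alg.comap_meas (centreAlg_meas η G) measurable_fst)
    (Alg.seq_meas (grads_meas (measurable_pi_lambda _ fun i => ?_))
      (Alg.seq_meas (grads_meas (measurable_pi_lambda _ fun q => ?_)) (Alg.pure_meas ?_)))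
  · unfold innerPoint nodeX; fun_prop
  · unfold outerPoint nodeX; fun_prop
  · fun_prop

/-- One step from queries. -/
def stepAlg (R : Rule M) (G : ℕ) (η η' : ℝ) : Alg d (MapSeed d M × Space d) (Space d) :=
  ((innerAlg R η G).comap fun b => ((√η)⁻¹ • b.2, b.1.1)).seq
    (Alg.pure d fun a => √η • a.2 + √η' • a.1.1.2)

theorem stepAlg_eval (V : Space d → ℝ) (R : Rule M) (G : ℕ) (η η' : ℝ) (w : MapSeed d M)
    (x : Space d) :
    (stepAlg R G η η').eval (oracle V) (w, x) = stepMap V R G η η' w x := by
  obtain ⟨⟨z, W⟩, ξ⟩ := w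
  simp [stepAlg, Alg.seq_eval, Alg.comap_eval, Alg.pure_eval, innerAlg_eval, stepMap]

theorem stepAlg_size (R : Rule M) (G : ℕ) (η η' : ℝ) :
    (stepAlg (d := d) R G η η').size = G + (M * M + M) := by
  simp [stepAlg, Alg.seq, Alg.comap, Alg.pure, innerAlg_size]

theorem stepAlg_meas (R : Rule M) (G : ℕ) (η η' : ℝ) : (stepAlg (d := d) R G η η').Meas :=
  Alg.seq_meas (Alg.comap_meas (innerAlg_meas R η G) (by fun_prop)) (Alg.pure_meas (by fun_prop))

/-- The seeds of a run of `n` steps. -/
abbrev RunSeed (d M n : ℕ) : Type := Space d × (Fin n → MapSeed d M)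

/-- The law of these seeds. -/
def runLaw (d M n : ℕ) : Measure (RunSeed d M n) :=
  (stdGaussian (Space d)).prod (Measure.pi fun _ => mapLaw d M)

instance (d M n : ℕ) : IsProbabilityMeasure (runLaw d M n) := by unfold runLaw; infer_instance

/-- The sampler: `n` steps, step `k` in the unit `e k` with next noise `e' k`, the last `k` first. -/
def sampler (R : Rule M) (G : ℕ) (η₀ : ℝ) (e e' : ℕ → ℝ) (n : ℕ) :
    Alg d (RunSeed d M n) (Space d) :=
  (Alg.loop (fun k => stepAlg R G (e k) (e' k)) n).comap fun ω => (ω.2, √η₀ • ω.1)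

theorem sampler_size (R : Rule M) (G : ℕ) (η₀ : ℝ) (e e' : ℕ → ℝ) (n : ℕ) :
    (sampler (d := d) R G η₀ e e' n).size = n * (G + (M * M + M)) :=
  Alg.loop_size (fun _ => stepAlg_size R G _ _) n

theorem sampler_meas (R : Rule M) (G : ℕ) (η₀ : ℝ) (e e' : ℕ → ℝ) (n : ℕ) :
    (sampler (d := d) R G η₀ e e' n).Meas :=
  Alg.comap_meas (Alg.loop_meas (fun _ => stepAlg_meas R G _ _) n) (by fun_prop)

/-- One step on functions. -/
def stepOp (V : Space d → ℝ) (R : Rule M) (G : ℕ) (η η' : ℝ) (f : Space d → ℝ) (x : Space d) : ℝ :=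
  ∫ w, f (stepMap V R G η η' w x) ∂mapLaw d M

theorem measurable_oracle {V : Space d → ℝ} (hV : ContDiff ℝ 2 V) : Measurable (oracle V) :=
  hV.continuous.measurable.prodMk (gradient_differentiable hV).continuous.measurable

theorem measurable_stepMap {V : Space d → ℝ} (hV : ContDiff ℝ 2 V) (R : Rule M) (G : ℕ)
    (η η' : ℝ) : Measurable fun z : MapSeed d M × Space d => stepMap V R G η η' z.1 z.2 := by
  have h : Measurable fun z : MapSeed d M × Space d =>
      (stepAlg R G η η').eval (oracle V) (z.1, z.2) :=
    (stepAlg_meas R G η η').eval (O := fun _ => oracle V)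
      ((measurable_oracle hV).comp measurable_snd) measurable_id
  simpa only [stepAlg_eval] using h

theorem measurable_sampler {V : Space d → ℝ} (hV : ContDiff ℝ 2 V) (R : Rule M) (G : ℕ) (η₀ : ℝ)
    (e e' : ℕ → ℝ) (n : ℕ) :
    Measurable fun ω : RunSeed d M n => (sampler R G η₀ e e' n).eval (oracle V) ω :=
  (sampler_meas R G η₀ e e' n).eval (O := fun _ => oracle V)
    ((measurable_oracle hV).comp measurable_snd) measurable_id

/-- A run on functions. -/
theorem sampler_mean {V : Space d → ℝ} (hV : ContDiff ℝ 2 V) (R : Rule M) (G : ℕ) (η₀ : ℝ)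
    (e e' : ℕ → ℝ) (n : ℕ) {f : Space d → ℝ} (hf : Test f) :
    ∫ ω, f ((sampler R G η₀ e e' n).eval (oracle V) ω) ∂runLaw d M n
      = ∫ ξ, iterOp (fun k => stepOp V R G (e k) (e' k)) n f (√η₀ • ξ)
          ∂stdGaussian (Space d) := by
  have hH : Test fun ω : RunSeed d M n => f ((sampler R G η₀ e e' n).eval (oracle V) ω) :=
    ⟨hf.meas.comp (measurable_sampler hV R G η₀ e e' n), fun _ => hf.nonneg _,
      fun _ => hf.le_one _⟩
  rw [runLaw, integral_prod _ (hH.integrable _)]
  refine integral_congr_ae (Filter.Eventually.of_forall fun ξ => ?_)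
  simp only [sampler, Alg.comap_eval, Alg.loop_eval, stepAlg_eval]
  exact integral_loopFold (fun k => measurable_stepMap hV R G _ _) hf n _

end

end P347.Quarter
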