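import Vale.Agent.P347.Quarter.Repeat

/-!
# P347: assembly of the sampler

All parameters come from `n`, the binary length of `d` plus a large constant, so the errors are
small in every dimension.
-/

namespace P347.Quarter

open MeasureTheory ProbabilityTheory Filter Topology Finset
open scoped RealInnerProductSpace Gradient

noncomputable section

variable {d M : ℕ}

/-- The whole error. -/
def totalErr (C : ℝ) (d M G L N : ℕ) (η₀ δ t0 h : ℝ) (J : ℕ) (r L' Rc : ℝ) : ℝ :=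
  (C * ∑ k ∈ Finset.range N, stepMain d η₀ (alphaAt C k) (betaAt C η₀ k)
      + N * (8 * C * C * stepTiny d G δ t0 h J r + farBound d η₀ r L')
      + N * ((4 * N + 1) * (1 + d) + 2 * N * growConst d M) / r
      + (2 * C * (1 + η₀ / 2)⁻¹ ^ N * d / √η₀ * (L' + 1) + ballTail d L'))
    + (∑ k ∈ Finset.range L,
      (C * (stepMain d (sched L η₀ (k + 1)) (2 * C) (2 * C) + 8 * C * stepTiny d G δ t0 h J r)
        + 2 * farBound d (sched L η₀ (k + 1)) r L'))
    + 2 * ((d / Rc * (L' + 1) + ballTail d L') + (2 * Rc + 2) * √(sched L η₀ 0) * (1 + d))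

theorem run_close {C : ℝ} (hK : Kit C) {V : Space d → ℝ} (hV : InClass V) (hd : 1 ≤ d)
    {R : Rule M} {δ t0 : ℝ} (hR : R.Good δ t0) {η₀ h : ℝ} {J : ℕ} (h0 : 0 < η₀) (h1 : η₀ ≤ 1 / 8)
    (hF : Fine h J) (G L : ℕ) {r L' Rc : ℝ} (hr : 0 < r) (hL : 0 ≤ L') (hRc : 0 < Rc) {N : ℕ}
    (hN : 1 ≤ N) (hκ : (1 + 5 * (1 / 4 : ℝ) ^ G) ^ N ≤ 2) {f : Space d → ℝ} (hf : Continuous f)
    (tf : Test f) :
    |∫ ω, f ((sampler R G η₀ (fun k => sched L η₀ (k + 1)) (sched L η₀) (L + N)).eval (oracle V) ω)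
        ∂runLaw d M (L + N) - ∫ x, f x ∂gibbs V|
      ≤ totalErr C d M G L N η₀ δ t0 h J r L' Rc := by
  have := hV.prob
  have hs := Real.sqrt_pos.2 h0
  obtain ⟨j, rfl⟩ : ∃ j, N = j + 1 := ⟨N - 1, by omega⟩
  obtain ⟨hFc, hFt⟩ := test_run hV R G L h0 hf tf L
  set F := runOp V R G L η₀ L f
  set σ := √(sched L η₀ L) / √η₀ with hσdef
  have hσ : 0 < σ := by have := sched_pos (L := L) h0 L; positivity
  have hσ2 : σ ^ 2 = 1 / 2 := by
    rw [hσdef, div_pow, Real.sq_sqrt (sched_pos h0 L).le, Real.sq_sqrt h0.le,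
      sched_half le_rfl, sched_top (Nat.lt_succ_self L)]
    field_simp
  have hh : Continuous fun y => F (√η₀ • y) := hFc.comp (continuous_const_smul _)
  have th : Test fun y => F (√η₀ • y) := test_line hFc hFt (continuous_const_smul _)
  set g := gav σ fun y => F (√η₀ • y)
  have hC0 : 0 ≤ C := zero_le_one.trans hK.one_le
  have hσ1 : 1 / 2 ≤ σ := by nlinarith
  have hg : Test2 g (2 * C) (2 * C) :=
    (hK.gav_test d _ hh (fun y => ⟨th.nonneg y, th.le_one y⟩) σ hσ).mono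
      ((div_le_div_of_nonneg_left hC0 (by norm_num) hσ1).trans_eq (by ring))
      (by rw [hσ2]; linarith)
  have e1 : ∫ ω, f ((sampler R G η₀ (fun k => sched L η₀ (k + 1)) (sched L η₀)
      (L + (j + 1))).eval (oracle V) ω) ∂runLaw d M (L + (j + 1))
      = (fixedOp V R G η₀)^[j + 1] g 0 := by
    rw [sampler_mean hV.smooth R G η₀ _ _ _ tf, Function.iterate_succ_apply']
    show ∫ ξ, runOp V R G L η₀ (L + j + 1) f (√η₀ • ξ) ∂stdGaussian (Space d) = _
    simp only [run_fixed hV R G L h0 hf tf j, fixedOp, gav, smul_smul, inv_mul_cancel₀ hs.ne',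
      one_smul, zero_add]
    rfl
  have e2 : ∀ x, g ((√η₀)⁻¹ • x) = gav √(sched L η₀ L) F x := fun x => by
    simp [g, gav, smul_add, smul_smul, mul_inv_cancel₀ hs.ne', σ, mul_div_cancel₀ _ hs.ne']
  have h2 := fixed_chain hK hV hd hR h0 h1 hF G hr hL hg (gav_mem hh th σ) (j + 1) hκ
  simp only [e2] at h2
  have h3 := descent hK hV hd hR h0 h1 hF G L hr hL hf tf L le_rfl
  have h4 : |∫ x, gav √(sched L η₀ 0) f x ∂gibbs V - ∫ x, f x ∂gibbs V|
      ≤ 2 * ((d / Rc * (L' + 1) + ballTail d L') + (2 * Rc + 2) * √(sched L η₀ 0) * (1 + d)) := by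
    set s := √(sched L η₀ 0)
    have hs0 : 0 ≤ s := Real.sqrt_nonneg _
    obtain ⟨hz, hz'⟩ := gauss_norm (E := Space d)
    rw [show Module.finrank ℝ (Space d) = d by simp] at hz'
    have hpt : ∀ z : Space d, |∫ x, f (x + s • z) ∂gibbs V - ∫ x, f x ∂gibbs V|
        ≤ 2 * ((d / Rc * (L' + 1) + ballTail d L') + (2 * Rc + 2) * (s * ‖z‖)) := fun z => by
      have hn : ‖s • z‖ = s * ‖z‖ := by rw [norm_smul, Real.norm_eq_abs, abs_of_nonneg hs0]
      have hf0 : 0 ≤ ∫ x, far Rc x ∂gibbs V := ((test_far hRc).integral_mem _).1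
      rcases le_or_gt (s * ‖z‖) 1 with h | h
      · refine (hV.translate_le tf (s • z) hRc).trans ?_
        rw [hn]
        have := hV.far_mean hd hRc hL
        have := mul_le_mul_of_nonneg_right (show 2 * (s * ‖z‖) ≤ 2 by linarith)
          (show 0 ≤ s * ‖z‖ by positivity)
        linarith
      · have h5 := (test_line hf tf (by fun_prop : Continuous fun x : Space d => x + s • z)).integral_mem (gibbs V)
        have h6 := tf.integral_mem (gibbs V)
        have := hV.far_mean hd hRc hL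
        have : 0 ≤ Rc * (s * ‖z‖) := by positivity
        rw [abs_le]
        constructor <;> linarith [h5.1, h5.2, h6.1, h6.2]
    have hsw : ∫ x, gav s f x ∂gibbs V = ∫ z, ∫ x, f (x + s • z) ∂gibbs V ∂stdGaussian (Space d) :=
      integral_integral_swap ((test_line hf tf (by fun_prop :
        Continuous fun a : Space d × Space d => a.1 + s • a.2)).integrable _)
    have hin : Test fun z : Space d => ∫ x, f (x + s • z) ∂gibbs V :=
      ⟨((hf.comp (by fun_prop : Continuous fun a : Space d × Space d => a.2 + s • a.1)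
        ).measurable.stronglyMeasurable.integral_prod_right').measurable,
        fun z => ((test_line hf tf (by fun_prop : Continuous fun x : Space d => x + s • z)).integral_mem _).1,
        fun z => ((test_line hf tf (by fun_prop : Continuous fun x : Space d => x + s • z)).integral_mem _).2⟩
    rw [hsw, show ∫ x, f x ∂gibbs V = ∫ _z : Space d, (∫ x, f x ∂gibbs V) ∂stdGaussian (Space d) by
      simp, ← integral_sub (hin.integrable _) (integrable_const _)]
    refine (abs_integral_le_integral_abs.trans (integral_mono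
      ((hin.integrable _).sub (integrable_const _)).abs
      (((integrable_const _).add ((hz.const_mul s).const_mul _)).const_mul 2) hpt)).trans ?_
    simp only [Pi.add_apply]
    rw [integral_const_mul, integral_add (integrable_const _) ((hz.const_mul s).const_mul _),
      integral_const_mul, integral_const_mul]
    simp only [integral_const, probReal_univ, one_smul]
    have := mul_le_mul_of_nonneg_left hz' (show 0 ≤ (2 * Rc + 2) * s by positivity)
    linarith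
  rw [e1]
  refine (abs_sub_le _ (∫ x, gav √(sched L η₀ L) F x ∂gibbs V) _).trans ?_
  refine (add_le_add h2 ((abs_sub_le _ _ _).trans (add_le_add h3 h4))).trans (le_of_eq ?_)
  rw [totalErr]
  ring

theorem stepMain_mono {η η' α β : ℝ} (hη : 0 ≤ η) (h : η ≤ η') (hα : 0 ≤ α) (hβ : 0 ≤ β) :
    stepMain d η α β ≤ stepMain d η' α β := by
  have : 0 ≤ η' := hη.trans h
  unfold stepMain
  gcongr

theorem stepMain_sum {C η : ℝ} (hC : 0 ≤ C) (hη : 0 ≤ η) (hη1 : η ≤ 1) {N : ℕ} :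
    ∑ k ∈ Finset.range N, stepMain d η (alphaAt C k) (betaAt C η k)
      ≤ C * (η ^ 2 * √d) * (6 + (1 + Real.log N) + 3 * (N * η)) := by
  set s := η ^ 2 * √d with hs
  have hs0 : 0 ≤ s := by positivity
  have h : ∀ k ∈ Finset.range N, stepMain d η (alphaAt C k) (betaAt C η k)
      ≤ C * s * ((if k = 0 then 6 else 0) + (k : ℝ)⁻¹ + 3 * η) := fun k _ => by
    unfold stepMain alphaAt betaAt
    rcases Nat.eq_zero_or_pos k with rfl | hk
    · simp only [if_true, Nat.cast_zero, inv_zero]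
      have h1 : η * (C * s) ≤ C * s := mul_le_of_le_one_left (by positivity) hη1
      have h2 : 0 ≤ η * (C * s) := by positivity
      rw [hs] at h1 h2 ⊢
      linarith
    · rw [if_neg hk.ne', if_neg hk.ne', if_neg hk.ne']
      have hk1 : (1 : ℝ) ≤ k := by exact_mod_cast hk
      have a1 : C / √k ≤ C := div_le_self hC (by rw [Real.one_le_sqrt]; exact hk1)
      calc η ^ 3 * √d * (C / √k) + η ^ 2 * √d * (C * (1 / k + η) + η * (C / √k))
          ≤ η ^ 3 * √d * C + η ^ 2 * √d * (C * (1 / k + η) + η * C) := by gcongr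
        _ = _ := by rw [hs]; ring
  refine (Finset.sum_le_sum h).trans ?_
  rw [← Finset.mul_sum, Finset.sum_add_distrib, Finset.sum_add_distrib]
  refine mul_le_mul_of_nonneg_left (add_le_add (add_le_add ?_ ?_) ?_) (by positivity)
  · rcases N with _ | N <;> simp
  · calc ∑ k ∈ Finset.range N, (k : ℝ)⁻¹ ≤ ∑ k ∈ Finset.range (N + 1), (k : ℝ)⁻¹ :=
          Finset.sum_le_sum_of_subset_of_nonneg (Finset.range_subset_range.2 N.le_succ)
            fun _ _ _ => by positivity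
      _ = harmonic N := by rw [Finset.sum_range_succ']; simp [harmonic]
      _ ≤ _ := harmonic_le_one_add_log N
  · simp
    linarith

theorem natCast_le_two_pow (k : ℕ) : (k : ℝ) ≤ 2 ^ k := by
  exact_mod_cast Nat.lt_two_pow_self.le

theorem two_pow_frac {a b c : ℕ} (h : a + c ≤ b) : (2 : ℝ) ^ a / 2 ^ b ≤ 1 / 2 ^ c := by
  rw [div_le_div_iff₀ (by positivity) (by positivity), one_mul, ← pow_add]
  exact pow_le_pow_right₀ one_le_two h

theorem exp_neg_le_two_pow' (k : ℕ) {x : ℝ} (h : (k : ℝ) ≤ x) : Real.exp (-x) ≤ 1 / 2 ^ k := by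
  rw [Real.exp_neg, one_div]
  refine inv_anti₀ (by positivity) (le_trans ?_ (Real.exp_le_exp.2 h))
  rw [Real.exp_one_pow k |>.symm]
  exact pow_le_pow_left₀ zero_le_two (by linarith [Real.exp_one_gt_d9]) k

/-- What is assumed of the numbers. -/
structure Sizes (C : ℝ) (n m d M D J : ℕ) : Prop where
  one_le : 1 ≤ C
  d_le_D : d ≤ D
  d_le : d ≤ 2 ^ n
  D_pos : 1 ≤ D
  le_D : 2 ^ n ≤ 2 * D
  m_ge : n ≤ 4 * m
  m_le : 4 * m ≤ n + 3
  big : 100000 * C ^ 3 + 64 ≤ n
  nodes : (M : ℝ) ≤ 2 ^ (4 * n)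
  chain : (1 - 1 / 2 ^ (1200 * n) / 2 : ℝ) ^ J ≤ √(1 / 2 ^ (1200 * n))

/-- The first unit. -/
def unit0 (n m : ℕ) : ℝ := 1 / ((n : ℝ) ^ 2 * 2 ^ m)

/-- The number of steps in it. -/
def steps0 (n m : ℕ) : ℕ := 120 * n ^ 3 * 2 ^ m

/-- The radius of the ball used for tails. -/
def ballRad (d n : ℕ) : ℝ := 4 * (d + 60 * n)

/-- The tiny term. -/
def tiny0 (d n D J : ℕ) : ℝ :=
  stepTiny d (200 * n) (1 / (D : ℝ) ^ 20) (1 / (D : ℝ) ^ 20) (1 / 2 ^ (1200 * n)) J (2 ^ (120 * n))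

variable {C : ℝ} {n m D J : ℕ}

theorem Sizes.n_ge (S : Sizes C n m d M D J) : 64 ≤ n := by
  have h := S.big
  have := pow_nonneg (zero_le_one.trans S.one_le) 3
  exact_mod_cast (show (64 : ℝ) ≤ n by linarith)

theorem Sizes.d_real (S : Sizes C n m d M D J) : (d : ℝ) ≤ 2 ^ n := by exact_mod_cast S.d_le

theorem Sizes.C_sq (S : Sizes C n m d M D J) :
    C ^ 2 * (1 / (n : ℝ)) ≤ 1 / 100000 ∧ 8 * C * C ≤ 2 ^ n ∧ 2 * C ≤ 2 ^ n := by
  have h1 := S.big
  have h2 : C ^ 2 ≤ C ^ 3 := pow_le_pow_right₀ S.one_le (by norm_num)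
  have h3 : C ≤ C ^ 3 := le_self_pow₀ S.one_le (by norm_num)
  have h4 := natCast_le_two_pow n
  have h5 : 0 ≤ C ^ 2 := sq_nonneg C
  refine ⟨?_, by rw [mul_assoc, ← sq]; linarith, by linarith [S.one_le]⟩
  rw [mul_one_div, div_le_iff₀ (by linarith [S.one_le])]
  linarith

theorem Sizes.unit_bounds (S : Sizes C n m d M D J) :
    0 < unit0 n m ∧ unit0 n m ≤ 1 / 8 ∧ unit0 n m ^ 2 * √d ≤ 1 / (n : ℝ) ^ 4
      ∧ 1 / 2 ^ (4 * n) ≤ unit0 n m := by
  have hn : (64 : ℝ) ≤ n := by exact_mod_cast S.n_ge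
  have hn' := S.n_ge
  have := S.m_le
  have h2m : (1 : ℝ) ≤ 2 ^ m := one_le_pow₀ one_le_two
  have h8 : (8 : ℝ) ≤ (n : ℝ) ^ 2 * 2 ^ m := by
    have : (8 : ℝ) ≤ (n : ℝ) ^ 2 := by nlinarith
    calc (8 : ℝ) = 8 * 1 := by ring
      _ ≤ _ := by gcongr
  refine ⟨by unfold unit0; positivity, one_div_le_one_div_of_le (by norm_num) h8, ?_, ?_⟩
  · have hsd : √(d : ℝ) ≤ (2 ^ m) ^ 2 := by
      rw [Real.sqrt_le_left (by positivity)]
      refine S.d_real.trans ?_
      rw [← pow_mul, ← pow_mul]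
      exact pow_le_pow_right₀ one_le_two (by linarith [S.m_ge])
    calc unit0 n m ^ 2 * √d ≤ unit0 n m ^ 2 * (2 ^ m) ^ 2 := by gcongr
      _ = 1 / (n : ℝ) ^ 4 := by unfold unit0; field_simp
  · refine one_div_le_one_div_of_le (by positivity) ?_
    calc (n : ℝ) ^ 2 * 2 ^ m ≤ (2 ^ n) ^ 2 * 2 ^ m := by
          gcongr; exact natCast_le_two_pow n
      _ = 2 ^ (n * 2 + m) := by rw [← pow_mul, ← pow_add]
      _ ≤ _ := pow_le_pow_right₀ one_le_two (by omega)

theorem Sizes.steps_bounds (S : Sizes C n m d M D J) :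
    1 ≤ (steps0 n m : ℝ) ∧ (steps0 n m : ℝ) ≤ 2 ^ (5 * n) := by
  have hn' := S.n_ge
  have := S.m_le
  have hn1 : (1 : ℝ) ≤ n := by exact_mod_cast (show 1 ≤ n by omega)
  unfold steps0
  push_cast
  refine ⟨one_le_mul_of_one_le_of_one_le (one_le_mul_of_one_le_of_one_le (by norm_num)
    (one_le_pow₀ hn1)) (one_le_pow₀ one_le_two), ?_⟩
  calc 120 * (n : ℝ) ^ 3 * 2 ^ m ≤ 2 ^ 7 * (2 ^ n) ^ 3 * 2 ^ m := by
        gcongr
        · norm_num
        · exact natCast_le_two_pow n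
    _ = 2 ^ (7 + n * 3 + m) := by rw [← pow_mul, ← pow_add, ← pow_add]
    _ ≤ _ := pow_le_pow_right₀ one_le_two (by omega)

theorem Sizes.ball_bounds (S : Sizes C n m d M D J) :
    0 ≤ ballRad d n ∧ ballRad d n + 1 ≤ 2 ^ (2 * n)
      ∧ ballTail d (ballRad d n) ≤ 1 / 2 ^ (60 * n) := by
  have hn' := S.n_ge
  have hnn := natCast_le_two_pow n
  have hd := S.d_real
  refine ⟨by unfold ballRad; positivity, ?_, ?_⟩
  · have h1 : (245 : ℝ) * 2 ^ n ≤ 2 ^ (2 * n) := by
      rw [two_mul, pow_add]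
      refine mul_le_mul_of_nonneg_right ?_ (by positivity)
      exact le_trans (by norm_num) (pow_le_pow_right₀ one_le_two (show 8 ≤ n by omega))
    have h2 : (1 : ℝ) ≤ 2 ^ n := one_le_pow₀ one_le_two
    unfold ballRad
    linarith
  · have e : -ballRad d n / 4 = -(((d + 60 * n : ℕ) : ℝ)) := by unfold ballRad; push_cast; ring
    have h := exp_neg_le_two_pow' (d + 60 * n) (le_refl ((d + 60 * n : ℕ) : ℝ))
    unfold ballTail
    rw [e]
    refine (mul_le_mul_of_nonneg_left h (by positivity)).trans (le_of_eq ?_)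
    rw [pow_add]; field_simp

theorem Sizes.main_fixed (S : Sizes C n m d M D J) :
    C * ∑ k ∈ Finset.range (steps0 n m),
      stepMain d (unit0 n m) (alphaAt C k) (betaAt C (unit0 n m) k) ≤ 400 * (1 / 100000) := by
  obtain ⟨hη0, hη1, hmain, -⟩ := S.unit_bounds
  obtain ⟨hN0, hN5⟩ := S.steps_bounds
  have hn : (64 : ℝ) ≤ n := by exact_mod_cast S.n_ge
  have hC := S.one_le
  have hNη : (steps0 n m : ℝ) * unit0 n m = 120 * n := by
    unfold steps0 unit0; push_cast; field_simp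
  have hlogN : Real.log (steps0 n m) ≤ 5 * n := by
    have := Real.log_le_log (by linarith) hN5
    rw [Real.log_pow] at this
    push_cast at this
    nlinarith [Real.log_two_lt_d9]
  have hl0 := Real.log_nonneg hN0
  refine (mul_le_mul_of_nonneg_left (stepMain_sum (by linarith) hη0.le (by linarith))
    (by linarith)).trans ?_
  rw [hNη]
  have hn4 : (n : ℝ) * (1 / (n : ℝ) ^ 4) ≤ 1 / n := by
    rw [mul_one_div, div_le_div_iff₀ (by positivity) (by positivity), one_mul, ← sq]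
    exact pow_le_pow_right₀ (by linarith) (by norm_num)
  calc C * (C * (unit0 n m ^ 2 * √d) * (6 + (1 + Real.log (steps0 n m)) + 3 * (120 * n)))
      = C ^ 2 * ((unit0 n m ^ 2 * √d) * (7 + Real.log (steps0 n m) + 360 * n)) := by ring
    _ ≤ C ^ 2 * ((1 / (n : ℝ) ^ 4) * (400 * n)) := by gcongr; linarith
    _ = 400 * (C ^ 2 * (n * (1 / (n : ℝ) ^ 4))) := by ring
    _ ≤ 400 * (C ^ 2 * (1 / n)) := by gcongr
    _ ≤ _ := by linarith [S.C_sq.1]

theorem Sizes.far_bounds (S : Sizes C n m d M D J) {e : ℝ} (he : 1 / 2 ^ (45 * n) ≤ e)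
    (he1 : e ≤ 1) : farBound d e (2 ^ (120 * n)) (ballRad d n) ≤ 3 / 2 ^ (60 * n) := by
  obtain ⟨hL0, hL2, hball⟩ := S.ball_bounds
  have hn' := S.n_ge
  have he0 : 0 < e := lt_of_lt_of_le (by positivity) he
  have hse : 1 / 2 ^ (45 * n) ≤ √e := he.trans (Real.le_sqrt_of_sq_le (by nlinarith))
  have b1 : (d : ℝ) / (2 ^ (120 * n) * √e) * (ballRad d n + 1) ≤ 1 / 2 ^ (60 * n) := by
    calc (d : ℝ) / (2 ^ (120 * n) * √e) * (ballRad d n + 1)
        ≤ 2 ^ n / (2 ^ (120 * n) * (1 / 2 ^ (45 * n))) * 2 ^ (2 * n) := by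
          gcongr; exact S.d_real
      _ = 2 ^ (n + 45 * n + 2 * n) / 2 ^ (120 * n) := by
          rw [pow_add, pow_add, mul_one_div, div_div_eq_mul_div]; ring
      _ ≤ _ := two_pow_frac (by omega)
  have b2 : (1 + d : ℝ) / 2 ^ (120 * n) ≤ 1 / 2 ^ (60 * n) := by
    refine (div_le_div_of_nonneg_right (b := (2 : ℝ) ^ (n + 1)) ?_ (by positivity)).trans
      (two_pow_frac (by omega))
    have : (1 : ℝ) ≤ 2 ^ n := one_le_pow₀ one_le_two
    rw [pow_succ]; linarith [S.d_real]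
  unfold farBound
  rw [show (3 : ℝ) / 2 ^ (60 * n) = 1 / 2 ^ (60 * n) + 1 / 2 ^ (60 * n) + 1 / 2 ^ (60 * n) by ring]
  linarith

theorem Sizes.chain_nonneg : (0 : ℝ) ≤ 1 - 1 / 2 ^ (1200 * n) / 2 := by
  have : (1 : ℝ) / 2 ^ (1200 * n) ≤ 1 :=
    (div_le_one (by positivity)).2 (one_le_pow₀ one_le_two)
  linarith

theorem Sizes.tiny_first (S : Sizes C n m d M D J) :
    ((2 : ℝ) ^ (120 * n) * (1 / 4) ^ (200 * n) + √d + 1)
        * (1 / (D : ℝ) ^ 20 + √(1 / (D : ℝ) ^ 20)) * √d ≤ 1 / 2 ^ (8 * n) := by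
  have hn' := S.n_ge
  have hDp : (1 : ℝ) ≤ D := by exact_mod_cast S.D_pos
  have hdD : (d : ℝ) ≤ D := by exact_mod_cast S.d_le_D
  have hg : (2 : ℝ) ^ (120 * n) * (1 / 4) ^ (200 * n) ≤ 1 := by
    rw [show (1 : ℝ) / 4 = 1 / 2 ^ 2 by norm_num, one_div_pow, ← pow_mul, mul_one_div]
    exact (two_pow_frac (c := 0) (by omega)).trans (by norm_num)
  have hδ : 1 / (D : ℝ) ^ 20 + √(1 / (D : ℝ) ^ 20) ≤ 2 / D ^ 10 := by
    rw [show (1 : ℝ) / D ^ 20 = (1 / D ^ 10) ^ 2 by ring, Real.sqrt_sq (by positivity)]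
    have : (1 / (D : ℝ) ^ 10) ^ 2 ≤ 1 / D ^ 10 := by
      rw [sq]; exact mul_le_of_le_one_left (by positivity)
        ((div_le_one (by positivity)).2 (one_le_pow₀ hDp))
    rw [show (2 : ℝ) / D ^ 10 = 1 / D ^ 10 + 1 / D ^ 10 by ring]
    linarith
  have hD9 : 1 / (D : ℝ) ^ 9 ≤ 2 ^ 9 / 2 ^ (9 * n) := by
    rw [mul_comm 9 n, pow_mul, ← div_pow, ← one_div_pow]
    refine pow_le_pow_left₀ (by positivity) ?_ 9
    rw [div_le_div_iff₀ (by positivity) (by positivity), one_mul]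
    exact_mod_cast S.le_D
  have hsD : √(d : ℝ) ≤ √D := Real.sqrt_le_sqrt hdD
  have hs1D : 1 ≤ √(D : ℝ) := Real.one_le_sqrt.2 hDp
  calc _ ≤ (3 * √D) * (2 / (D : ℝ) ^ 10) * √D := by gcongr; linarith
    _ = 6 * (√D * √D) / (D : ℝ) ^ 10 := by ring
    _ = 6 * (1 / (D : ℝ) ^ 9) := by rw [Real.mul_self_sqrt (Nat.cast_nonneg _)]; field_simp
    _ ≤ 8 * (2 ^ 9 / 2 ^ (9 * n)) := by gcongr; norm_num
    _ = 2 ^ 12 / 2 ^ (9 * n) := by ring
    _ ≤ _ := two_pow_frac (by omega)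

theorem Sizes.tiny_rest (S : Sizes C n m d M D J) :
    (1 + √(d : ℝ)) * ((2 : ℝ) ^ (120 * n) * (1 / 4) ^ (200 * n)) ≤ 1 / 2 ^ (8 * n)
      ∧ chainErr d (1 / 2 ^ (1200 * n)) J (4 * 2 ^ (120 * n)) ≤ 1 / 2 ^ (8 * n) := by
  have hn' := S.n_ge
  have h1n : (1 : ℝ) ≤ 2 ^ n := one_le_pow₀ one_le_two
  have hd := S.d_real
  constructor
  · have hs1 : √(d : ℝ) ≤ d + 1 := by
      rw [Real.sqrt_le_left (by positivity)]; nlinarith [Nat.cast_nonneg (α := ℝ) d]
    rw [show (1 : ℝ) / 4 = 1 / 2 ^ 2 by norm_num, one_div_pow (2 ^ 2 : ℝ), ← pow_mul, mul_one_div]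
    calc (1 + √(d : ℝ)) * (2 ^ (120 * n) / 2 ^ (2 * (200 * n)))
        ≤ 2 ^ (n + 2) * (2 ^ (120 * n) / 2 ^ (2 * (200 * n))) := by
          gcongr; rw [pow_add]; linarith
      _ = 2 ^ (n + 2 + 120 * n) / 2 ^ (2 * (200 * n)) := by rw [← mul_div_assoc, ← pow_add]
      _ ≤ _ := two_pow_frac (by omega)
  · have hsh : √(1 / (2 : ℝ) ^ (1200 * n)) = 1 / 2 ^ (600 * n) := by
      rw [show 1200 * n = 600 * n * 2 by ring, pow_mul, ← one_div_pow,
        Real.sqrt_sq (by positivity)]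
    have hb : (1 : ℝ) + d + 4 * 2 ^ (120 * n) ≤ 2 ^ (120 * n + 3) := by
      have a1 : (2 : ℝ) ^ (n + 1) ≤ 2 ^ (120 * n) := pow_le_pow_right₀ one_le_two (by omega)
      rw [pow_succ] at a1
      rw [pow_add]; linarith
    have hJ := S.chain
    have h0 := pow_nonneg (Sizes.chain_nonneg (n := n)) J
    rw [hsh] at hJ
    unfold chainErr
    rw [hsh]
    calc (1 + (d : ℝ) + 4 * 2 ^ (120 * n)) ^ 3
          * (1 / 2 ^ (600 * n) + (1 - 1 / 2 ^ (1200 * n) / 2) ^ J)
        ≤ (2 ^ (120 * n + 3)) ^ 3 * (1 / 2 ^ (600 * n) + 1 / 2 ^ (600 * n)) := by gcongr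
      _ = 2 ^ (360 * n + 10) / 2 ^ (600 * n) := by
          rw [← pow_mul, show (120 * n + 3) * 3 = 360 * n + 9 by ring, pow_succ]; ring
      _ ≤ _ := two_pow_frac (by omega)

theorem Sizes.tiny_bounds (S : Sizes C n m d M D J) :
    0 ≤ tiny0 d n D J ∧ tiny0 d n D J ≤ 1 / 2 ^ (7 * n) := by
  have hn' := S.n_ge
  have h0 := pow_nonneg (Sizes.chain_nonneg (n := n)) J
  refine ⟨by unfold tiny0 stepTiny chainErr; positivity, ?_⟩
  have t1 := S.tiny_first
  obtain ⟨t2, t3⟩ := S.tiny_rest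
  have h8 : 3 * (1 / (2 : ℝ) ^ (8 * n)) ≤ 1 / 2 ^ (7 * n) := by
    calc 3 * (1 / (2 : ℝ) ^ (8 * n)) ≤ 2 ^ 2 / 2 ^ (8 * n) := by
          rw [mul_one_div]; gcongr; norm_num
      _ ≤ _ := two_pow_frac (by omega)
  unfold tiny0 stepTiny
  linarith

theorem Sizes.fixed_small (S : Sizes C n m d M D J) :
    (steps0 n m : ℝ) * (8 * C * C * tiny0 d n D J
      + farBound d (unit0 n m) (2 ^ (120 * n)) (ballRad d n)) ≤ 4 * (1 / 2 ^ n) := by
  have hn' := S.n_ge
  obtain ⟨hη0, hη1, -, hlow⟩ := S.unit_bounds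
  obtain ⟨-, hN5⟩ := S.steps_bounds
  obtain ⟨hT0, hT7⟩ := S.tiny_bounds
  have hf := S.far_bounds (le_trans (one_div_le_one_div_of_le (by positivity)
    (pow_le_pow_right₀ one_le_two (by omega))) hlow) (by linarith)
  have hf0 : 0 ≤ farBound d (unit0 n m) (2 ^ (120 * n)) (ballRad d n) := by
    have := S.ball_bounds.1
    have : 0 ≤ ballTail d (ballRad d n) := by unfold ballTail; positivity
    unfold farBound; positivity
  have h8 := S.C_sq.2.1
  have hC := S.one_le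
  calc (steps0 n m : ℝ) * (8 * C * C * tiny0 d n D J
        + farBound d (unit0 n m) (2 ^ (120 * n)) (ballRad d n))
      ≤ 2 ^ (5 * n) * (2 ^ n * (1 / 2 ^ (7 * n)) + 3 / 2 ^ (60 * n)) := by gcongr
    _ = 2 ^ (5 * n + n) / 2 ^ (7 * n) + 3 * (2 ^ (5 * n) / 2 ^ (60 * n)) := by
        rw [pow_add]; ring
    _ ≤ 1 / 2 ^ n + 3 * (1 / 2 ^ n) :=
        add_le_add (two_pow_frac (by omega))
          (mul_le_mul_of_nonneg_left (two_pow_frac (by omega)) (by norm_num))
    _ = _ := by ring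

theorem Sizes.grow_small (S : Sizes C n m d M D J) :
    (steps0 n m : ℝ) * ((4 * steps0 n m + 1) * (1 + d) + 2 * steps0 n m * growConst d M)
      / 2 ^ (120 * n) ≤ 1 / 2 ^ n := by
  have hn' := S.n_ge
  obtain ⟨-, hN5⟩ := S.steps_bounds
  have hd := S.d_real
  have hM := S.nodes
  have h1n : (1 : ℝ) ≤ 2 ^ n := one_le_pow₀ one_le_two
  have hM1 : (M : ℝ) + 1 ≤ 2 ^ (4 * n + 1) := by
    have : (1 : ℝ) ≤ 2 ^ (4 * n) := one_le_pow₀ one_le_two
    rw [pow_succ]; linarith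
  have hgc : growConst d M ≤ 2 ^ (11 * n) := by
    unfold growConst
    have a0 : (M : ℝ) * ((M + 1) * d) ≤ 2 ^ (4 * n) * (2 ^ (4 * n + 1) * 2 ^ n) := by gcongr
    have a1 : (2 : ℝ) ^ (4 * n) * (2 ^ (4 * n + 1) * 2 ^ n) = 2 ^ (9 * n + 1) := by
      rw [← pow_add, ← pow_add]; congr 1; omega
    have a2 : (2 : ℝ) ^ (n + 1) ≤ 2 ^ (9 * n + 1) := pow_le_pow_right₀ one_le_two (by omega)
    have a3 : 8 * (2 : ℝ) ^ (9 * n + 1) ≤ 2 ^ (11 * n) := by
      rw [show (8 : ℝ) = 2 ^ 3 by norm_num, ← pow_add]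
      exact pow_le_pow_right₀ one_le_two (by omega)
    have a4 : (2 : ℝ) ≤ 2 ^ (9 * n + 1) := le_self_pow₀ one_le_two (by omega)
    rw [pow_succ] at a2
    linarith
  have b1 : 4 * (steps0 n m : ℝ) + 1 ≤ 2 ^ (5 * n + 3) := by
    have : (1 : ℝ) ≤ 2 ^ (5 * n) := one_le_pow₀ one_le_two
    rw [pow_add]; linarith
  have b2 : (1 : ℝ) + d ≤ 2 ^ (n + 1) := by rw [pow_succ]; linarith
  have hg0 : 0 ≤ growConst d M := by unfold growConst; positivity
  calc (steps0 n m : ℝ) * ((4 * steps0 n m + 1) * (1 + d) + 2 * steps0 n m * growConst d M)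
        / 2 ^ (120 * n)
      ≤ 2 ^ (5 * n) * (2 ^ (5 * n + 3) * 2 ^ (n + 1) + 2 * 2 ^ (5 * n) * 2 ^ (11 * n))
          / 2 ^ (120 * n) := by gcongr
    _ ≤ 2 ^ (5 * n) * (2 ^ (17 * n) + 2 ^ (17 * n)) / 2 ^ (120 * n) := by
        refine div_le_div_of_nonneg_right (mul_le_mul_of_nonneg_left (add_le_add ?_ ?_)
          (by positivity)) (by positivity)
        · rw [← pow_add]; exact pow_le_pow_right₀ one_le_two (by omega)
        · rw [mul_assoc, ← pow_add, ← pow_succ']; exact pow_le_pow_right₀ one_le_two (by omega)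
    _ = 2 ^ (22 * n + 1) / 2 ^ (120 * n) := by
        rw [show 22 * n + 1 = 5 * n + 17 * n + 1 by omega, pow_succ, pow_add]; ring
    _ ≤ _ := two_pow_frac (by omega)

theorem Sizes.mix_small (S : Sizes C n m d M D J) :
    2 * C * (1 + unit0 n m / 2)⁻¹ ^ steps0 n m * d / √(unit0 n m) * (ballRad d n + 1)
      + ballTail d (ballRad d n) ≤ 2 * (1 / 2 ^ n) := by
  have hn' := S.n_ge
  obtain ⟨hη0, hη1, -, hlow⟩ := S.unit_bounds
  obtain ⟨hL0, hL2, hball⟩ := S.ball_bounds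
  set P := 2 * n ^ 2 * 2 ^ m with hP
  have hn1 : (1 : ℝ) ≤ n := by exact_mod_cast (show 1 ≤ n by omega)
  have hPη : (P : ℝ) * (unit0 n m / 2) = 1 := by
    rw [hP, unit0]; push_cast; field_simp
  have hpow : (2 : ℝ) ^ (60 * n) ≤ (1 + unit0 n m / 2) ^ steps0 n m := by
    have h2 : (2 : ℝ) ≤ (1 + unit0 n m / 2) ^ P := by
      have := one_add_mul_le_pow (a := unit0 n m / 2) (by linarith) P
      linarith
    calc (2 : ℝ) ^ (60 * n) ≤ ((1 + unit0 n m / 2) ^ P) ^ (60 * n) :=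
          pow_le_pow_left₀ zero_le_two h2 _
      _ = (1 + unit0 n m / 2) ^ steps0 n m := by
          rw [← pow_mul]; congr 1; rw [hP, steps0]; ring
  have hse : 1 / 2 ^ (4 * n) ≤ √(unit0 n m) :=
    hlow.trans (Real.le_sqrt_of_sq_le (by nlinarith))
  have a1 : 2 * C * (1 + unit0 n m / 2)⁻¹ ^ steps0 n m * d / √(unit0 n m) * (ballRad d n + 1)
      ≤ 1 / 2 ^ n := by
    have hC := S.one_le
    rw [inv_pow]
    calc 2 * C * ((1 + unit0 n m / 2) ^ steps0 n m)⁻¹ * d / √(unit0 n m) * (ballRad d n + 1)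
        ≤ 2 ^ n * (2 ^ (60 * n))⁻¹ * 2 ^ n / (1 / 2 ^ (4 * n)) * 2 ^ (2 * n) := by
          gcongr
          · exact S.C_sq.2.2
          · exact S.d_real
      _ = 2 ^ (n + n + 4 * n + 2 * n) / 2 ^ (60 * n) := by
          rw [div_div_eq_mul_div, pow_add, pow_add, pow_add, div_one]; ring
      _ ≤ _ := two_pow_frac (by omega)
  have a2 : ballTail d (ballRad d n) ≤ 1 / 2 ^ n := hball.trans
    (one_div_le_one_div_of_le (by positivity) (pow_le_pow_right₀ one_le_two (by omega)))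
  linarith

theorem Sizes.descent_small (S : Sizes C n m d M D J) :
    ∑ k ∈ Finset.range (40 * n),
      (C * (stepMain d (sched (40 * n) (unit0 n m) (k + 1)) (2 * C) (2 * C)
          + 8 * C * tiny0 d n D J)
        + 2 * farBound d (sched (40 * n) (unit0 n m) (k + 1)) (2 ^ (120 * n)) (ballRad d n))
      ≤ 240 * (1 / 100000) + 1 / 2 ^ n := by
  have hn' := S.n_ge
  have hn1 : (1 : ℝ) ≤ n := by exact_mod_cast (show 1 ≤ n by omega)
  obtain ⟨hη0, hη1, hmain, hlow⟩ := S.unit_bounds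
  obtain ⟨hT0, hT7⟩ := S.tiny_bounds
  have hC := S.one_le
  have hk : ∀ k ∈ Finset.range (40 * n),
      C * (stepMain d (sched (40 * n) (unit0 n m) (k + 1)) (2 * C) (2 * C)
          + 8 * C * tiny0 d n D J)
        + 2 * farBound d (sched (40 * n) (unit0 n m) (k + 1)) (2 ^ (120 * n)) (ballRad d n)
      ≤ 6 * C ^ 2 * (1 / (n : ℝ) ^ 4) + 2 * (1 / 2 ^ (3 * n)) := by
    intro k _
    have hs0 := sched_pos (L := 40 * n) hη0 (k + 1)
    have hsle := sched_le (L := 40 * n) hη0 (k + 1)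
    have hsl : 1 / 2 ^ (45 * n) ≤ sched (40 * n) (unit0 n m) (k + 1) := by
      rw [sched, le_div_iff₀ (by positivity), one_div_mul_eq_div]
      exact (two_pow_frac (c := 4 * n) (by omega)).trans hlow
    have a1 := stepMain_mono (d := d) hs0.le hsle (show 0 ≤ 2 * C by linarith)
      (show 0 ≤ 2 * C by linarith)
    have a2 : stepMain d (unit0 n m) (2 * C) (2 * C) ≤ 6 * C * (1 / (n : ℝ) ^ 4) := by
      have h1 := mul_le_of_le_one_left (show 0 ≤ 2 * C by linarith) (show unit0 n m ≤ 1 by linarith)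
      have h2 : 0 ≤ unit0 n m * (2 * C) := by positivity
      calc stepMain d (unit0 n m) (2 * C) (2 * C)
          = unit0 n m ^ 2 * √d * (unit0 n m * (2 * C) + (2 * C + unit0 n m * (2 * C))) := by
            unfold stepMain; ring
        _ ≤ 1 / (n : ℝ) ^ 4 * (6 * C) := by gcongr; linarith
        _ = _ := by ring
    have a3 : 8 * C * C * tiny0 d n D J ≤ 1 / 2 ^ (3 * n) := by
      calc 8 * C * C * tiny0 d n D J ≤ 2 ^ n * (1 / 2 ^ (7 * n)) := by
            gcongr; exact S.C_sq.2.1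
        _ = 2 ^ n / 2 ^ (7 * n) := by ring
        _ ≤ _ := two_pow_frac (by omega)
    have a4 : 2 * farBound d (sched (40 * n) (unit0 n m) (k + 1)) (2 ^ (120 * n)) (ballRad d n)
        ≤ 1 / 2 ^ (3 * n) := by
      refine (mul_le_mul_of_nonneg_left (S.far_bounds hsl (by linarith)) zero_le_two).trans ?_
      calc 2 * (3 / (2 : ℝ) ^ (60 * n)) ≤ 2 ^ 3 / 2 ^ (60 * n) := by
            rw [← mul_div_assoc]; gcongr; norm_num
        _ ≤ _ := two_pow_frac (by omega)
    have := mul_le_mul_of_nonneg_left (a1.trans a2) (zero_le_one.trans hC)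
    linarith
  refine (Finset.sum_le_sum hk).trans ?_
  rw [Finset.sum_const, Finset.card_range, nsmul_eq_mul]
  push_cast
  have hn4 : (n : ℝ) * (1 / (n : ℝ) ^ 4) ≤ 1 / n := by
    rw [mul_one_div, div_le_div_iff₀ (by positivity) (by positivity), one_mul, ← sq]
    exact pow_le_pow_right₀ hn1 (by norm_num)
  have b1 : 40 * (n : ℝ) * (6 * C ^ 2 * (1 / (n : ℝ) ^ 4)) ≤ 240 * (1 / 100000) := by
    calc 40 * (n : ℝ) * (6 * C ^ 2 * (1 / (n : ℝ) ^ 4))
        = 240 * (C ^ 2 * (n * (1 / (n : ℝ) ^ 4))) := by ring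
      _ ≤ 240 * (C ^ 2 * (1 / n)) := by gcongr
      _ ≤ _ := by linarith [S.C_sq.1]
  have b2 : 40 * (n : ℝ) * (2 * (1 / 2 ^ (3 * n))) ≤ 1 / 2 ^ n := by
    calc 40 * (n : ℝ) * (2 * (1 / 2 ^ (3 * n))) ≤ 2 ^ 6 * 2 ^ n * (2 * (1 / 2 ^ (3 * n))) := by
          gcongr
          · norm_num
          · exact natCast_le_two_pow n
      _ = 2 ^ (7 + n) / 2 ^ (3 * n) := by rw [pow_add]; ring
      _ ≤ _ := two_pow_frac (by omega)
  linarith

theorem Sizes.last_small (S : Sizes C n m d M D J) :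
    (d : ℝ) / 2 ^ (10 * n) * (ballRad d n + 1) + ballTail d (ballRad d n)
      + (2 * 2 ^ (10 * n) + 2) * √(sched (40 * n) (unit0 n m) 0) * (1 + d)
      ≤ 3 * (1 / 2 ^ n) := by
  have hn' := S.n_ge
  obtain ⟨hη0, hη1, -, -⟩ := S.unit_bounds
  obtain ⟨hL0, hL2, hball⟩ := S.ball_bounds
  have hd := S.d_real
  have a1 : (d : ℝ) / 2 ^ (10 * n) * (ballRad d n + 1) ≤ 1 / 2 ^ n := by
    calc (d : ℝ) / 2 ^ (10 * n) * (ballRad d n + 1) ≤ 2 ^ n / 2 ^ (10 * n) * 2 ^ (2 * n) := by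
          gcongr
      _ = 2 ^ (n + 2 * n) / 2 ^ (10 * n) := by rw [pow_add]; ring
      _ ≤ _ := two_pow_frac (by omega)
  have a2 : ballTail d (ballRad d n) ≤ 1 / 2 ^ n := hball.trans
    (one_div_le_one_div_of_le (by positivity) (pow_le_pow_right₀ one_le_two (by omega)))
  have hs : √(sched (40 * n) (unit0 n m) 0) ≤ 1 / 2 ^ (20 * n) := by
    rw [Real.sqrt_le_left (by positivity), sched, Nat.sub_zero, one_div_pow, ← pow_mul]
    exact div_le_div₀ zero_le_one (by linarith) (by positivity)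
      (pow_le_pow_right₀ one_le_two (by omega))
  have a3 : (2 * 2 ^ (10 * n) + 2) * √(sched (40 * n) (unit0 n m) 0) * (1 + d) ≤ 1 / 2 ^ n := by
    have h1 : (1 : ℝ) ≤ 2 ^ (10 * n) := one_le_pow₀ one_le_two
    have h2 : (1 : ℝ) ≤ 2 ^ n := one_le_pow₀ one_le_two
    calc (2 * (2 : ℝ) ^ (10 * n) + 2) * √(sched (40 * n) (unit0 n m) 0) * (1 + d)
        ≤ 2 ^ (10 * n + 2) * (1 / 2 ^ (20 * n)) * 2 ^ (n + 1) := by
          gcongr
          · rw [pow_add]; linarith
          · rw [pow_succ]; linarith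
      _ = 2 ^ (10 * n + 2 + (n + 1)) / 2 ^ (20 * n) := by simp only [pow_add]; ring
      _ ≤ _ := two_pow_frac (by omega)
  linarith

/-- The numbers. -/
theorem small_error (S : Sizes C n m d M D J) :
    totalErr C d M (200 * n) (40 * n) (steps0 n m) (unit0 n m)
      (1 / (D : ℝ) ^ 20) (1 / (D : ℝ) ^ 20) (1 / 2 ^ (1200 * n)) J (2 ^ (120 * n))
      (ballRad d n) (2 ^ (10 * n)) ≤ 1 / 10 := by
  have hε : (1 : ℝ) / 2 ^ n ≤ 1 / 100000 :=
    one_div_le_one_div_of_le (by norm_num)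
      (le_trans (by norm_num) (pow_le_pow_right₀ one_le_two (show 17 ≤ n by
        have := S.n_ge; omega)))
  have h1 := S.main_fixed
  have h2 := S.fixed_small
  have h3 := S.grow_small
  have h4 := S.mix_small
  have h5 := S.descent_small
  have h6 := S.last_small
  unfold tiny0 at h2 h5
  unfold totalErr
  linarith

theorem dim_bounds (d B : ℕ) (hd : 2 ≤ d) (hB : 1 ≤ B) :
    let D := d + 2 ^ B
    let n := Nat.clog 2 D
    B ≤ n ∧ d ≤ 2 ^ n ∧ 2 ^ n ≤ 2 * D ∧ (n : ℝ) ≤ 4 * (B + 2) * Real.log d := by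
  intro D n
  have h1 : D ≤ 2 ^ n := Nat.le_pow_clog one_lt_two D
  have hBn : B ≤ n := by
    by_contra h
    have := Nat.pow_lt_pow_right one_lt_two (not_le.1 h)
    omega
  have h2 : 2 ^ n ≤ 2 * D := by
    have hp := Nat.pow_pred_clog_lt_self one_lt_two (show 1 < D by
      have := Nat.two_pow_pos B; omega)
    obtain ⟨k, hk⟩ := Nat.exists_eq_succ_of_ne_zero (show n ≠ 0 by omega)
    change Nat.clog 2 D = k + 1 at hk
    rw [hk] at hp
    rw [show n = k + 1 from hk, pow_succ]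
    simp only [Nat.pred_succ] at hp
    omega
  refine ⟨hBn, le_trans (Nat.le_add_right _ _) h1, h2, ?_⟩
  have hd' : (2 : ℝ) ≤ d := by exact_mod_cast hd
  have h3 : (2 : ℝ) ^ n ≤ (d : ℝ) * 2 ^ (B + 2) := by
    have : (2 ^ n : ℕ) ≤ d * 2 ^ (B + 2) := h2.trans (by
      have hB1 : 1 ≤ 2 ^ B := Nat.one_le_two_pow
      have := Nat.mul_le_mul hd (le_refl (2 ^ B))
      have := Nat.mul_le_mul (le_refl d) hB1
      rw [pow_add]
      simp only [D]
      nlinarith)
    exact_mod_cast this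
  have h4 := Real.log_le_log (by positivity) h3
  rw [Real.log_pow, Real.log_mul (by positivity) (by positivity), Real.log_pow] at h4
  have hl2 := Real.log_two_gt_d9
  have hl2' := Real.log_two_lt_d9
  have hld : 0.69 ≤ Real.log d := le_trans (by linarith) (Real.log_le_log two_pos hd')
  have a1 := mul_le_mul_of_nonneg_left hl2.le (Nat.cast_nonneg (α := ℝ) n)
  push_cast at h4
  have a2 := mul_le_mul_of_nonneg_left hl2'.le (show (0 : ℝ) ≤ B + 2 by positivity)
  have a3 := mul_le_mul_of_nonneg_left hld (show (0 : ℝ) ≤ B + 2 by positivity)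
  have a4 : (1 : ℝ) ≤ B + 2 := by have := Nat.cast_nonneg (α := ℝ) B; linarith
  have a5 := mul_le_mul_of_nonneg_right a4 (by linarith : (0 : ℝ) ≤ Real.log d)
  linarith

/-- The theorem from the pieces. -/
theorem quarter_of_kit {C : ℝ} (hK : Kit C) (hRule : RuleSpec) :
    ∃ C' : ℝ, ∀ d : ℕ, 2 ≤ d →
      ∃ q : ℕ, (q : ℝ) ≤ C' * (d : ℝ) ^ (1 / 4 : ℝ) * Real.log d ^ 9 ∧
        ∃ (Ω : Type) (_ : MeasurableSpace Ω) (P : Measure Ω) (M : Type) (_ : MeasurableSpace M)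
          (init : M) (query : Ω → M → EuclideanSpace ℝ (Fin d))
          (update : Ω → M → ℝ × EuclideanSpace ℝ (Fin d) → M) (out : M → EuclideanSpace ℝ (Fin d)),
          StandardBorelSpace Ω ∧ IsProbabilityMeasure P ∧ Measurable (Function.uncurry query) ∧
          Measurable (fun z : (Ω × (ℝ × EuclideanSpace ℝ (Fin d))) × M => update z.1.1 z.2 z.1.2) ∧
          Measurable out ∧
          ∀ V : EuclideanSpace ℝ (Fin d) → ℝ, ContDiff ℝ 2 V → V 0 = 0 → gradient V 0 = 0 →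
            (∀ x h, ‖h‖ ^ 2 ≤ iteratedFDeriv ℝ 2 V x ![h, h] ∧
              iteratedFDeriv ℝ 2 V x ![h, h] ≤ 2 * ‖h‖ ^ 2) →
            ∀ S : Set (EuclideanSpace ℝ (Fin d)), MeasurableSet S →
              |(P.map fun ω => out ((fun s =>
                  update ω s (V (query ω s), gradient V (query ω s)))^[q] init)).real S
                - (∫ x in S, Real.exp (-V x)) / ∫ x, Real.exp (-V x)| ≤ 1 / 10 := by
  obtain ⟨K₀, hK₀, hrule⟩ := hRule
  obtain ⟨B, hB⟩ : ∃ B : ℕ, 100000 * C ^ 3 + K₀ + 64 ≤ B := ⟨_, Nat.le_ceil _⟩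
  have hB1 : 1 ≤ B := by
    rcases Nat.eq_zero_or_pos B with rfl | h
    · have := pow_nonneg (zero_le_one.trans hK.one_le) 3; simp at hB; linarith
    · exact h
  set D₀ : ℕ := 2 ^ B with hD₀
  refine ⟨160 * (200 + 2 * K₀ ^ 2 + K₀) * (4 * ((B : ℝ) + 2)) ^ 9 * (4 * (1 + (D₀ : ℝ))),
    fun d hd => ?_⟩
  obtain ⟨hBn, hdn, hnD, hnlog⟩ := dim_bounds d B hd hB1
  set D := d + D₀ with hD
  set n := Nat.clog 2 D
  set m := (n + 3) / 4 with hm
  have hD2 : 2 ≤ D := hd.trans (Nat.le_add_right _ _)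
  obtain ⟨M, R, hM, hR⟩ := hrule D hD2
  have hn : 100000 * C ^ 3 + K₀ + 64 ≤ (n : ℝ) := hB.trans (by exact_mod_cast hBn)
  have hn1 : (1 : ℝ) ≤ n := by exact_mod_cast hB1.trans hBn
  have hDn : (D : ℝ) ≤ 2 ^ n := by exact_mod_cast Nat.le_pow_clog one_lt_two D
  have hlogD : Real.log D ≤ n := by
    have := Real.log_le_log (by positivity) hDn
    rw [Real.log_pow] at this
    nlinarith [Real.log_two_lt_d9, hn1]
  have hMn : (M : ℝ) ≤ K₀ * n ^ 3 := hM.trans (mul_le_mul_of_nonneg_left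
    (pow_le_pow_left₀ (Real.log_natCast_nonneg D) hlogD 3) hK₀.le)
  set η₀ : ℝ := unit0 n m with hη
  set L := 40 * n
  set N := steps0 n m with hN
  set G := 200 * n
  set A := sampler (d := d) R G η₀ (fun k => sched L η₀ (k + 1)) (sched L η₀) (L + N) with hA
  have hsize : A.size = (L + N) * (G + (M * M + M)) := sampler_size ..
  have hN1 : 1 ≤ N := hN ▸ Nat.mul_pos (Nat.mul_pos (by norm_num) (pow_pos (hB1.trans hBn) 3))
    (Nat.two_pow_pos m)
  have hpos : 0 < A.size := by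
    rw [hsize]; exact Nat.mul_pos (by omega) (by omega)
  have hAm : A.Meas := sampler_meas ..
  refine ⟨A.size, ?_, RunSeed d M (L + N), inferInstance, runLaw d M (L + N),
    AlgMemory d (Space d), inferInstance, (0, fun _ => 0, 0), A.machineQuery, A.machineUpdate,
    fun st => st.2.2, ?_, inferInstance, (Alg.machine_meas hAm).1, (Alg.machine_meas hAm).2,
    by fun_prop, fun V hV hV0 hg hH S hS => ?_⟩
  · have h2m : (2 : ℝ) ^ m ≤ 4 * (1 + D₀) * (d : ℝ) ^ (1 / 4 : ℝ) := by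
      have e : ((2 : ℝ) ^ m) ^ 4 ≤ (4 * (1 + D₀) * (d : ℝ) ^ (1 / 4 : ℝ)) ^ 4 := by
        rw [mul_pow, ← Real.rpow_natCast (((d : ℕ) : ℝ) ^ (1 / 4 : ℝ)) 4,
          ← Real.rpow_mul (Nat.cast_nonneg _), show (1 / 4 : ℝ) * ((4 : ℕ) : ℝ) = 1 by norm_num,
          Real.rpow_one, ← pow_mul]
        have a1 : ((2 : ℝ)) ^ (m * 4) ≤ 8 * 2 ^ n := by
          rw [show (8 : ℝ) * 2 ^ n = 2 ^ (n + 3) by ring]
          exact pow_le_pow_right₀ one_le_two (by omega)
        have a2 : (2 : ℝ) ^ n ≤ 2 * D := by exact_mod_cast hnD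
        have a3 : (D : ℝ) ≤ (1 + D₀) * d := by
          have : (1 : ℝ) ≤ d := by exact_mod_cast (show 1 ≤ d by omega)
          rw [hD]; push_cast
          nlinarith [Nat.cast_nonneg (α := ℝ) D₀]
        have a4 : (1 : ℝ) + D₀ ≤ (1 + D₀) ^ 4 :=
          le_self_pow₀ (by linarith [Nat.cast_nonneg (α := ℝ) D₀]) (by norm_num)
        have a5 := mul_le_mul_of_nonneg_right a4 (Nat.cast_nonneg (α := ℝ) d)
        rw [mul_pow]
        nlinarith
      exact le_of_pow_le_pow_left₀ (by norm_num) (by positivity) e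
    have hM0 : (M : ℝ) * M + M ≤ (K₀ ^ 2 + K₀) * n ^ 6 := by
      have h36 : (n : ℝ) ^ 3 ≤ n ^ 6 := pow_le_pow_right₀ hn1 (by norm_num)
      have := mul_le_mul hMn hMn (Nat.cast_nonneg _) (by positivity)
      have := mul_le_mul_of_nonneg_left h36 hK₀.le
      linarith
    rw [hsize]
    push_cast [L, hN, steps0, G]
    calc (40 * (n : ℝ) + 120 * n ^ 3 * 2 ^ m) * (200 * n + (M * M + M))
        ≤ (160 * n ^ 3 * 2 ^ m) * ((200 + 2 * K₀ ^ 2 + K₀) * n ^ 6) := by
          have h1m : (1 : ℝ) ≤ 2 ^ m := one_le_pow₀ one_le_two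
          have hn13 : (n : ℝ) ≤ n ^ 3 := le_self_pow₀ hn1 (by norm_num)
          have hn16 : (n : ℝ) ≤ n ^ 6 := le_self_pow₀ hn1 (by norm_num)
          refine mul_le_mul ?_ ?_ (by positivity) (by positivity)
          · nlinarith [mul_le_mul hn13 h1m zero_le_one (by positivity)]
          · nlinarith [mul_nonneg (sq_nonneg K₀) (pow_nonneg (Nat.cast_nonneg n : (0 : ℝ) ≤ n) 6)]
      _ = 160 * (200 + 2 * K₀ ^ 2 + K₀) * (n : ℝ) ^ 9 * 2 ^ m := by ring
      _ ≤ 160 * (200 + 2 * K₀ ^ 2 + K₀) * (4 * ((B : ℝ) + 2) * Real.log d) ^ 9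
            * (4 * (1 + D₀) * (d : ℝ) ^ (1 / 4 : ℝ)) := by
          have := Real.log_natCast_nonneg d
          gcongr
      _ = _ := by ring
  · have h1 : StandardBorelSpace (Space d) := inferInstance
    have h2 : StandardBorelSpace (Seeds d M) := inferInstance
    have h3 : StandardBorelSpace (Space d × Seeds d M) := StandardBorelSpace.prod
    have h4 : StandardBorelSpace (MapSeed d M) := StandardBorelSpace.prod
    have : StandardBorelSpace (Fin (L + N) → MapSeed d M) := StandardBorelSpace.pi_countable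
    exact StandardBorelSpace.prod
  have hVc : InClass V := ⟨hV, hV0, hg, hH⟩
  have hBl : Block V (gradient V) := block_of_hessian hV hV0 hg hH
  have hmeas : Measurable fun ω : RunSeed d M (L + N) => A.eval (oracle V) ω :=
    measurable_sampler hV ..
  have hsame : (fun ω : RunSeed d M (L + N) => ((fun st => A.machineUpdate ω st
      (V (A.machineQuery ω st), gradient V (A.machineQuery ω st)))^[A.size]
        (0, fun _ => 0, 0)).2.2) = fun ω => A.eval (oracle V) ω :=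
    funext fun ω => A.machine_run (oracle V) ω 0 hpos
  rw [hsame, ← real_gibbs hBl hS]
  have := hVc.prob
  have := Measure.isProbabilityMeasure_map (μ := runLaw d M (L + N)) hmeas.aemeasurable
  refine set_bound (fun f hf h01 => ?_) hS
  rw [integral_map hmeas.aemeasurable hf.aestronglyMeasurable]
  set h : ℝ := 1 / 2 ^ (1200 * n) with hh
  have hh0 : 0 < h := by positivity
  have hh1 : h ≤ 1 / 2 ^ 12 := one_div_le_one_div_of_le (by positivity)
    (pow_le_pow_right₀ one_le_two (by omega))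
  obtain ⟨J, hJ⟩ := exists_pow_lt_of_lt_one
    (show 0 < min (√h) (1 / 16) by positivity) (show 1 - h / 2 < 1 by linarith)
  have hF : Fine h J := ⟨hh0, hh1.trans (by norm_num), hJ.le.trans (min_le_right _ _)⟩
  have hκ : (1 + 5 * (1 / 4 : ℝ) ^ G) ^ N ≤ 2 := by
    have h1 : (1 + 5 * (1 / 4 : ℝ) ^ G) ^ N ≤ Real.exp (N * (5 * (1 / 4) ^ G)) := by
      rw [Real.exp_nat_mul]
      exact pow_le_pow_left₀ (by positivity) (by linarith [Real.add_one_le_exp (5 * (1 / 4 : ℝ) ^ G)]) _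
    refine h1.trans ((Real.exp_le_exp.2 (?_ : _ ≤ (1 / 2 : ℝ))).trans ?_)
    · have hN2 : (N : ℝ) ≤ 2 ^ (7 + 3 * n + m) := by
        rw [hN, steps0, pow_add, pow_add, mul_comm 3 n, pow_mul]; push_cast
        gcongr
        · norm_num
        · exact natCast_le_two_pow n
      calc (N : ℝ) * (5 * (1 / 4) ^ G) ≤ 2 ^ (7 + 3 * n + m) * (8 * (1 / 2 ^ (400 * n))) := by
            gcongr
            · norm_num
            · rw [show (1 : ℝ) / 4 = 1 / 2 ^ 2 by norm_num, one_div_pow, ← pow_mul]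
              exact le_of_eq (by congr 2; omega)
        _ = 2 ^ (10 + 3 * n + m) / 2 ^ (400 * n) := by ring
        _ ≤ 1 / 2 := by
            rw [div_le_div_iff₀ (by positivity) two_pos, one_mul, ← pow_succ]
            exact pow_le_pow_right₀ one_le_two (by omega)
    · have := Real.exp_bound_div_one_sub_of_interval (show (0 : ℝ) ≤ 1 / 2 by norm_num) (by norm_num)
      linarith
  have S : Sizes C n m d M D J :=
    ⟨hK.one_le, Nat.le_add_right _ _, hdn, by omega, hnD, by omega, by omega, by linarith,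
      hMn.trans (by
        calc K₀ * (n : ℝ) ^ 3 ≤ 2 ^ n * (2 ^ n) ^ 3 := by
              gcongr
              · have := natCast_le_two_pow n
                linarith [pow_nonneg (zero_le_one.trans hK.one_le) 3]
              · exact natCast_le_two_pow n
          _ = _ := by ring), hJ.le.trans (min_le_left _ _)⟩
  exact (run_close hK hVc (by omega) hR (h := h) (J := J) S.unit_bounds.1 S.unit_bounds.2.1 hF G L
    (r := 2 ^ (120 * n)) (L' := ballRad d n) (Rc := 2 ^ (10 * n)) (by positivity) S.ball_bounds.1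
    (by positivity) hN1 hκ hf (test_of_mem hf h01)).trans (small_error S)

end

end P347.Quarter
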