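import Vale.Agent.P347.Quarter.Tame

/-!
# P347: coordinate blocks of a Gaussian vector

Disjoint blocks of coordinates of a standard Gaussian vector are independent standard Gaussian
vectors, and the mean norm of a block is at most the root of its size.
-/

namespace P347.Quarter

open MeasureTheory ProbabilityTheory
open scoped RealInnerProductSpace

noncomputable section

variable {ι κ κ' : Type} [Fintype ι] [Fintype κ] [Fintype κ']

/-- The block of coordinates picked by `σ`. -/
def pickL (σ : κ → ι) : EuclideanSpace ℝ ι →L[ℝ] EuclideanSpace ℝ κ :=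
  LinearMap.toContinuousLinearMap
    { toFun := fun W => WithLp.toLp 2 fun k => W (σ k)
      map_add' := fun W W' => by ext k; simp
      map_smul' := fun a W => by ext k; simp }

@[simp] theorem pickL_apply (σ : κ → ι) (W : EuclideanSpace ℝ ι) (k : κ) :
    pickL σ W k = W (σ k) := rfl

theorem norm_pickL_le {σ : κ → ι} (hσ : Function.Injective σ) (W : EuclideanSpace ℝ ι) :
    ‖pickL σ W‖ ≤ ‖W‖ := by
  classical
  refine (pow_le_pow_iff_left₀ (norm_nonneg _) (norm_nonneg _) two_ne_zero).1 ?_
  rw [EuclideanSpace.norm_sq_eq, EuclideanSpace.norm_sq_eq]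
  simp only [pickL_apply]
  rw [← Finset.sum_image (f := fun i => ‖W i‖ ^ 2) (g := σ) hσ.injOn]
  exact Finset.sum_le_sum_of_subset_of_nonneg (Finset.subset_univ _) fun i _ _ => sq_nonneg _

/-- Two disjoint blocks are independent standard Gaussian vectors. -/
theorem map_pick_pair {σ : κ → ι} {τ : κ' → ι} (hσ : Function.Injective σ)
    (hτ : Function.Injective τ) (hd : ∀ a b, σ a ≠ τ b) :
    (stdGaussian (EuclideanSpace ℝ ι)).map ((pickL σ).prod (pickL τ))
      = (stdGaussian (EuclideanSpace ℝ κ)).prod (stdGaussian (EuclideanSpace ℝ κ')) := by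
  classical
  refine Measure.ext_of_charFunDual ?_
  funext L
  set P := (pickL σ).prod (pickL τ)
  have key : ‖L.comp P‖ ^ 2 = ‖L.comp (.inl ℝ _ _)‖ ^ 2 + ‖L.comp (.inr ℝ _ _)‖ ^ 2 := by
    rw [(EuclideanSpace.basisFun ι ℝ).norm_dual, (EuclideanSpace.basisFun κ ℝ).norm_dual,
      (EuclideanSpace.basisFun κ' ℝ).norm_dual]
    have hinj : Function.Injective (Sum.elim σ τ) := hσ.sumElim hτ hd
    rw [← Fintype.sum_of_injective (Sum.elim σ τ) hinj
      (Sum.elim (fun k => (L.comp (.inl ℝ _ _)) (EuclideanSpace.basisFun κ ℝ k) ^ 2)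
        (fun k => (L.comp (.inr ℝ _ _)) (EuclideanSpace.basisFun κ' ℝ k) ^ 2))
      (fun i => (L.comp P) (EuclideanSpace.basisFun ι ℝ i) ^ 2) ?_ ?_, Fintype.sum_sum_type]
    · simp
    · intro i hi
      have h0 : P (EuclideanSpace.basisFun ι ℝ i) = 0 := by
        refine Prod.ext ?_ ?_
        · ext k
          have : σ k ≠ i := fun h => hi ⟨.inl k, h⟩
          simp [P, EuclideanSpace.basisFun_apply, this]
        · ext k
          have : τ k ≠ i := fun h => hi ⟨.inr k, h⟩
          simp [P, EuclideanSpace.basisFun_apply, this]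
      simp only [EuclideanSpace.basisFun_apply] at h0
      simp [h0]
    · rintro (k | k)
      · have h0 : P (EuclideanSpace.basisFun ι ℝ (σ k))
            = (EuclideanSpace.basisFun κ ℝ k, 0) := by
          refine Prod.ext ?_ ?_
          · ext j
            rcases eq_or_ne j k with rfl | hj
            · simp [P, EuclideanSpace.basisFun_apply]
            · simp [P, EuclideanSpace.basisFun_apply, hj, hσ.ne hj]
          · ext j
            simp [P, EuclideanSpace.basisFun_apply, (hd k j).symm]
        simp only [EuclideanSpace.basisFun_apply] at h0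
        simp [h0]
      · have h0 : P (EuclideanSpace.basisFun ι ℝ (τ k))
            = (0, EuclideanSpace.basisFun κ' ℝ k) := by
          refine Prod.ext ?_ ?_
          · ext j
            simp [P, EuclideanSpace.basisFun_apply, hd j k]
          · ext j
            rcases eq_or_ne j k with rfl | hj
            · simp [P, EuclideanSpace.basisFun_apply]
            · simp [P, EuclideanSpace.basisFun_apply, hj, hτ.ne hj]
        simp only [EuclideanSpace.basisFun_apply] at h0
        simp [h0]
  rw [charFunDual_map, charFunDual_prod, charFunDual_stdGaussian, charFunDual_stdGaussian,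
    charFunDual_stdGaussian, ← Complex.exp_add]
  congr 1
  rw [← Complex.ofReal_pow, key]
  push_cast
  ring

/-- A block is a standard Gaussian vector. -/
theorem map_pick {σ : κ → ι} (hσ : Function.Injective σ) :
    (stdGaussian (EuclideanSpace ℝ ι)).map (pickL σ) = stdGaussian (EuclideanSpace ℝ κ) := by
  have h := map_pick_pair (κ' := Empty) hσ (τ := Empty.elim) (Function.injective_of_subsingleton _)
    (fun _ b => b.elim)
  have h2 := congrArg (Measure.map Prod.fst) h
  rw [Measure.map_map measurable_fst (by fun_prop), Measure.map_fst_prod, measure_univ, one_smul]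
    at h2
  exact h2

/-- Integrals of functions of one block. -/
theorem integral_pick {G : Type} [NormedAddCommGroup G] [NormedSpace ℝ G] {σ : κ → ι}
    (hσ : Function.Injective σ) {f : EuclideanSpace ℝ κ → G} (hf : Continuous f) :
    ∫ W, f (pickL σ W) ∂stdGaussian (EuclideanSpace ℝ ι) = ∫ u, f u ∂stdGaussian _ := by
  rw [← map_pick hσ, integral_map (by fun_prop) hf.aestronglyMeasurable]

/-- Integrals of functions of two disjoint blocks. -/
theorem integral_pick_pair {G : Type} [NormedAddCommGroup G] [NormedSpace ℝ G] {σ : κ → ι}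
    {τ : κ' → ι} (hσ : Function.Injective σ) (hτ : Function.Injective τ) (hd : ∀ a b, σ a ≠ τ b)
    {f : EuclideanSpace ℝ κ × EuclideanSpace ℝ κ' → G} (hf : Continuous f) :
    ∫ W, f (pickL σ W, pickL τ W) ∂stdGaussian (EuclideanSpace ℝ ι)
      = ∫ z, f z ∂(stdGaussian _).prod (stdGaussian _) := by
  rw [← map_pick_pair hσ hτ hd, integral_map (by fun_prop) hf.aestronglyMeasurable]
  rfl

/-- The mean norm of a standard Gaussian vector. -/
theorem integral_norm_le : ∫ x : EuclideanSpace ℝ κ, ‖x‖ ∂stdGaussian _ ≤ √(Fintype.card κ) := by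
  set γ := stdGaussian (EuclideanSpace ℝ κ)
  have hi : Integrable (fun x : EuclideanSpace ℝ κ => ‖x‖) γ := IsGaussian.integrable_id.norm
  have hsq : ∀ i : κ, ∫ x : EuclideanSpace ℝ κ, x i * x i ∂γ = 1 := fun i => by
    classical
    have h := integral_dual_mul (innerSL ℝ (EuclideanSpace.single i (1 : ℝ)))
      (EuclideanSpace.single i (1 : ℝ))
    simpa [EuclideanSpace.inner_single_left] using h
  have hj : ∀ i : κ, Integrable (fun x : EuclideanSpace ℝ κ => x i * x i) γ := fun i => by
    by_contra hc
    have := hsq i
    rw [integral_undef hc] at this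
    exact zero_ne_one this
  have he : (fun x : EuclideanSpace ℝ κ => ‖x‖ ^ 2) = fun x => ∑ i, x i * x i := by
    funext x
    rw [EuclideanSpace.real_norm_sq_eq]
    simp [sq]
  have hn : ∫ x : EuclideanSpace ℝ κ, ‖x‖ ^ 2 ∂γ = Fintype.card κ := by
    rw [he, integral_finsetSum _ fun i _ => hj i]
    simp [hsq]
  have hn2 : Integrable (fun x : EuclideanSpace ℝ κ => ‖x‖ ^ 2) γ := by
    rw [he]; exact integrable_finsetSum _ fun i _ => hj i
  rcases (Nat.zero_le (Fintype.card κ)).eq_or_lt with h0 | h0
  · have : IsEmpty κ := Fintype.card_eq_zero_iff.1 h0.symm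
    simp [Subsingleton.elim (α := EuclideanSpace ℝ κ) _ 0]
  · set c := √(Fintype.card κ : ℝ)
    have hc : 0 < c := Real.sqrt_pos.2 (by exact_mod_cast h0)
    calc ∫ x : EuclideanSpace ℝ κ, ‖x‖ ∂γ
        ≤ ∫ x : EuclideanSpace ℝ κ, (‖x‖ ^ 2 / (2 * c) + c / 2) ∂γ := by
          refine integral_mono hi ((hn2.div_const _).add (integrable_const _)) fun x => ?_
          rw [div_add_div _ _ (by positivity) two_ne_zero, le_div_iff₀ (by positivity)]
          nlinarith [sq_nonneg (‖x‖ - c)]
      _ = c := by
          rw [integral_add (hn2.div_const _) (integrable_const _), integral_div, hn,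
            integral_const, probReal_univ, one_smul]
          rw [show (Fintype.card κ : ℝ) = c * c from (Real.mul_self_sqrt (by positivity)).symm]
          field_simp
          ring

end

end P347.Quarter
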