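import Vale.Agent.P347.Quarter.Defs
import Vale.Agent.P347.Quarter.Pick

/-!
# P347: the nodes of the inner map

Derivatives and first moments of the nested evaluations of the drift, in the starting point and in
the seeds, and the mean of the displacement.
-/

namespace P347.Quarter

open MeasureTheory ProbabilityTheory Finset
open scoped RealInnerProductSpace BigOperators

noncomputable section

variable {d M : ℕ}

/-- The hypotheses on a drift. -/
structure Drift (g : Space d → Space d) (ρ L : ℝ) : Prop where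
  smooth : ContDiff ℝ 1 g
  deriv : ∀ x, ‖fderiv ℝ g x‖ ≤ L
  zero : ‖g 0‖ ≤ ρ
  small : L ≤ 1 / 4

theorem Drift.nonneg {g : Space d → Space d} {ρ L : ℝ} (hg : Drift g ρ L) : 0 ≤ L :=
  le_trans (norm_nonneg _) (hg.deriv 0)

theorem Drift.rho_nonneg {g : Space d → Space d} {ρ L : ℝ} (hg : Drift g ρ L) : 0 ≤ ρ :=
  le_trans (norm_nonneg _) hg.zero

theorem Drift.differentiable {g : Space d → Space d} {ρ L : ℝ} (hg : Drift g ρ L) :
    Differentiable ℝ g := hg.smooth.differentiable one_ne_zero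

theorem Drift.lip {g : Space d → Space d} {ρ L : ℝ} (hg : Drift g ρ L) (x y : Space d) :
    ‖g y - g x‖ ≤ L * ‖y - x‖ :=
  Convex.norm_image_sub_le_of_norm_fderiv_le (fun z _ => hg.differentiable z)
    (fun z _ => hg.deriv z) convex_univ (Set.mem_univ x) (Set.mem_univ y)

theorem Drift.norm_le {g : Space d → Space d} {ρ L : ℝ} (hg : Drift g ρ L) (y : Space d) :
    ‖g y‖ ≤ ρ + L * ‖y‖ := by
  have h := hg.lip 0 y
  rw [sub_zero] at h
  linarith [norm_le_norm_add_norm_sub' (g y) (g 0), hg.zero]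

theorem Drift.apply_le {g : Space d → Space d} {ρ L : ℝ} (hg : Drift g ρ L) (x u : Space d) :
    ‖fderiv ℝ g x u‖ ≤ L * ‖u‖ :=
  ((fderiv ℝ g x).le_opNorm u).trans (mul_le_mul_of_nonneg_right (hg.deriv x) (norm_nonneg u))

section Rules

variable {R : Rule M} {δ t0 : ℝ}

theorem Rule.th_pos (R : Rule M) (q : Fin M) : 0 < R.th q := Real.exp_pos _

theorem Rule.Good.th_lt (hR : R.Good δ t0) (q : Fin M) : R.th q < 1 :=
  Real.exp_lt_one_iff.2 (by linarith [hR.t0_pos, hR.le_time q])

theorem Rule.Good.sd_pos (hR : R.Good δ t0) (q : Fin M) : 0 < R.sd q :=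
  Real.sqrt_pos.2 (by nlinarith [R.th_pos q, hR.th_lt q])

theorem Rule.sd_le (R : Rule M) (q : Fin M) : R.sd q ≤ 1 :=
  Real.sqrt_le_one.2 (by nlinarith [R.th_pos q])

theorem Rule.Good.sum_mul_le (hR : R.Good δ t0) {f : Fin M → ℝ} {b : ℝ} (hb : 0 ≤ b)
    (hf : ∀ q, f q ≤ b) : ∑ q, R.weight q * f q ≤ 2 * b :=
  (Finset.sum_le_sum fun q _ => mul_le_mul_of_nonneg_left (hf q) (hR.nonneg q)).trans
    (by rw [← Finset.sum_mul]; exact mul_le_mul_of_nonneg_right hR.sum_weight hb)

theorem Rule.Good.norm_sum_le (hR : R.Good δ t0) {F : Type} [NormedAddCommGroup F]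
    [NormedSpace ℝ F] {v : Fin M → F} {b : Fin M → ℝ} (hv : ∀ q, ‖v q‖ ≤ b q) :
    ‖∑ q, R.weight q • v q‖ ≤ ∑ q, R.weight q * b q :=
  norm_sum_le_of_le _ fun q _ => by
    rw [norm_smul, Real.norm_eq_abs, abs_of_nonneg (hR.nonneg q)]
    exact mul_le_mul_of_nonneg_left (hv q) (hR.nonneg q)

theorem Rule.sd_nonneg (R : Rule M) (q : Fin M) : 0 ≤ R.sd q := Real.sqrt_nonneg _

theorem Rule.Good.node_norm_le (hR : R.Good δ t0) (q : Fin M) (a b : Space d) :
    ‖R.th q • a + R.sd q • b‖ ≤ ‖a‖ + ‖b‖ := by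
  refine (norm_add_le _ _).trans ?_
  rw [norm_smul, norm_smul, Real.norm_eq_abs, Real.norm_eq_abs, abs_of_pos (R.th_pos q),
    abs_of_nonneg (R.sd_nonneg q)]
  exact add_le_add (mul_le_of_le_one_left (norm_nonneg _) (hR.th_lt q).le)
    (mul_le_of_le_one_left (norm_nonneg _) (R.sd_le q))

end Rules

/-! ## Slots -/

/-- The coordinates of one slot. -/
def slotIdx (q : Fin M) (r : Option (Fin M)) (i : Fin d) :
    Fin M × Option (Fin M) × Fin d := (q, r, i)

theorem slotIdx_inj (q : Fin M) (r : Option (Fin M)) :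
    Function.Injective (slotIdx (d := d) q r) := fun i j h => by simpa [slotIdx] using h

/-- One slot of the seeds as a linear map. -/
def slotL (q : Fin M) (r : Option (Fin M)) : Seeds d M →L[ℝ] Space d := pickL (slotIdx q r)

theorem slotL_apply (W : Seeds d M) (q : Fin M) (r : Option (Fin M)) :
    slotL q r W = slot W q r := rfl

theorem norm_slot_le (W : Seeds d M) (q : Fin M) (r : Option (Fin M)) : ‖slot W q r‖ ≤ ‖W‖ :=
  norm_pickL_le (slotIdx_inj q r) W

theorem integral_norm_slot_le (q : Fin M) (r : Option (Fin M)) :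
    ∫ W, ‖slot W q r‖ ∂stdGaussian (Seeds d M) ≤ √d := by
  refine (le_of_eq (integral_pick (slotIdx_inj q r) (f := fun u => ‖u‖) continuous_norm)).trans ?_
  simpa using integral_norm_le (κ := Fin d)

theorem integrable_norm_slot (q : Fin M) (r : Option (Fin M)) :
    Integrable (fun W : Seeds d M => ‖slot W q r‖) (stdGaussian (Seeds d M)) :=
  IsGaussian.integrable_id.norm.mono' (slotL q r).continuous.norm.aestronglyMeasurable
    (Filter.Eventually.of_forall fun W => by
      simpa [slotL_apply] using norm_slot_le W q r)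

/-- The inclusion of the outer slot of a node. -/
def embL (q : Fin M) : Space d →L[ℝ] Seeds d M :=
  LinearMap.toContinuousLinearMap
    { toFun := fun u => WithLp.toLp 2 fun j => if j.1 = q ∧ j.2.1 = none then u j.2.2 else 0
      map_add' := fun u u' => by ext j; by_cases h : j.1 = q ∧ j.2.1 = none <;> simp [h]
      map_smul' := fun a u => by ext j; by_cases h : j.1 = q ∧ j.2.1 = none <;> simp [h] }

theorem embL_apply (q : Fin M) (u : Space d) (j : Fin M × Option (Fin M) × Fin d) :
    embL q u j = if j.1 = q ∧ j.2.1 = none then u j.2.2 else 0 := rfl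

theorem slot_emb (q a : Fin M) (r : Option (Fin M)) (u : Space d) :
    slot (embL q u) a r = if a = q ∧ r = none then u else 0 := by
  ext i
  by_cases h : a = q ∧ r = none <;> simp [slot, embL_apply, h]

@[simp] theorem slot_zero (q : Fin M) (r : Option (Fin M)) : slot (0 : Seeds d M) q r = 0 :=
  map_zero (slotL q r)

@[simp] theorem slot_neg (W : Seeds d M) (q : Fin M) (r : Option (Fin M)) :
    slot (-W) q r = -slot W q r :=
  map_neg (slotL q r) W

@[simp] theorem slot_smul (a : ℝ) (W : Seeds d M) (q : Fin M) (r : Option (Fin M)) :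
    slot (a • W) q r = a • slot W q r :=
  map_smul (slotL q r) a W

theorem inner_emb (q : Fin M) (u : Space d) (W : Seeds d M) :
    ⟪embL q u, W⟫ = ⟪u, slot W q none⟫ := by
  simp [PiLp.inner_apply, embL_apply, slot, Fintype.sum_prod_type, Fintype.sum_option]

/-! ## A drift evaluated after one inner step -/

section Nest

variable {Z : Type} [NormedAddCommGroup Z] [NormedSpace ℝ Z]

/-- The drift after one inner step from `A z`, with seeds `B r z`. -/
def nest (R : Rule M) (g : Space d → Space d) (A : Z →L[ℝ] Space d)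
    (B : Fin M → Z →L[ℝ] Space d) (z : Z) : Space d :=
  g (A z - ∑ r, R.weight r • g (R.th r • A z + R.sd r • B r z))

/-- The derivative of `nest`. -/
def nestD (R : Rule M) (g : Space d → Space d) (A : Z →L[ℝ] Space d)
    (B : Fin M → Z →L[ℝ] Space d) (z : Z) : Z →L[ℝ] Space d :=
  (fderiv ℝ g (A z - ∑ r, R.weight r • g (R.th r • A z + R.sd r • B r z))).comp
    (A - ∑ r, R.weight r • (fderiv ℝ g (R.th r • A z + R.sd r • B r z)).comp
      (R.th r • A + R.sd r • B r))

variable {R : Rule M} {δ t0 : ℝ} {g : Space d → Space d} {ρ L : ℝ} {A : Z →L[ℝ] Space d}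
  {B : Fin M → Z →L[ℝ] Space d}

theorem hasFDerivAt_nest (hg : Drift g ρ L) (z : Z) :
    HasFDerivAt (nest R g A B) (nestD R g A B z) z := by
  have h1 : ∀ r, HasFDerivAt (fun z => R.weight r • g (R.th r • A z + R.sd r • B r z))
      (R.weight r • (fderiv ℝ g (R.th r • A z + R.sd r • B r z)).comp
        (R.th r • A + R.sd r • B r)) z := fun r =>
    ((hg.differentiable _).hasFDerivAt.comp z
      (R.th r • A + R.sd r • B r).hasFDerivAt).const_smul (R.weight r)
  have h2 := A.hasFDerivAt.sub (HasFDerivAt.fun_sum (u := Finset.univ) fun r _ => h1 r)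
  exact (hg.differentiable _).hasFDerivAt.comp z h2

theorem contDiff_nest (hg : Drift g ρ L) : ContDiff ℝ 1 (nest R g A B) := by
  have := hg.smooth
  unfold nest
  fun_prop

theorem nestD_apply_le (hg : Drift g ρ L) (hR : R.Good δ t0) (z δ' : Z) :
    ‖nestD R g A B z δ'‖ ≤ L * (3 / 2 * ‖A δ'‖ + L * ∑ r, R.weight r * ‖B r δ'‖) := by
  have hL := hg.nonneg
  simp only [nestD, ContinuousLinearMap.comp_apply, _root_.sub_apply,
    _root_.sum_apply, _root_.smul_apply, _root_.add_apply]
  refine (hg.apply_le _ _).trans (mul_le_mul_of_nonneg_left ?_ hL)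
  refine (norm_sub_le _ _).trans ?_
  have h1 : ∀ r, ‖fderiv ℝ g (R.th r • A z + R.sd r • B r z) (R.th r • A δ' + R.sd r • B r δ')‖
      ≤ L * ‖A δ'‖ + L * ‖B r δ'‖ := fun r => by
    rw [← mul_add]
    exact (hg.apply_le _ _).trans (mul_le_mul_of_nonneg_left (hR.node_norm_le r _ _) hL)
  have h2 := (hR.norm_sum_le h1)
  simp only [mul_add, Finset.sum_add_distrib] at h2
  have h3 : ∑ r, R.weight r * (L * ‖A δ'‖) ≤ 2 * (L * ‖A δ'‖) :=
    hR.sum_mul_le (by positivity) fun _ => le_rfl
  have h4 : ∑ r, R.weight r * (L * ‖B r δ'‖) = L * ∑ r, R.weight r * ‖B r δ'‖ := by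
    rw [Finset.mul_sum]; exact Finset.sum_congr rfl fun r _ => by ring
  nlinarith [hg.small, norm_nonneg (A δ')]

theorem nest_norm_le (hg : Drift g ρ L) (hR : R.Good δ t0) (z : Z) :
    ‖nest R g A B z‖ ≤ 2 * ρ + L * (3 / 2 * ‖A z‖ + L * ∑ r, R.weight r * ‖B r z‖) := by
  have hL := hg.nonneg
  have hρ := hg.rho_nonneg
  refine (hg.norm_le _).trans ?_
  have h1 : ∀ r, ‖g (R.th r • A z + R.sd r • B r z)‖ ≤ (ρ + L * ‖A z‖) + L * ‖B r z‖ := fun r => by
    refine (hg.norm_le _).trans ?_
    have := hR.node_norm_le r (A z) (B r z)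
    nlinarith [mul_le_mul_of_nonneg_left this hL]
  have h2 := (hR.norm_sum_le h1)
  have h2' : ∑ r, R.weight r * ((ρ + L * ‖A z‖) + L * ‖B r z‖)
      = ∑ r, R.weight r * (ρ + L * ‖A z‖) + L * ∑ r, R.weight r * ‖B r z‖ := by
    rw [Finset.mul_sum, ← Finset.sum_add_distrib]
    exact Finset.sum_congr rfl fun r _ => by ring
  have h3 : ∑ r, R.weight r * (ρ + L * ‖A z‖) ≤ 2 * (ρ + L * ‖A z‖) :=
    hR.sum_mul_le (by positivity) fun _ => le_rfl
  have h5 := (norm_sub_le (A z) (∑ r, R.weight r • g (R.th r • A z + R.sd r • B r z)))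
  have h6 : ‖A z - ∑ r, R.weight r • g (R.th r • A z + R.sd r • B r z)‖
      ≤ ‖A z‖ + (2 * (ρ + L * ‖A z‖) + L * ∑ r, R.weight r * ‖B r z‖) := by linarith
  nlinarith [mul_le_mul_of_nonneg_left h6 hL, mul_le_mul_of_nonneg_right hg.small hρ,
    mul_le_mul_of_nonneg_right hg.small (mul_nonneg hL (norm_nonneg (A z)))]

theorem tame_nest (hg : Drift g ρ L) (hR : R.Good δ t0) : Tame (nest R g A B) := by
  have hL := hg.nonneg
  refine tame_of_lip (contDiff_nest hg) (L := L * (3 / 2 * ‖A‖ + L * ∑ r, R.weight r * ‖B r‖))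
    fun z => ?_
  rw [(hasFDerivAt_nest hg z).fderiv]
  have hs : 0 ≤ ∑ r, R.weight r * ‖B r‖ :=
    Finset.sum_nonneg fun r _ => mul_nonneg (hR.nonneg r) (norm_nonneg _)
  refine ContinuousLinearMap.opNorm_le_bound _ (by positivity) fun x => ?_
  refine (nestD_apply_le hg hR z x).trans (le_trans ?_ (le_of_eq (mul_assoc _ _ _).symm))
  refine mul_le_mul_of_nonneg_left ?_ hL
  rw [add_mul, mul_assoc (3 / 2 : ℝ), mul_assoc L, Finset.sum_mul]
  refine add_le_add (by linarith [A.le_opNorm x]) (mul_le_mul_of_nonneg_left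
    (Finset.sum_le_sum fun r _ => ?_) hL)
  rw [mul_assoc]
  exact mul_le_mul_of_nonneg_left ((B r).le_opNorm x) (hR.nonneg r)

theorem nest_sub_le (hg : Drift g ρ L) (hR : R.Good δ t0) (z : Z) :
    ‖nest R g A B z - g (A z)‖
      ≤ L * (2 * ρ + L * (2 * ‖A z‖ + ∑ r, R.weight r * ‖B r z‖)) := by
  have hL := hg.nonneg
  have hρ := hg.rho_nonneg
  refine (hg.lip _ _).trans (mul_le_mul_of_nonneg_left ?_ hL)
  rw [sub_sub_cancel_left, norm_neg]
  refine (hR.norm_sum_le (b := fun r => (ρ + L * ‖A z‖) + L * ‖B r z‖) fun r => ?_).trans ?_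
  · refine (hg.norm_le _).trans ?_
    have := hR.node_norm_le r (A z) (B r z)
    nlinarith [mul_le_mul_of_nonneg_left this hL]
  · have h3 : ∑ r, R.weight r * (ρ + L * ‖A z‖) ≤ 2 * (ρ + L * ‖A z‖) :=
      hR.sum_mul_le (by positivity) fun _ => le_rfl
    have h4 : ∑ r, R.weight r * (L * ‖B r z‖) = L * ∑ r, R.weight r * ‖B r z‖ := by
      rw [Finset.mul_sum]; exact Finset.sum_congr rfl fun r _ => by ring
    simp only [mul_add, Finset.sum_add_distrib] at h3 ⊢
    linarith

end Nest

/-! ## Parameter integrals -/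

section Avg

variable {E₀ Ω : Type} [NormedAddCommGroup E₀] [NormedSpace ℝ E₀] [FiniteDimensional ℝ E₀]
  [NormedAddCommGroup Ω] [InnerProductSpace ℝ Ω] [FiniteDimensional ℝ Ω] [MeasurableSpace Ω]
  [BorelSpace Ω] {F : Type} [NormedAddCommGroup F] [NormedSpace ℝ F] [FiniteDimensional ℝ F]
  {h : E₀ × Ω → F}

omit [FiniteDimensional ℝ E₀] [FiniteDimensional ℝ Ω] [MeasurableSpace Ω] [BorelSpace Ω]
  [FiniteDimensional ℝ F] in
theorem hasFDerivAt_partial (hh : ContDiff ℝ 1 h) (x : E₀) (W : Ω) :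
    HasFDerivAt (fun y => h (y, W)) ((fderiv ℝ h (x, W)).comp (.inl ℝ E₀ Ω)) x :=
  ((hh.differentiable one_ne_zero) _).hasFDerivAt.comp x
    (hasFDerivAt_prodMk_left (𝕜 := ℝ) x W)

omit [FiniteDimensional ℝ E₀] in
theorem integrable_slice (hh : Tame h) (x : E₀) :
    Integrable (fun W => h (x, W)) (stdGaussian Ω) :=
  Tame.integrable (hh.comp ((tame_const x).prodMk (tame_clm (ContinuousLinearMap.id ℝ Ω))))

omit [FiniteDimensional ℝ E₀] [FiniteDimensional ℝ Ω] [MeasurableSpace Ω] [BorelSpace Ω]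
  [FiniteDimensional ℝ F] in
theorem comp_inl_norm_le {T : E₀ × Ω →L[ℝ] F} {K : ℝ} (hT : ‖T‖ ≤ K) :
    ‖T.comp (.inl ℝ E₀ Ω)‖ ≤ K := by
  refine ContinuousLinearMap.opNorm_le_bound _ ((norm_nonneg T).trans hT) fun x => ?_
  refine (T.le_opNorm (x, 0)).trans ?_
  simpa using mul_le_mul_of_nonneg_right hT (norm_nonneg x)

theorem hasFDerivAt_avg (hh : Tame h) {K : ℝ} (hK : ∀ z, ‖fderiv ℝ h z‖ ≤ K) (x : E₀) :
    HasFDerivAt (fun y => ∫ W, h (y, W) ∂stdGaussian Ω)
      (∫ W, (fderiv ℝ h (x, W)).comp (.inl ℝ E₀ Ω) ∂stdGaussian Ω) x := by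
  have hcd := hh.continuous_fderiv
  refine hasFDerivAt_integral_of_dominated_of_fderiv_le (𝕜 := ℝ) (Metric.ball_mem_nhds x one_pos)
    (Filter.Eventually.of_forall fun y => (hh.continuous.comp (by fun_prop)).aestronglyMeasurable)
    (integrable_slice hh x) (Continuous.aestronglyMeasurable (by fun_prop))
    (bound := fun _ => K) (Filter.Eventually.of_forall fun W y _ => ?_) (integrable_const K)
    (Filter.Eventually.of_forall fun W y _ => hasFDerivAt_partial hh.1 y W)
  exact comp_inl_norm_le (hK _)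

theorem contDiff_avg (hh : Tame h) {K : ℝ} (hK : ∀ z, ‖fderiv ℝ h z‖ ≤ K) :
    ContDiff ℝ 1 fun y => ∫ W, h (y, W) ∂stdGaussian Ω := by
  have hcd := hh.continuous_fderiv
  refine contDiff_one_iff_fderiv.2 ⟨fun x => (hasFDerivAt_avg hh hK x).differentiableAt, ?_⟩
  rw [funext fun x => (hasFDerivAt_avg hh hK x).fderiv]
  refine continuous_of_dominated (fun x => Continuous.aestronglyMeasurable (by fun_prop))
    (bound := fun _ => K) (fun x => Filter.Eventually.of_forall fun W => ?_) (integrable_const K)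
    (Filter.Eventually.of_forall fun W => by fun_prop)
  exact comp_inl_norm_le (hK _)

theorem fderiv_avg_le (hh : Tame h) {K : ℝ} (hK : ∀ z, ‖fderiv ℝ h z‖ ≤ K) {K' : ℝ}
    (hK' : ∀ x W, ‖(fderiv ℝ h (x, W)).comp (.inl ℝ E₀ Ω)‖ ≤ K') (x : E₀) :
    ‖fderiv ℝ (fun y => ∫ W, h (y, W) ∂stdGaussian Ω) x‖ ≤ K' := by
  rw [(hasFDerivAt_avg hh hK x).fderiv]
  simpa using norm_integral_le_of_norm_le_const (μ := stdGaussian Ω)
    (Filter.Eventually.of_forall fun W => hK' x W)

end Avg

/-! ## The inner map -/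

/-- The starting point of node `q` as a linear map of point and seeds. -/
def nodeA (R : Rule M) (q : Fin M) : Space d × Seeds d M →L[ℝ] Space d :=
  R.th q • .fst ℝ _ _ + R.sd q • (slotL q none).comp (.snd ℝ _ _)

/-- The inner seeds of node `q`. -/
def nodeB (q r : Fin M) : Space d × Seeds d M →L[ℝ] Space d :=
  (slotL q (some r)).comp (.snd ℝ _ _)

theorem hq_eq (R : Rule M) (g : Space d → Space d) (q : Fin M) :
    (fun z : Space d × Seeds d M => hq R g z.1 z.2 q) = nest R g (nodeA R q) (nodeB q) := rfl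

/-- The derivative of one node. -/
def hqD (R : Rule M) (g : Space d → Space d) (q : Fin M) (z : Space d × Seeds d M) :
    Space d × Seeds d M →L[ℝ] Space d :=
  nestD R g (nodeA R q) (nodeB q) z

/-- The random displacement. -/
def disp (R : Rule M) (g : Space d → Space d) (z : Space d × Seeds d M) : Space d :=
  ∑ q, R.weight q • hq R g z.1 z.2 q

/-- The derivative of the random displacement. -/
def dispD (R : Rule M) (g : Space d → Space d) (z : Space d × Seeds d M) :
    Space d × Seeds d M →L[ℝ] Space d :=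
  ∑ q, R.weight q • hqD R g q z

variable {R : Rule M} {δ t0 : ℝ} {g : Space d → Space d} {ρ L : ℝ}

theorem hasFDerivAt_hq (hg : Drift g ρ L) (q : Fin M) (z : Space d × Seeds d M) :
    HasFDerivAt (fun z => hq R g z.1 z.2 q) (hqD R g q z) z :=
  hasFDerivAt_nest (A := nodeA R q) (B := nodeB q) hg z

theorem tame_hq (hg : Drift g ρ L) (hR : R.Good δ t0) (q : Fin M) :
    Tame fun z : Space d × Seeds d M => hq R g z.1 z.2 q :=
  tame_nest (A := nodeA R q) (B := nodeB q) hg hR

theorem hqD_x_le (hg : Drift g ρ L) (hR : R.Good δ t0) (q : Fin M) (z : Space d × Seeds d M)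
    (u : Space d) : ‖hqD R g q z (u, 0)‖ ≤ 3 / 2 * L * ‖u‖ := by
  refine (nestD_apply_le hg hR z _).trans ?_
  simp only [nodeA, nodeB, _root_.add_apply, _root_.smul_apply,
    ContinuousLinearMap.coe_fst', ContinuousLinearMap.comp_apply, ContinuousLinearMap.coe_snd',
    map_zero, smul_zero, add_zero, norm_zero, mul_zero, Finset.sum_const_zero, norm_smul,
    Real.norm_eq_abs, abs_of_pos (R.th_pos q)]
  nlinarith [mul_le_mul_of_nonneg_left
    (mul_le_of_le_one_left (norm_nonneg u) (hR.th_lt q).le) hg.nonneg]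

theorem hqD_seed_le (hg : Drift g ρ L) (hR : R.Good δ t0) (q : Fin M) (z : Space d × Seeds d M)
    (W : Seeds d M) : ‖hqD R g q z (0, W)‖ ≤ 2 * L * ‖W‖ := by
  refine (nestD_apply_le hg hR z _).trans ?_
  simp only [nodeA, nodeB, _root_.add_apply, _root_.smul_apply,
    ContinuousLinearMap.coe_fst', ContinuousLinearMap.comp_apply, ContinuousLinearMap.coe_snd',
    slotL_apply, smul_zero, zero_add, norm_smul, Real.norm_eq_abs,
    abs_of_nonneg (R.sd_nonneg q)]
  have h1 : R.sd q * ‖slot W q none‖ ≤ ‖W‖ :=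
    (mul_le_of_le_one_left (norm_nonneg _) (R.sd_le q)).trans (norm_slot_le W q none)
  have h2 : ∑ r, R.weight r * ‖slot W q (some r)‖ ≤ 2 * ‖W‖ :=
    hR.sum_mul_le (norm_nonneg W) fun r => norm_slot_le W q (some r)
  have hL := hg.nonneg
  nlinarith [mul_le_mul_of_nonneg_left h1 hL, mul_le_mul_of_nonneg_left h2 (mul_nonneg hL hL),
    mul_le_mul_of_nonneg_right hg.small (mul_nonneg hL (norm_nonneg W))]

theorem hqD_emb_le (hg : Drift g ρ L) (hR : R.Good δ t0) (q : Fin M) (z : Space d × Seeds d M)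
    (u : Space d) : ‖hqD R g q z (0, embL q u)‖ ≤ 3 / 2 * L * R.sd q * ‖u‖ := by
  refine (nestD_apply_le hg hR z _).trans (le_of_eq ?_)
  simp [nodeA, nodeB, slotL_apply, slot_emb, norm_smul,
    abs_of_nonneg (R.sd_nonneg q)]
  ring

theorem hqD_emb_ne (hg : Drift g ρ L) (hR : R.Good δ t0) {q r : Fin M} (hrq : r ≠ q)
    (z : Space d × Seeds d M) (u : Space d) : hqD R g r z (0, embL q u) = 0 := by
  rw [← norm_eq_zero]
  refine le_antisymm ((nestD_apply_le hg hR z _).trans (le_of_eq ?_)) (norm_nonneg _)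
  simp [nodeA, nodeB, slotL_apply, slot_emb, hrq]

theorem hqD_transfer (hg : Drift g ρ L) (hR : R.Good δ t0) (q : Fin M) (z : Space d × Seeds d M)
    (u : Space d) : hqD R g q z (u, 0) = (R.th q / R.sd q) • hqD R g q z (0, embL q u) := by
  rw [← sub_eq_zero, ← map_smul, ← map_sub, ← norm_eq_zero]
  refine le_antisymm ((nestD_apply_le hg hR z _).trans (le_of_eq ?_)) (norm_nonneg _)
  simp [nodeA, nodeB, slotL_apply, slot_emb, smul_smul, div_mul_cancel₀ _ (hR.sd_pos q).ne',
    mul_comm (R.sd q)]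

theorem hq_norm_le (hg : Drift g ρ L) (hR : R.Good δ t0) (q : Fin M) (x : Space d)
    (W : Seeds d M) : ‖hq R g x W q‖
      ≤ 2 * ρ + L * (3 / 2 * (‖x‖ + ‖slot W q none‖)
          + L * ∑ r, R.weight r * ‖slot W q (some r)‖) := by
  refine (nest_norm_le (A := nodeA R q) (B := nodeB q) hg hR (x, W)).trans ?_
  simp only [nodeA, nodeB, _root_.add_apply, _root_.smul_apply,
    ContinuousLinearMap.coe_fst', ContinuousLinearMap.comp_apply, ContinuousLinearMap.coe_snd',
    slotL_apply]
  have h1 := hR.node_norm_le q x (slot W q none)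
  nlinarith [mul_le_mul_of_nonneg_left h1 hg.nonneg]

theorem integral_hq_le (hg : Drift g ρ L) (hR : R.Good δ t0) (q : Fin M) (x : Space d) :
    ∫ W, ‖hq R g x W q‖ ∂stdGaussian (Seeds d M) ≤ 2 * ρ + 2 * L * (‖x‖ + √d) := by
  have hL := hg.nonneg
  set μ := stdGaussian (Seeds d M)
  have i1 : Integrable (fun W : Seeds d M => 3 / 2 * (‖x‖ + ‖slot W q none‖)) μ :=
    ((integrable_const _).add (integrable_norm_slot q none)).const_mul _
  have i2 : Integrable (fun W : Seeds d M => L * ∑ r, R.weight r * ‖slot W q (some r)‖) μ :=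
    (integrable_finsetSum _ fun r _ => (integrable_norm_slot q (some r)).const_mul _).const_mul _
  refine (integral_mono (Tame.integrable ((tame_hq hg hR q).comp
    ((tame_const x).prodMk (tame_clm (ContinuousLinearMap.id ℝ _))))).norm
    ((integrable_const _).add ((i1.add i2).const_mul L)) fun W => hq_norm_le hg hR q x W).trans ?_
  rw [integral_add' (integrable_const _) ((i1.add i2).const_mul L), integral_const,
    probReal_univ, one_smul, integral_const_mul, integral_add' i1 i2, integral_const_mul,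
    integral_add (integrable_const _) (integrable_norm_slot q none), integral_const,
    probReal_univ, one_smul, integral_const_mul,
    integral_finsetSum _ fun r _ => (integrable_norm_slot q (some r)).const_mul _]
  simp only [integral_const_mul]
  have h1 := integral_norm_slot_le (d := d) q none
  have h2 : ∑ r, R.weight r * ∫ W, ‖slot W q (some r)‖ ∂μ ≤ 2 * √d :=
    hR.sum_mul_le (Real.sqrt_nonneg _) fun r => integral_norm_slot_le q (some r)
  have hs := Real.sqrt_nonneg (d : ℝ)
  nlinarith [mul_le_mul_of_nonneg_left h1 hL, mul_le_mul_of_nonneg_left h2 (mul_nonneg hL hL),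
    mul_le_mul_of_nonneg_right hg.small (mul_nonneg hL hs), norm_nonneg x, hg.rho_nonneg]

theorem hasFDerivAt_disp (hg : Drift g ρ L) (z : Space d × Seeds d M) :
    HasFDerivAt (disp R g) (dispD R g z) z :=
  HasFDerivAt.fun_sum fun q _ => (hasFDerivAt_hq hg q z).const_smul (R.weight q)

theorem dispD_x_le (hg : Drift g ρ L) (hR : R.Good δ t0) (z : Space d × Seeds d M) (u : Space d) :
    ‖dispD R g z (u, 0)‖ ≤ 3 * L * ‖u‖ := by
  simp only [dispD, _root_.sum_apply, _root_.smul_apply]
  refine (hR.norm_sum_le fun q => hqD_x_le hg hR q z u).trans ?_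
  have := hg.nonneg
  refine (hR.sum_mul_le (b := 3 / 2 * L * ‖u‖) (by positivity) fun q => le_rfl).trans
    (le_of_eq ?_)
  ring

theorem dispD_seed_le (hg : Drift g ρ L) (hR : R.Good δ t0) (z : Space d × Seeds d M)
    (W : Seeds d M) : ‖dispD R g z (0, W)‖ ≤ 4 * L * ‖W‖ := by
  simp only [dispD, _root_.sum_apply, _root_.smul_apply]
  refine (hR.norm_sum_le fun q => hqD_seed_le hg hR q z W).trans ?_
  have := hg.nonneg
  refine (hR.sum_mul_le (b := 2 * L * ‖W‖) (by positivity) fun q => le_rfl).trans (le_of_eq ?_)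
  ring

theorem dispD_emb_le (hg : Drift g ρ L) (hR : R.Good δ t0) (q : Fin M)
    (z : Space d × Seeds d M) (u : Space d) :
    ‖dispD R g z (0, embL q u)‖ ≤ 3 / 2 * L * R.weight q * R.sd q * ‖u‖ := by
  simp only [dispD, _root_.sum_apply, _root_.smul_apply]
  rw [Finset.sum_eq_single q (fun r _ hr => by rw [hqD_emb_ne hg hR hr, smul_zero])
    (fun h => absurd (Finset.mem_univ q) h), norm_smul, Real.norm_eq_abs,
    abs_of_nonneg (hR.nonneg q)]
  refine (mul_le_mul_of_nonneg_left (hqD_emb_le hg hR q z u) (hR.nonneg q)).trans (le_of_eq ?_)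
  ring

theorem tame_disp (hg : Drift g ρ L) (hR : R.Good δ t0) : Tame (disp (d := d) R g) := by
  have hL := hg.nonneg
  refine tame_of_lip (ContDiff.sum fun q _ => (tame_hq hg hR q).1.const_smul (R.weight q))
    (L := 7 * L) fun z => ?_
  change ‖fderiv ℝ (disp R g) z‖ ≤ _
  rw [(hasFDerivAt_disp hg z).fderiv]
  refine ContinuousLinearMap.opNorm_le_bound _ (by positivity) fun p => ?_
  have hp : p = (p.1, (0 : Seeds d M)) + ((0 : Space d), p.2) := by simp
  rw [hp, map_add, ← hp]
  refine (norm_add_le _ _).trans ?_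
  nlinarith [dispD_x_le hg hR z p.1, dispD_seed_le hg hR z p.2,
    mul_le_mul_of_nonneg_left (norm_fst_le p) hL, mul_le_mul_of_nonneg_left (norm_snd_le p) hL]

theorem fderiv_disp_le (hg : Drift g ρ L) (hR : R.Good δ t0) (z : Space d × Seeds d M) :
    ‖fderiv ℝ (disp R g) z‖ ≤ 7 * L := by
  have hL := hg.nonneg
  rw [(hasFDerivAt_disp hg z).fderiv]
  refine ContinuousLinearMap.opNorm_le_bound _ (by positivity) fun p => ?_
  have hp : p = (p.1, (0 : Seeds d M)) + ((0 : Space d), p.2) := by simp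
  rw [hp, map_add, ← hp]
  refine (norm_add_le _ _).trans ?_
  nlinarith [dispD_x_le hg hR z p.1, dispD_seed_le hg hR z p.2,
    mul_le_mul_of_nonneg_left (norm_fst_le p) hL, mul_le_mul_of_nonneg_left (norm_snd_le p) hL]

/-! ## Means -/

/-- The coordinates of the first level seeds. -/
def outerIdx (k : Fin M × Fin d) : Fin M × Option (Fin M) × Fin d := (k.1, none, k.2)

/-- The coordinates of the inner seeds of node `q`. -/
def innerIdx (q : Fin M) (k : Fin M × Fin d) : Fin M × Option (Fin M) × Fin d :=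
  (q, some k.1, k.2)

/-- The first level evaluation on its own seeds. -/
def lev1 (R : Rule M) (g : Space d → Space d) (z : Space d × EuclideanSpace ℝ (Fin M × Fin d)) :
    Space d :=
  nest R g (.fst ℝ _ _) (fun r => (pickL fun i => (r, i)).comp (.snd ℝ _ _)) z

theorem tame_lev1 (hg : Drift g ρ L) (hR : R.Good δ t0) : Tame (lev1 (d := d) R g) :=
  tame_nest hg hR

theorem gmean1_eq (hg : Drift g ρ L) (hR : R.Good δ t0) (x : Space d) :
    gmean1 R g x = ∫ U, lev1 R g (x, U) ∂stdGaussian (EuclideanSpace ℝ (Fin M × Fin d)) := by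
  have hc : Continuous fun U : EuclideanSpace ℝ (Fin M × Fin d) => lev1 R g (x, U) :=
    (tame_lev1 hg hR).continuous.comp (by fun_prop)
  rw [← integral_pick (σ := outerIdx) (fun a b h => by simpa [outerIdx, Prod.ext_iff] using h) hc]
  rfl

theorem psi_eq_integral (hg : Drift g ρ L) (hR : R.Good δ t0) (x : Space d) :
    psi R g x = ∫ W, disp R g (x, W) ∂stdGaussian (Seeds d M) := by
  have hi : ∀ q, Integrable (fun W => hq R g x W q) (stdGaussian (Seeds d M)) := fun q =>
    integrable_slice (tame_hq hg hR q) x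
  simp only [psi, disp]
  rw [integral_finsetSum (f := fun q W => R.weight q • hq R g x W q) Finset.univ
    fun q _ => (hi q).smul (R.weight q)]
  refine Finset.sum_congr rfl fun q _ => ?_
  rw [integral_smul]
  congr 1
  set f : Space d × EuclideanSpace ℝ (Fin M × Fin d) → Space d :=
    fun z => lev1 R g (R.th q • x + R.sd q • z.1, z.2) with hf
  have hft : Tame f := (tame_lev1 hg hR).comp
    (((tame_const _).add (tame_clm (R.sd q • ContinuousLinearMap.fst ℝ (Space d)
      (EuclideanSpace ℝ (Fin M × Fin d))))).prodMk (tame_clm (ContinuousLinearMap.snd ℝ (Space d)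
      (EuclideanSpace ℝ (Fin M × Fin d)))))
  have h := integral_pick_pair (σ := slotIdx (d := d) q none) (τ := innerIdx q)
    (slotIdx_inj q none) (fun a b h => by simpa [innerIdx, Prod.ext_iff] using h)
    (fun a b h => by simp [slotIdx, innerIdx] at h) hft.continuous
  refine Eq.trans ?_ (h.symm.trans rfl)
  rw [integral_prod _ (Tame.integrable hft)]
  simp only [ou, gmean1_eq hg hR]
  rfl

theorem fderiv_lev1_le (hg : Drift g ρ L) (hR : R.Good δ t0)
    (z : Space d × EuclideanSpace ℝ (Fin M × Fin d)) : ‖fderiv ℝ (lev1 R g) z‖ ≤ 2 * L := by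
  have hL := hg.nonneg
  rw [show lev1 (d := d) R g = nest R g (.fst ℝ (Space d) (EuclideanSpace ℝ (Fin M × Fin d)))
    (fun r => (pickL fun i => (r, i)).comp (.snd ℝ _ _)) from rfl, (hasFDerivAt_nest hg z).fderiv]
  refine ContinuousLinearMap.opNorm_le_bound _ (by positivity) fun p => ?_
  refine (nestD_apply_le hg hR z p).trans ?_
  simp only [ContinuousLinearMap.coe_fst', ContinuousLinearMap.comp_apply,
    ContinuousLinearMap.coe_snd']
  have h2 : ∑ r, R.weight r * ‖pickL (fun i : Fin d => (r, i)) p.2‖ ≤ 2 * ‖p.2‖ :=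
    hR.sum_mul_le (norm_nonneg _) fun r =>
      norm_pickL_le (fun a b h => by simpa using h) p.2
  nlinarith [mul_le_mul_of_nonneg_left (norm_fst_le p) hL,
    mul_le_mul_of_nonneg_left (h2.trans (mul_le_mul_of_nonneg_left (norm_snd_le p) zero_le_two))
      (mul_nonneg hL hL), mul_le_mul_of_nonneg_right hg.small (mul_nonneg hL (norm_nonneg p))]

theorem contDiff_gmean1 (hg : Drift g ρ L) (hR : R.Good δ t0) : ContDiff ℝ 1 (gmean1 R g) := by
  rw [funext (gmean1_eq hg hR)]
  exact contDiff_avg (tame_lev1 hg hR) (fderiv_lev1_le hg hR)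

theorem fderiv_gmean1_le (hg : Drift g ρ L) (hR : R.Good δ t0) (x : Space d) :
    ‖fderiv ℝ (gmean1 R g) x‖ ≤ 2 * L := by
  rw [funext (gmean1_eq hg hR)]
  exact fderiv_avg_le (tame_lev1 hg hR) (fderiv_lev1_le hg hR) (fun y U =>
    comp_inl_norm_le (fderiv_lev1_le hg hR _)) x

theorem norm_gmean1_le (hg : Drift g ρ L) (hR : R.Good δ t0) (x : Space d) :
    ‖gmean1 R g x‖ ≤ 2 * ρ + 2 * L * (‖x‖ + √d) := by
  have hL := hg.nonneg
  rw [gmean1_eq hg hR]
  set μ := stdGaussian (EuclideanSpace ℝ (Fin M × Fin d))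
  set P : Fin M → EuclideanSpace ℝ (Fin M × Fin d) →L[ℝ] Space d :=
    fun r => pickL fun i => (r, i)
  have hPi : ∀ r, Integrable (fun U => ‖P r U‖) μ := fun r => (Tame.integrable (tame_clm (P r))).norm
  have hP : ∀ r, ∫ U, ‖P r U‖ ∂μ ≤ √d := fun r => by
    refine (le_of_eq (integral_pick (σ := fun i : Fin d => (r, i)) (fun a b h => by simpa using h)
      (f := fun u => ‖u‖) continuous_norm)).trans ?_
    simpa using integral_norm_le (κ := Fin d)
  have i2 : Integrable (fun U => L * ∑ r, R.weight r * ‖P r U‖) μ :=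
    (integrable_finsetSum _ fun r _ => (hPi r).const_mul _).const_mul _
  refine (norm_integral_le_integral_norm _).trans ?_
  refine (integral_mono (integrable_slice (tame_lev1 hg hR) x).norm
    ((integrable_const (2 * ρ)).add (((integrable_const (3 / 2 * ‖x‖)).add i2).const_mul L))
    fun U => nest_norm_le hg hR (x, U)).trans ?_
  rw [integral_add' (integrable_const _) (((integrable_const _).add i2).const_mul L),
    integral_const, probReal_univ, one_smul, integral_const_mul, integral_add' (integrable_const _) i2,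
    integral_const, probReal_univ, one_smul, integral_const_mul,
    integral_finsetSum _ fun r _ => (hPi r).const_mul _]
  simp only [integral_const_mul]
  have h2 : ∑ r, R.weight r * ∫ U, ‖P r U‖ ∂μ ≤ 2 * √d := hR.sum_mul_le (Real.sqrt_nonneg _) hP
  nlinarith [mul_le_mul_of_nonneg_left h2 (mul_nonneg hL hL),
    mul_le_mul_of_nonneg_right hg.small (mul_nonneg hL (Real.sqrt_nonneg (d : ℝ))),
    mul_nonneg hL (norm_nonneg x), mul_nonneg hL (Real.sqrt_nonneg (d : ℝ))]

theorem hasFDerivAt_psi (hg : Drift g ρ L) (hR : R.Good δ t0) (x : Space d) :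
    HasFDerivAt (psi R g)
      (∫ W, (dispD R g (x, W)).comp (.inl ℝ (Space d) (Seeds d M)) ∂stdGaussian (Seeds d M)) x := by
  have h := hasFDerivAt_avg (tame_disp hg hR) (fderiv_disp_le hg hR) x
  simp only [fun W => (hasFDerivAt_disp (R := R) hg (x, W)).fderiv] at h
  rwa [← funext (psi_eq_integral hg hR)] at h

theorem contDiff_psi (hg : Drift g ρ L) (hR : R.Good δ t0) : ContDiff ℝ 1 (psi R g) := by
  rw [funext (psi_eq_integral hg hR)]
  exact contDiff_avg (tame_disp hg hR) (fderiv_disp_le hg hR)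

theorem fderiv_psi_le (hg : Drift g ρ L) (hR : R.Good δ t0) (x : Space d) :
    ‖fderiv ℝ (psi R g) x‖ ≤ 3 * L := by
  rw [funext (psi_eq_integral hg hR)]
  refine fderiv_avg_le (tame_disp hg hR) (fderiv_disp_le hg hR) (fun y W => ?_) x
  rw [(hasFDerivAt_disp hg (y, W)).fderiv]
  exact ContinuousLinearMap.opNorm_le_bound _ (by linarith [hg.nonneg])
    fun u => dispD_x_le hg hR (y, W) u

end

end P347.Quarter
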