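import Vale.Agent.P347.Quarter.Kernel

/-!
# P347: the inner chain and its derivative in the centre
-/

namespace P347.Quarter

open MeasureTheory ProbabilityTheory Filter Topology
open scoped RealInnerProductSpace

noncomputable section

variable {d : ℕ} {p : Space d → Space d} {η h : ℝ}

/-- The contraction of one step. -/
def qfac (η h : ℝ) : ℝ := 1 - h * (1 + η)

theorem qfac_nonneg (hp : Pot p η) (h8 : h ≤ 1 / 8) (h0 : 0 ≤ h) : 0 ≤ qfac η h := by
  unfold qfac; nlinarith [hp.small, hp.pos]

theorem qfac_le_one (hp : Pot p η) (h0 : 0 ≤ h) : qfac η h ≤ 1 := by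
  unfold qfac; nlinarith [hp.pos]

theorem Pot.centred (hp : Pot p η) (x w : Space d) :
    ‖fderiv ℝ p x w - (3 / 2 * η) • w‖ ≤ η / 2 * ‖w‖ := by
  set H := fderiv ℝ p x with hH
  set u := H w - (3 / 2 * η) • w with hu
  have hb : ∀ a b : Space d,
      ⟪H a, b⟫ - 3 / 2 * η * ⟪a, b⟫ ≤ η / 4 * (‖a‖ ^ 2 + ‖b‖ ^ 2) := fun a b => by
    have h1 := hp.upper x (a + b)
    have h2 := hp.lower x (a - b)
    rw [← hH] at h1 h2
    have hs : ⟪H b, a⟫ = ⟪H a, b⟫ := by rw [hp.symm x b a, real_inner_comm]
    simp only [map_add, map_sub, inner_add_left, inner_add_right, inner_sub_left, inner_sub_right,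
      norm_add_sq_real, norm_sub_sq_real] at h1 h2
    linarith
  rcases eq_or_ne u 0 with h0 | h0
  · rw [h0, norm_zero]; nlinarith [hp.pos, norm_nonneg w]
  have hun : 0 < ‖u‖ := norm_pos_iff.2 h0
  have hwn : 0 < ‖w‖ := norm_pos_iff.2 fun hw => h0 (by simp [hu, hw])
  have h1 := hb w ((‖w‖ / ‖u‖) • u)
  rw [norm_smul, Real.norm_of_nonneg (by positivity), div_mul_cancel₀ _ hun.ne',
    real_inner_smul_right, real_inner_smul_right] at h1
  have h2 : ⟪H w, u⟫ - 3 / 2 * η * ⟪w, u⟫ = ‖u‖ ^ 2 := by
    rw [← real_inner_self_eq_norm_sq, hu]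
    simp only [inner_sub_left, real_inner_smul_left]
  have h4 : ‖w‖ / ‖u‖ * (⟪H w, u⟫ - 3 / 2 * η * ⟪w, u⟫) = ‖w‖ * ‖u‖ := by
    rw [h2]; field_simp
  have h5 : ‖w‖ * ‖u‖ ≤ ‖w‖ * (η / 2 * ‖w‖) := by linarith
  exact le_of_mul_le_mul_left h5 hwn

theorem Pot.hess_le (hp : Pot p η) (x w : Space d) : ‖fderiv ℝ p x w‖ ≤ 2 * η * ‖w‖ := by
  have h1 := hp.centred x w
  have h2 := norm_add_le (fderiv ℝ p x w - (3 / 2 * η) • w) ((3 / 2 * η) • w)
  rw [sub_add_cancel, norm_smul, Real.norm_of_nonneg (by linarith [hp.pos] : 0 ≤ 3 / 2 * η)] at h2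
  linarith

theorem Pot.step_le (hp : Pot p η) (h0 : 0 ≤ h) (h8 : h ≤ 1 / 8) (x w : Space d) :
    ‖w - h • (w + fderiv ℝ p x w)‖ ≤ qfac η h * ‖w‖ := by
  have hc : 0 ≤ 1 - h - h * (3 / 2 * η) := by nlinarith [hp.small, hp.pos]
  have e : w - h • (w + fderiv ℝ p x w)
      = (1 - h - h * (3 / 2 * η)) • w - h • (fderiv ℝ p x w - (3 / 2 * η) • w) := by module
  rw [e]
  refine (norm_sub_le _ _).trans ?_
  rw [norm_smul, norm_smul, Real.norm_of_nonneg hc, Real.norm_of_nonneg h0]
  refine (add_le_add le_rfl (mul_le_mul_of_nonneg_left (hp.centred x w) h0)).trans (le_of_eq ?_)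
  unfold qfac; ring

theorem hasFDerivAt_eul (hp : Pot p η) (z : Space d × Space d) :
    HasFDerivAt (fun z : Space d × Space d => eul p h z.2 z.1)
      (ContinuousLinearMap.fst ℝ (Space d) (Space d) - h • (ContinuousLinearMap.fst ℝ _ _
        + (fderiv ℝ p z.1).comp (ContinuousLinearMap.fst ℝ _ _)
        - ContinuousLinearMap.snd ℝ _ _)) z := by
  have h1 : HasFDerivAt (fun z : Space d × Space d => p z.1)
      ((fderiv ℝ p z.1).comp (ContinuousLinearMap.fst ℝ _ _)) z :=
    ((hp.smooth.differentiable one_ne_zero) z.1).hasFDerivAt.comp z hasFDerivAt_fst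
  exact hasFDerivAt_fst.sub (((hasFDerivAt_fst.add h1).sub hasFDerivAt_snd).const_smul h)

theorem hasFDerivAt_eul_left (hp : Pot p η) (v x : Space d) :
    HasFDerivAt (eul p h v) (ContinuousLinearMap.id ℝ _ - h • (ContinuousLinearMap.id ℝ _
      + fderiv ℝ p x)) x := by
  have h1 := ((hasFDerivAt_id x).add ((hp.smooth.differentiable one_ne_zero) x).hasFDerivAt)
    |>.sub_const v
  exact (hasFDerivAt_id x).sub (h1.const_smul h)

theorem continuous_eul (hp : Pot p η) :
    Continuous fun z : Space d × Space d => eul p h z.2 z.1 := by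
  have := hp.smooth.continuous
  unfold eul; fun_prop

theorem continuous_eul_left (hp : Pot p η) (v : Space d) : Continuous (eul p h v) := by
  have := hp.smooth.continuous
  unfold eul; fun_prop

theorem eul_lip (hp : Pot p η) (h0 : 0 ≤ h) (h8 : h ≤ 1 / 8) (x y v w : Space d) :
    ‖eul p h v x - eul p h w y‖ ≤ qfac η h * ‖x - y‖ + h * ‖v - w‖ := by
  have h1 : ‖eul p h v x - eul p h v y‖ ≤ qfac η h * ‖x - y‖ :=
    convex_univ.norm_image_sub_le_of_norm_hasFDerivWithin_le
      (fun z _ => (hasFDerivAt_eul_left hp v z).hasFDerivWithinAt)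
      (fun z _ => ContinuousLinearMap.opNorm_le_bound _ (qfac_nonneg hp h8 h0) fun a => by
        simpa using hp.step_le h0 h8 z a) (Set.mem_univ y) (Set.mem_univ x)
  have h2 : ‖eul p h v y - eul p h w y‖ = h * ‖v - w‖ := by
    rw [show eul p h v y - eul p h w y = h • (v - w) by unfold eul; module, norm_smul,
      Real.norm_of_nonneg h0]
  linarith [norm_sub_le_norm_sub_add_norm_sub (eul p h v x) (eul p h v y) (eul p h w y)]

/-! ### Values -/

variable {F : Type} [NormedAddCommGroup F] [NormedSpace ℝ F]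

set_option linter.unusedSectionVars false
set_option linter.unusedVariables false

theorem bdd_comp_eul (hp : Pot p η) {f : Space d → F} {B : ℝ} (hf : Bdd f B) (v : Space d) :
    Bdd (fun y => f (eul p h v y)) B :=
  ⟨hf.cont.comp (continuous_eul_left hp v), fun y => hf.bound _⟩

theorem continuous_gav_param {G : Type} [NormedAddCommGroup G] [NormedSpace ℝ G]
    {K : Space d × Space d → G} {B : ℝ} (hK : Continuous K) (hB : ∀ z, ‖K z‖ ≤ B) (σ : ℝ) :
    Continuous fun z : Space d × Space d => gav σ (fun y => K (y, z.2)) z.1 := by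
  have hk : Continuous fun z : (Space d × Space d) × Space d => K (z.1.1 + σ • z.2, z.1.2) :=
    hK.comp (by fun_prop)
  exact continuous_of_dominated (fun z => (hk.comp (Continuous.prodMk_right z)).aestronglyMeasurable)
    (fun z => Eventually.of_forall fun _ => hB _) (integrable_const B)
    (Eventually.of_forall fun y => hk.comp (Continuous.prodMk_left y))

theorem continuous_eulOp_step (hp : Pot p η) {g : Space d → Space d → F} {B : ℝ}
    (hc : Continuous fun z : Space d × Space d => g z.2 z.1) (hb : ∀ v x, ‖g v x‖ ≤ B) :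
    Continuous fun z : Space d × Space d => eulOp p h z.2 (g z.2) z.1 :=
  continuous_gav_param (K := fun z : Space d × Space d => g z.2 (eul p h z.2 z.1))
    (hc.comp ((continuous_eul hp).prodMk continuous_snd)) (fun z => hb _ _) √(2 * h)

theorem continuous_iter (hp : Pot p η) {f : Space d → F} {B : ℝ} (hf : Bdd f B) (j : ℕ) :
    Continuous (fun z : Space d × Space d => (eulOp p h z.2)^[j] f z.1) ∧
      ∀ v, Bdd ((eulOp p h v)^[j] f) B := by
  induction j with
  | zero => exact ⟨hf.cont.comp continuous_fst, fun _ => hf⟩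
  | succ j ih =>
    obtain ⟨hc, hb⟩ := ih
    simp only [Function.iterate_succ_apply']
    exact ⟨continuous_eulOp_step hp (g := fun v => (eulOp p h v)^[j] f) hc fun v x => (hb v).bound x,
      fun v => (bdd_comp_eul hp (hb v) v).gav _⟩

theorem bdd_piJ (hp : Pot p η) {f : Space d → F} {B : ℝ} (hf : Bdd f B) (J : ℕ) :
    Bdd (piJ p h J f) B := by
  obtain ⟨hc, hb⟩ := continuous_iter (h := h) hp hf J
  exact ⟨Continuous.comp (g := fun z : Space d × Space d => (eulOp p h z.2)^[J] f z.1) hc
    (f := fun v : Space d => (v, v)) (continuous_id.prodMk continuous_id),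
    fun v => (hb v).bound v⟩

theorem gradient_eulOp (hp : Pot p η) (h0 : 0 ≤ h) (h8 : h ≤ 1 / 8) {f : Space d → ℝ} {L : ℝ}
    (hf : Lip1 f L) (v : Space d) :
    Lip1 (fun y => f (eul p h v y)) L ∧ gradient (eulOp p h v f)
      = gav √(2 * h) fun y => gradient f (eul p h v y)
          - h • (gradient f (eul p h v y) + fderiv ℝ p y (gradient f (eul p h v y))) := by
  have hq := qfac_le_one hp h0
  have hd : ∀ y, fderiv ℝ (fun y => f (eul p h v y)) y
      = InnerProductSpace.toDual ℝ (Space d) (gradient f (eul p h v y)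
          - h • (gradient f (eul p h v y) + fderiv ℝ p y (gradient f (eul p h v y)))) := fun y => by
    have h1 : HasFDerivAt (fun y => f (eul p h v y)) _ y :=
      (hf.smooth.differentiable one_ne_zero _).hasFDerivAt.comp y (hasFDerivAt_eul_left hp v y)
    rw [h1.fderiv]
    ext a
    simp [gradient, inner_sub_left, inner_add_left, real_inner_smul_left, hp.symm y,
      InnerProductSpace.toDual_symm_apply]
  have hl : Lip1 (fun y => f (eul p h v y)) L := by
    refine ⟨hf.smooth.comp ?_, fun y => ?_⟩
    · have := hp.smooth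
      unfold eul; fun_prop
    · rw [hd, LinearIsometryEquiv.norm_map]
      exact ((hp.step_le h0 h8 y _).trans (mul_le_of_le_one_left (norm_nonneg _) hq)).trans
        (hf.bdd_gradient.bound _)
  refine ⟨hl, funext fun x => ?_⟩
  rw [eulOp, hl.gradient_gav]
  congr 1
  funext y
  rw [gradient, hd, LinearIsometryEquiv.symm_apply_apply]

theorem norm_gav_le {f : Space d → Space d} {g : Space d → ℝ} {B : ℝ} (hg : Bdd g B)
    (hfg : ∀ y, ‖f y‖ ≤ g y) (σ : ℝ) (x : Space d) : ‖gav σ f x‖ ≤ gav σ g x :=
  (norm_integral_le_integral_norm _).trans (integral_mono_of_nonneg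
    (Eventually.of_forall fun _ => norm_nonneg _) ((hg.shift σ x).integrable _)
    (Eventually.of_forall fun z => hfg _))

theorem integral_sub_mean_sq {f : Space d → ℝ} {B : ℝ} (hf : Bdd f B) :
    ∫ z, (f z - ∫ y, f y ∂stdGaussian (Space d)) ^ 2 ∂stdGaussian (Space d)
      = ∫ z, f z ^ 2 ∂stdGaussian (Space d) - (∫ z, f z ∂stdGaussian (Space d)) ^ 2 := by
  set μ := stdGaussian (Space d)
  set m := ∫ y, f y ∂μ
  have h1 : Integrable (fun z => f z ^ 2) μ := hf.sq.integrable μ
  have h2 : Integrable (fun z => 2 * m * f z) μ := (hf.integrable μ).const_mul _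
  have e : (fun z => (f z - m) ^ 2) = fun z => f z ^ 2 - 2 * m * f z + m ^ 2 := by funext z; ring
  rw [e, integral_add (f := fun z => f z ^ 2 - 2 * m * f z) (h1.sub h2) (integrable_const _),
    integral_sub h1 h2, integral_const_mul, integral_const]
  simp
  ring

theorem gradient_gav_sq_le {f : Space d → ℝ} {B : ℝ} (hf : Bdd f B) {σ : ℝ} (hσ : 0 < σ)
    (x : Space d) :
    σ ^ 2 * ‖gradient (gav σ f) x‖ ^ 2 ≤ gav σ (fun y => f y ^ 2) x - gav σ f x ^ 2 := by
  have h1 := norm_gradient_le (f := gav σ f) (x := x)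
    (C := σ⁻¹ * √(∫ z, (f (x + σ • z) - gav σ f x) ^ 2 ∂stdGaussian (Space d))) (by positivity)
    (hf.abs_fderiv_gav_le hσ _ x)
  refine (mul_le_mul_of_nonneg_left (pow_le_pow_left₀ (norm_nonneg _) h1 2) (sq_nonneg σ)).trans ?_
  rw [mul_pow, Real.sq_sqrt (integral_nonneg fun _ => sq_nonneg _), ← mul_assoc, ← mul_pow,
    mul_inv_cancel₀ hσ.ne', one_pow, one_mul]
  exact le_of_eq (integral_sub_mean_sq (hf.shift σ x))

theorem gav_sub {f g : Space d → ℝ} {B B' : ℝ} (hf : Bdd f B) (hg : Bdd g B') (σ : ℝ) (x : Space d) :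
    gav σ (fun y => f y - g y) x = gav σ f x - gav σ g x :=
  integral_sub ((hf.shift σ x).integrable _) ((hg.shift σ x).integrable _)

theorem gav_mono {f g : Space d → ℝ} {B B' : ℝ} (hf : Bdd f B) (hg : Bdd g B')
    (hfg : ∀ y, f y ≤ g y) (σ : ℝ) (x : Space d) : gav σ f x ≤ gav σ g x :=
  integral_mono ((hf.shift σ x).integrable _) ((hg.shift σ x).integrable _) fun z => hfg _

/-- One step of the inner chain as an averaging operator. -/
theorem avg_eul (hp : Pot p η) (h0 : 0 < h) (h8 : h ≤ 1 / 8) (v : Space d) :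
    Avg (eulOp p h v) (eulOp p h v) √(2 * h) (qfac η h) where
  pos := by positivity
  c_nonneg := qfac_nonneg hp h8 h0.le
  c_le := qfac_le_one hp h0.le
  bdd := fun hf => (bdd_comp_eul hp hf v).gav _
  bddv := fun hf => (bdd_comp_eul hp hf v).gav _
  smooth := fun hf => (bdd_comp_eul hp hf v).contDiff (by positivity)
  smoothv := fun hf => (bdd_comp_eul hp hf v).contDiff (by positivity)
  sub := fun hf hg x => gav_sub (bdd_comp_eul hp hf v) (bdd_comp_eul hp hg v) _ x
  smul := fun _ r x => by simp only [eulOp, gav, integral_const_mul]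
  mono := fun hf hg hfg x => gav_mono (bdd_comp_eul hp hf v) (bdd_comp_eul hp hg v)
    (fun y => hfg _) _ x
  inner := fun hf e x => inner_gav (bdd_comp_eul hp hf v) _ x e
  var := fun hf x => gradient_gav_sq_le (bdd_comp_eul hp hf v) (by positivity) x
  grad := fun {f L} hf x => by
    rw [(gradient_eulOp hp h0.le h8 hf v).2]
    have hb := hf.bdd_gradient.norm
    have hb' := bdd_comp_eul hp hb v (h := h)
    have hb'' : Bdd (fun y => qfac η h * ‖gradient f (eul p h v y)‖) (qfac η h * L) :=
      ⟨continuous_const.mul hb'.cont, fun y => by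
        rw [norm_mul, Real.norm_of_nonneg (qfac_nonneg hp h8 h0.le)]
        exact mul_le_mul_of_nonneg_left (hb'.bound y) (qfac_nonneg hp h8 h0.le)⟩
    refine (norm_gav_le hb'' (fun y => hp.step_le h0.le h8 y _) _ x).trans (le_of_eq ?_)
    simp only [eulOp, gav, integral_const_mul]

/-! ### The derivative in the starting point and in the centre -/

/-- The derivative of `j` steps in the starting point. -/
def pathW (p : Space d → Space d) (h : ℝ) (f : Space d → ℝ) :
    ℕ → Space d → Space d → Space d
  | 0, x, _ => gradient f x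
  | j + 1, x, v => gav √(2 * h) (fun y => pathW p h f j (eul p h v y) v
      - h • (pathW p h f j (eul p h v y) v + fderiv ℝ p y (pathW p h f j (eul p h v y) v))) x

/-- The derivative of `j` steps in the centre. -/
def pathV (p : Space d → Space d) (h : ℝ) (f : Space d → ℝ) :
    ℕ → Space d → Space d → Space d
  | 0, _, _ => 0
  | j + 1, x, v => gav √(2 * h)
      (fun y => h • pathW p h f j (eul p h v y) v + pathV p h f j (eul p h v y) v) x

theorem norm_gav_le_const {K : Space d → Space d} {B : ℝ} (hB : ∀ y, ‖K y‖ ≤ B) (σ : ℝ)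
    (x : Space d) : ‖gav σ K x‖ ≤ B := by
  have h0 : 0 ≤ B := (norm_nonneg _).trans (hB 0)
  refine (norm_gav_le (g := fun _ => B) (B := B) ⟨continuous_const, fun _ => ?_⟩ hB σ x).trans
    (le_of_eq (by simp [gav]))
  rw [Real.norm_of_nonneg h0]

theorem path_props (hp : Pot p η) (h0 : 0 ≤ h) (h8 : h ≤ 1 / 8) {f : Space d → ℝ} {L : ℝ}
    (hf : Lip1 f L) : ∀ j,
      (Continuous fun z : Space d × Space d => pathW p h f j z.1 z.2) ∧
      (Continuous fun z : Space d × Space d => pathV p h f j z.1 z.2) ∧
      (∀ x v, ‖pathW p h f j x v‖ ≤ L) ∧ ∀ x v, ‖pathV p h f j x v‖ ≤ h * j * L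
  | 0 => ⟨(continuous_gradient hf.smooth).comp continuous_fst, continuous_const,
      fun x _ => hf.bdd_gradient.bound x, fun x v => by simp [pathV]⟩
  | j + 1 => by
    obtain ⟨cW, cV, bW, bV⟩ := path_props hp h0 h8 hf j
    have hu : Continuous fun z : Space d × Space d => pathW p h f j (eul p h z.2 z.1) z.2 :=
      cW.comp ((continuous_eul hp).prodMk continuous_snd)
    have hpc : Continuous fun z : Space d × Space d =>
        fderiv ℝ p z.1 (pathW p h f j (eul p h z.2 z.1) z.2) :=
      ((hp.smooth.continuous_fderiv one_ne_zero).comp continuous_fst).clm_apply hu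
    have hW1 : ∀ x v, ‖pathW p h f j (eul p h v x) v - h • (pathW p h f j (eul p h v x) v
        + fderiv ℝ p x (pathW p h f j (eul p h v x) v))‖ ≤ L := fun x v =>
      (hp.step_le h0 h8 x _).trans ((mul_le_of_le_one_left (norm_nonneg _)
        (qfac_le_one hp h0)).trans (bW _ _))
    have hV1 : ∀ x v, ‖h • pathW p h f j (eul p h v x) v + pathV p h f j (eul p h v x) v‖
        ≤ h * (j + 1 : ℕ) * L := fun x v => by
      refine (norm_add_le _ _).trans ?_
      rw [norm_smul, Real.norm_of_nonneg h0]
      refine (add_le_add (mul_le_mul_of_nonneg_left (bW _ _) h0) (bV _ _)).trans (le_of_eq ?_)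
      push_cast; ring
    refine ⟨?_, ?_, fun x v => ?_, fun x v => ?_⟩
    · exact continuous_gav_param (hu.sub ((hu.add hpc).const_smul h))
        (fun z => hW1 z.1 z.2) √(2 * h)
    · exact continuous_gav_param ((hu.const_smul h).add
        (cV.comp ((continuous_eul hp).prodMk continuous_snd))) (fun z => hV1 z.1 z.2) √(2 * h)
    · exact norm_gav_le_const (fun y => hW1 y v) _ x
    · exact norm_gav_le_const (fun y => hV1 y v) _ x

theorem iter_lip (hp : Pot p η) (h0 : 0 ≤ h) (h8 : h ≤ 1 / 8) {f : Space d → ℝ} {K : ℝ}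
    (hK : 0 ≤ K) (hf : ∀ x y, |f x - f y| ≤ K * ‖x - y‖) : ∀ (j : ℕ) (x y v w : Space d),
    |(eulOp p h v)^[j] f x - (eulOp p h w)^[j] f y|
      ≤ K * (qfac η h ^ j * ‖x - y‖ + h * (∑ i ∈ Finset.range j, qfac η h ^ i) * ‖v - w‖)
  | 0, x, y, v, w => by simpa using hf x y
  | j + 1, x, y, v, w => by
    have ih := iter_lip hp h0 h8 hK hf j
    have hq := qfac_nonneg hp h8 h0
    have hpt : ∀ z : Space d,
        |(eulOp p h v)^[j] f (eul p h v (x + √(2 * h) • z))
          - (eulOp p h w)^[j] f (eul p h w (y + √(2 * h) • z))|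
        ≤ K * (qfac η h ^ (j + 1) * ‖x - y‖
          + h * (∑ i ∈ Finset.range (j + 1), qfac η h ^ i) * ‖v - w‖) := fun z => by
      refine (ih _ _ v w).trans (mul_le_mul_of_nonneg_left ?_ hK)
      have h1 := eul_lip hp h0 h8 (x + √(2 * h) • z) (y + √(2 * h) • z) v w
      rw [add_sub_add_right_eq_sub] at h1
      rw [Finset.sum_range_succ, pow_succ]
      nlinarith [mul_le_mul_of_nonneg_left h1 (pow_nonneg hq j), norm_nonneg (v - w)]
    have hint : ∀ a b : Space d, Integrable
        (fun z => (eulOp p h b)^[j] f (eul p h b (a + √(2 * h) • z))) (stdGaussian (Space d)) := by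
      intro a b
      have hg : ∀ s t : Space d, |(eulOp p h b)^[j] f s - (eulOp p h b)^[j] f t|
          ≤ K * qfac η h ^ j * ‖s - t‖ := fun s t => by simpa [mul_assoc] using ih s t b b
      have hsc : Continuous fun z : Space d => (eulOp p h b)^[j] f (eul p h b (a + √(2 * h) • z)) :=
        (continuous_of_lip (E := Space d) (mul_nonneg hK (pow_nonneg hq j)) hg).comp
          ((continuous_eul_left hp b).comp (by fun_prop))
      refine integrable_of_lip (E := Space d) (L := K * qfac η h ^ j * (qfac η h * √(2 * h)))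
        (fun s t => ?_) hsc
      refine (hg _ _).trans ?_
      rw [mul_assoc (K * qfac η h ^ j) (qfac η h * √(2 * h))]
      refine mul_le_mul_of_nonneg_left ((eul_lip hp h0 h8 _ _ b b).trans (le_of_eq ?_))
        (mul_nonneg hK (pow_nonneg hq j))
      rw [sub_self, norm_zero, mul_zero, add_zero, add_sub_add_left_eq_sub, ← smul_sub, norm_smul,
        Real.norm_of_nonneg (Real.sqrt_nonneg _)]
      ring
    simp only [Function.iterate_succ_apply', eulOp, gav]
    rw [← integral_sub (hint x v) (hint y w)]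
    exact abs_integral_le_integral_abs.trans ((integral_mono_of_nonneg
      (Eventually.of_forall fun _ => abs_nonneg _) (integrable_const _)
      (Eventually.of_forall hpt)).trans (le_of_eq (by simp)))

theorem iter_integrable (hp : Pot p η) (h0 : 0 ≤ h) (h8 : h ≤ 1 / 8) {f : Space d → ℝ} {L : ℝ}
    (hf : Lip1 f L) (j : ℕ) (x v : Space d) : Integrable
      (fun z => (eulOp p h v)^[j] f (eul p h v (x + √(2 * h) • z))) (stdGaussian (Space d)) := by
  have hL : 0 ≤ L := (norm_nonneg _).trans (hf.bound 0)
  have hq := qfac_nonneg hp h8 h0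
  have hg := iter_lip hp h0 h8 hL (fun a b => (Real.norm_eq_abs _).symm.trans_le (hf.lip a b)) j
  have hsc : Continuous fun z : Space d => (eulOp p h v)^[j] f (eul p h v (x + √(2 * h) • z)) :=
    (continuous_of_lip (E := Space d) (mul_nonneg hL (pow_nonneg hq j))
      (fun s t => by simpa [mul_assoc] using hg s t v v)).comp
      ((continuous_eul_left hp v).comp (by fun_prop))
  refine integrable_of_lip (E := Space d) (L := L * qfac η h ^ j * (qfac η h * √(2 * h)))
    (fun s t => ?_) hsc
  refine (iter_lip hp h0 h8 hL (fun a b => (Real.norm_eq_abs _).symm.trans_le (hf.lip a b)) j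
    _ _ v v).trans ?_
  rw [sub_self, norm_zero, mul_zero, add_zero, ← mul_assoc, mul_assoc (L * qfac η h ^ j)]
  refine mul_le_mul_of_nonneg_left ((eul_lip hp h0 h8 _ _ v v).trans (le_of_eq ?_))
    (mul_nonneg hL (pow_nonneg hq j))
  rw [sub_self, norm_zero, mul_zero, add_zero, add_sub_add_left_eq_sub, ← smul_sub, norm_smul,
    Real.norm_of_nonneg (Real.sqrt_nonneg _)]
  ring

theorem hasFDerivAt_iter (hp : Pot p η) (h0 : 0 ≤ h) (h8 : h ≤ 1 / 8) {f : Space d → ℝ} {L : ℝ}
    (hf : Lip1 f L) : ∀ (j : ℕ) (z : Space d × Space d),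
    HasFDerivAt (fun z : Space d × Space d => (eulOp p h z.2)^[j] f z.1)
      ((innerSL ℝ (pathW p h f j z.1 z.2)).comp (ContinuousLinearMap.fst ℝ _ _)
        + (innerSL ℝ (pathV p h f j z.1 z.2)).comp (ContinuousLinearMap.snd ℝ _ _)) z
  | 0, z => by
    refine (((hf.smooth.differentiable one_ne_zero) z.1).hasFDerivAt.comp z
      hasFDerivAt_fst).congr_fderiv ?_
    ext a
    · simp [pathW, pathV, gradient, InnerProductSpace.toDual_symm_apply]
    · simp [pathW, pathV]
  | j + 1, z₀ => by
    have ih := hasFDerivAt_iter hp h0 h8 hf j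
    obtain ⟨cW, cV, bW, bV⟩ := path_props hp h0 h8 hf j
    set σ := √(2 * h)
    set u : Space d × Space d → Space d → Space d := fun z s =>
      pathW p h f j (eul p h z.2 (z.1 + σ • s)) z.2 with hu
    set vv : Space d × Space d → Space d → Space d := fun z s =>
      pathV p h f j (eul p h z.2 (z.1 + σ • s)) z.2 with hvv
    set WW : Space d × Space d → Space d → Space d := fun z s =>
      u z s - h • (u z s + fderiv ℝ p (z.1 + σ • s) (u z s)) with hWW
    set VV : Space d × Space d → Space d → Space d := fun z s => h • u z s + vv z s with hVV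
    set F' : Space d × Space d → Space d → (Space d × Space d →L[ℝ] ℝ) := fun z s =>
      (innerSL ℝ (WW z s)).comp (ContinuousLinearMap.fst ℝ _ _)
        + (innerSL ℝ (VV z s)).comp (ContinuousLinearMap.snd ℝ _ _) with hF'
    have hder : ∀ (s : Space d) (z : Space d × Space d), HasFDerivAt
        (fun z : Space d × Space d => (eulOp p h z.2)^[j] f (eul p h z.2 (z.1 + σ • s)))
        (F' z s) z := by
      intro s z
      have hin : HasFDerivAt (fun z : Space d × Space d => (z.1 + σ • s, z.2))
          (ContinuousLinearMap.id ℝ (Space d × Space d)) z := by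
        simpa [ContinuousLinearMap.fst_prod_snd] using
          (hasFDerivAt_fst.add_const (σ • s)).prodMk (hasFDerivAt_snd (𝕜 := ℝ) (p := z))
      have h1 := ((hasFDerivAt_eul (h := h) hp (z.1 + σ • s, z.2)).comp z hin).prodMk
        (hasFDerivAt_snd (𝕜 := ℝ) (p := z))
      refine ((ih _).comp z h1).congr_fderiv ?_
      ext a
      · simp [hF', hWW, hu, hVV, inner_sub_left, inner_add_left, real_inner_smul_left,
          inner_sub_right, inner_add_right, real_inner_smul_right, hp.symm (z.1 + σ • s)]
        try ring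
      · simp [hF', hWW, hu, hVV, hvv, inner_add_left, real_inner_smul_left, real_inner_smul_right]
        try ring
    have hbd : ∀ z s, ‖F' z s‖ ≤ L + h * (j + 1) * L := fun z s => by
      have hu1 : ‖u z s‖ ≤ L := bW _ _
      have hW1 : ‖WW z s‖ ≤ L := (hp.step_le h0 h8 _ _).trans
        ((mul_le_of_le_one_left (norm_nonneg _) (qfac_le_one hp h0)).trans hu1)
      have hV1 : ‖VV z s‖ ≤ h * (j + 1) * L := by
        refine (norm_add_le _ _).trans ?_
        rw [norm_smul, Real.norm_of_nonneg h0]
        refine (add_le_add (mul_le_mul_of_nonneg_left hu1 h0) (bV _ _)).trans (le_of_eq ?_)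
        ring
      refine (norm_add_le _ _).trans (add_le_add ?_ ?_)
      · refine (ContinuousLinearMap.opNorm_comp_le _ _).trans ?_
        rw [innerSL_apply_norm]
        exact (mul_le_of_le_one_right (norm_nonneg _) (ContinuousLinearMap.norm_fst_le _ _ _)).trans hW1
      · refine (ContinuousLinearMap.opNorm_comp_le _ _).trans ?_
        rw [innerSL_apply_norm]
        exact (mul_le_of_le_one_right (norm_nonneg _) (ContinuousLinearMap.norm_snd_le _ _ _)).trans hV1
    have hcW : Continuous (WW z₀) := by
      have h1 : Continuous (u z₀) :=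
        cW.comp (((continuous_eul_left hp z₀.2).comp (by fun_prop)).prodMk continuous_const)
      exact h1.sub ((h1.add (((hp.smooth.continuous_fderiv one_ne_zero).comp
        (by fun_prop)).clm_apply h1)).const_smul h)
    have hcV : Continuous (VV z₀) :=
      (((cW.comp (((continuous_eul_left hp z₀.2).comp (by fun_prop)).prodMk continuous_const))).const_smul h).add
        (cV.comp (((continuous_eul_left hp z₀.2).comp (by fun_prop)).prodMk continuous_const))
    have hcF : Continuous (F' z₀) :=
      (((innerSL ℝ).continuous.comp hcW).clm_comp continuous_const).add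
        (((innerSL ℝ).continuous.comp hcV).clm_comp continuous_const)
    have hmain := hasFDerivAt_integral_of_dominated_of_fderiv_le (μ := stdGaussian (Space d))
      (F := fun z s => (eulOp p h z.2)^[j] f (eul p h z.2 (z.1 + σ • s))) (F' := F') (x₀ := z₀)
      (bound := fun _ => L + h * (j + 1) * L) Filter.univ_mem
      (Eventually.of_forall fun z => (iter_integrable hp h0 h8 hf j z.1 z.2).aestronglyMeasurable)
      (iter_integrable hp h0 h8 hf j z₀.1 z₀.2) hcF.aestronglyMeasurable
      (Eventually.of_forall fun s z _ => hbd z s) (integrable_const _)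
      (Eventually.of_forall fun s z _ => hder s z)
    have hiF : Integrable (F' z₀) (stdGaussian (Space d)) :=
      Integrable.of_bound hcF.aestronglyMeasurable _ (Eventually.of_forall (hbd z₀))
    have hiW : Integrable (WW z₀) (stdGaussian (Space d)) :=
      Integrable.of_bound hcW.aestronglyMeasurable L (Eventually.of_forall fun s =>
        (hp.step_le h0 h8 _ _).trans ((mul_le_of_le_one_left (norm_nonneg _)
          (qfac_le_one hp h0)).trans (bW _ _)))
    have hiV : Integrable (VV z₀) (stdGaussian (Space d)) :=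
      Integrable.of_bound hcV.aestronglyMeasurable (h * (j + 1) * L) (Eventually.of_forall fun s => by
        refine (norm_add_le _ _).trans ?_
        rw [norm_smul, Real.norm_of_nonneg h0]
        refine (add_le_add (mul_le_mul_of_nonneg_left (bW _ _) h0) (bV _ _)).trans (le_of_eq ?_)
        ring)
    simp only [Function.iterate_succ_apply']
    refine hmain.congr_fderiv ?_
    have eW : pathW p h f (j + 1) z₀.1 z₀.2 = ∫ s, WW z₀ s ∂stdGaussian (Space d) := rfl
    have eV : pathV p h f (j + 1) z₀.1 z₀.2 = ∫ s, VV z₀ s ∂stdGaussian (Space d) := rfl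
    have eI : ∀ {G : Space d → Space d}, Integrable G (stdGaussian (Space d)) → ∀ a : Space d,
        ∫ s, ⟪G s, a⟫ ∂stdGaussian (Space d) = ⟪∫ s, G s ∂stdGaussian (Space d), a⟫ := by
      intro G hG a
      simp only [real_inner_comm a]
      exact integral_inner hG a
    rw [eW, eV]
    refine ContinuousLinearMap.ext fun a => ?_
    rw [ContinuousLinearMap.integral_apply hiF]
    simp only [hF', add_apply, ContinuousLinearMap.coe_comp', Function.comp_apply,
      innerSL_apply_apply, ContinuousLinearMap.coe_fst', ContinuousLinearMap.coe_snd']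
    rw [integral_add (hiW.inner_const a.1) (hiV.inner_const a.2), eI hiW, eI hiV]

/-- The derivative of the inner average in the centre. -/
theorem gradient_piJ (hp : Pot p η) (h0 : 0 ≤ h) (h8 : h ≤ 1 / 8) {f : Space d → ℝ} {L : ℝ}
    (hf : Lip1 f L) (J : ℕ) :
    ContDiff ℝ 1 (piJ p h J f) ∧
      ∀ v, gradient (piJ p h J f) v = pathW p h f J v v + pathV p h f J v v := by
  have hd : ∀ v, HasFDerivAt (piJ p h J f)
      (innerSL ℝ (pathW p h f J v v + pathV p h f J v v)) v := by
    intro v
    have h1 := (hasFDerivAt_iter hp h0 h8 hf J (v, v)).comp (f := fun v : Space d => (v, v)) v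
      ((hasFDerivAt_id v).prodMk (hasFDerivAt_id v))
    refine h1.congr_fderiv ?_
    ext a
    simp
  obtain ⟨cW, cV, -, -⟩ := path_props hp h0 h8 hf J
  have hc : Continuous fun v => pathW p h f J v v + pathV p h f J v v :=
    (cW.comp (continuous_id.prodMk continuous_id)).add (cV.comp (continuous_id.prodMk continuous_id))
  refine ⟨contDiff_one_iff_fderiv.2 ⟨fun v => (hd v).differentiableAt, ?_⟩, fun v => ?_⟩
  · rw [funext fun v => (hd v).fderiv]
    exact (innerSL ℝ).continuous.comp hc
  · rw [gradient, (hd v).fderiv]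
    exact ext_inner_right ℝ fun a => by simp [inner_add_left, InnerProductSpace.toDual_symm_apply]

theorem path_bounds (hp : Pot p η) (h0 : 0 < h) (h8 : h ≤ 1 / 8) {f : Space d → ℝ} {L : ℝ}
    (hf : Lip1 f L) : ∀ (j : ℕ) (x v : Space d),
    ‖pathW p h f j x v‖ ≤ qfac η h ^ j * (eulOp p h v)^[j] (fun y => ‖gradient f y‖) x ∧
    ‖pathV p h f j x v‖ ≤ h * (∑ i ∈ Finset.range j, qfac η h ^ i)
        * (eulOp p h v)^[j] (fun y => ‖gradient f y‖) x ∧
    ‖pathW p h f j x v + pathV p h f j x v - (eulOp p h v)^[j] (gradient f) x‖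
      ≤ 2 * η * (h * ∑ i ∈ Finset.range j, qfac η h ^ i)
        * (eulOp p h v)^[j] (fun y => ‖gradient f y‖) x
  | 0, x, v => by simp [pathW, pathV]
  | j + 1, x, v => by
    have ih := fun y => path_bounds hp h0 h8 hf j (eul p h v y) v
    obtain ⟨cW, cV, bW, bV⟩ := path_props hp h0.le h8 hf j
    set σ := √(2 * h)
    set q := qfac η h
    set S := ∑ i ∈ Finset.range j, q ^ i
    have hq : 0 ≤ q := qfac_nonneg hp h8 h0.le
    have hS0 : 0 ≤ S := Finset.sum_nonneg fun i _ => pow_nonneg hq i
    set N := (eulOp p h v)^[j] (fun y => ‖gradient f y‖)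
    set G := (eulOp p h v)^[j] (gradient f)
    have hbN : Bdd N L := (avg_eul hp h0 h8 v).bdd_iter hf.bdd_gradient.norm j
    have hbG : Bdd G L := (avg_eul hp h0 h8 v).bddv_iter hf.bdd_gradient j
    have hNs : ∀ r : ℝ, 0 ≤ r → Bdd (fun y => r * N (eul p h v y)) (r * L) := fun r hr =>
      ⟨continuous_const.mul (bdd_comp_eul hp hbN v).cont, fun y => by
        rw [norm_mul, Real.norm_of_nonneg hr]; exact mul_le_mul_of_nonneg_left (hbN.bound _) hr⟩
    have hN1 : ∀ r : ℝ, gav σ (fun y => r * N (eul p h v y)) x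
        = r * (eulOp p h v)^[j + 1] (fun y => ‖gradient f y‖) x := fun r => by
      rw [Function.iterate_succ_apply', eulOp, gav, gav, integral_const_mul]
    set u := fun y => pathW p h f j (eul p h v y) v with hu
    set vv := fun y => pathV p h f j (eul p h v y) v with hvv
    have hsum : ∑ i ∈ Finset.range (j + 1), q ^ i = S + q ^ j := Finset.sum_range_succ _ _
    refine ⟨?_, ?_, ?_⟩
    · rw [← hN1]
      refine norm_gav_le (hNs _ (pow_nonneg hq _)) (fun y => ?_) σ x
      refine (hp.step_le h0.le h8 y _).trans ?_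
      rw [pow_succ', mul_assoc]
      exact mul_le_mul_of_nonneg_left (ih y).1 hq
    · rw [← hN1, hsum]
      refine norm_gav_le (hNs _ (by positivity)) (fun y => ?_) σ x
      refine (norm_add_le _ _).trans ?_
      rw [norm_smul, Real.norm_of_nonneg h0.le]
      refine (add_le_add (mul_le_mul_of_nonneg_left (ih y).1 h0.le) (ih y).2.1).trans (le_of_eq ?_)
      ring
    · have cu : Continuous u :=
        cW.comp ((continuous_eul_left hp v).prodMk continuous_const)
      have cv : Continuous vv :=
        cV.comp ((continuous_eul_left hp v).prodMk continuous_const)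
      have b1 : Bdd (fun y => u y - h • (u y + fderiv ℝ p y (u y))) L :=
        ⟨cu.sub ((cu.add ((hp.smooth.continuous_fderiv one_ne_zero).clm_apply cu)).const_smul h),
          fun y => (hp.step_le h0.le h8 y _).trans ((mul_le_of_le_one_left (norm_nonneg _)
            (qfac_le_one hp h0.le)).trans (bW _ _))⟩
      have b2 : Bdd (fun y => h • u y + vv y) (h * (j + 1) * L) :=
        ⟨(cu.const_smul h).add cv, fun y => by
          refine (norm_add_le _ _).trans ?_
          rw [norm_smul, Real.norm_of_nonneg h0.le]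
          refine (add_le_add (mul_le_mul_of_nonneg_left (bW _ _) h0.le) (bV _ _)).trans (le_of_eq ?_)
          ring⟩
      have b3 := bdd_comp_eul hp hbG v (h := h)
      have e : pathW p h f (j + 1) x v + pathV p h f (j + 1) x v
            - (eulOp p h v)^[j + 1] (gradient f) x
          = gav σ (fun y => (u y + vv y - G (eul p h v y)) - h • fderiv ℝ p y (u y)) x := by
        rw [Function.iterate_succ_apply', pathW, pathV, eulOp]
        simp only [gav]
        have i1 := (b1.shift σ x).integrable (stdGaussian (Space d))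
        have i2 := (b2.shift σ x).integrable (stdGaussian (Space d))
        have i3 := (b3.shift σ x).integrable (stdGaussian (Space d))
        rw [← integral_add i1 i2, ← integral_sub (i1.fun_add i2) i3]
        refine integral_congr_ae (Eventually.of_forall fun s => ?_)
        simp only [hu, hvv]
        module
      rw [e, ← hN1, hsum]
      refine norm_gav_le (hNs _ (mul_nonneg (mul_nonneg (by norm_num) hp.pos.le)
        (by positivity))) (fun y => ?_) σ x
      refine (norm_sub_le _ _).trans ?_
      rw [norm_smul, Real.norm_of_nonneg h0.le]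
      refine (add_le_add (ih y).2.2 (mul_le_mul_of_nonneg_left ((hp.hess_le y _).trans
        (mul_le_mul_of_nonneg_left (ih y).1 (by linarith [hp.pos]))) h0.le)).trans (le_of_eq ?_)
      ring

end

end P347.Quarter
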