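import Vale.Agent.P347.Quarter.Units

/-!
# P347: one step of the sampler against one step of the exact chain, and their repetition
-/

namespace P347.Quarter

open MeasureTheory ProbabilityTheory Filter Topology Finset
open scoped RealInnerProductSpace

noncomputable section

variable {d M : ℕ}

/-- The analytic pieces with one constant. -/
structure Kit (C : ℝ) : Prop where
  one_le : 1 ≤ C
  gav_test : ∀ (d : ℕ) (f : Space d → ℝ), Continuous f → (∀ x, f x ∈ Set.Icc (0 : ℝ) 1) →
    ∀ s : ℝ, 0 < s → Test2 (gav s f) (C / s) (C / s ^ 2)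
  piJ_cont : ∀ (d : ℕ) (p : Space d → Space d), Continuous p → ∀ f : Space d → ℝ, Continuous f →
    (∀ x, f x ∈ Set.Icc (0 : ℝ) 1) → ∀ (h : ℝ) (J : ℕ),
      Continuous (piJ p h J f) ∧ ∀ v, piJ p h J f v ∈ Set.Icc (0 : ℝ) 1
  smooth : ∀ (d : ℕ) (p : Space d → Space d) (η h : ℝ) (J : ℕ), Pot p η → Fine h J →
    ∀ f : Space d → ℝ, Continuous f → (∀ x, f x ∈ Set.Icc (0 : ℝ) 1) → ∀ k : ℕ, 1 ≤ k →
      Test2 ((qop p h J)^[k] f) (C / √k) (C * (1 / k + η)) ∧
        ∀ x, (qop p h J)^[k] f x ∈ Set.Icc (0 : ℝ) 1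
  contract : ∀ (d : ℕ) (p : Space d → Space d) (η h : ℝ) (J : ℕ), Pot p η → Fine h J →
    ∀ (f : Space d → ℝ) (K : ℝ), (∀ x y, |f x - f y| ≤ K * ‖x - y‖) → ∀ (k : ℕ) (x y : Space d),
      |(qop p h J)^[k] f x - (qop p h J)^[k] f y| ≤ (1 + η / 2)⁻¹ ^ k * (K * ‖x - y‖)
  inv : ∀ (d : ℕ) (U : Space d → ℝ) (η h : ℝ) (J : ℕ), ContDiff ℝ 2 U →
    Pot (gradient U) η → Fine h J → ∀ (u : Space d → ℝ) (α β : ℝ), 0 ≤ α → 0 ≤ β →
    Test2 u α β → ∀ v : Space d,
      |(∫ x, u x * Real.exp (-(U x + ‖x - v‖ ^ 2 / 2))) / (∫ x, Real.exp (-(U x + ‖x - v‖ ^ 2 / 2)))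
          - piJ (gradient U) h J u v|
        ≤ C * chainErr d h J ‖v‖ * (α + β)
  step : ∀ (d M : ℕ) (R : Rule M) (δ t0 : ℝ), R.Good δ t0 →
    ∀ (p : Space d → Space d) (η h : ℝ) (J : ℕ), Pot p η → Fine h J →
    ∀ (v c : Space d) (ρ : ℝ), ‖cgrad p c v 0‖ ≤ ρ →
    ∀ (u : Space d → ℝ) (α β : ℝ), 0 ≤ α → 0 ≤ β → Test2 u α β →
      |(∫ z, ∫ W, u (c + s2 R (cgrad p c v) z W) ∂stdGaussian (Seeds d M)
          ∂stdGaussian (Space d)) - piJ p h J u v|
        ≤ C * (η ^ 3 * √d * α + η ^ 2 * √d * (β + η * α)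
          + (ρ + η * √d + 1) * (δ + √t0) * √d * α + (ρ + η * ρ * √d) * (α + β)
          + chainErr d h J (‖v‖ + ‖c‖ + ρ) * (α + β))

theorem Test2.lip {u : Space d → ℝ} {α β : ℝ} (hu : Test2 u α β) (x y : Space d) :
    |u x - u y| ≤ α * ‖x - y‖ := by
  have := Convex.norm_image_sub_le_of_norm_fderiv_le (f := u) (C := α) (s := Set.univ)
    (fun z _ => hu.smooth.differentiable (by norm_num) z) (fun z _ => ?_) convex_univ
    (Set.mem_univ y) (Set.mem_univ x)
  · simpa using this
  · have h := hu.grad z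
    rwa [gradient, LinearIsometryEquiv.norm_map] at h

theorem test_of_mem {u : Space d → ℝ} (hc : Continuous u) (h : ∀ x, u x ∈ Set.Icc (0 : ℝ) 1) :
    Test u := ⟨hc.measurable, fun x => (h x).1, fun x => (h x).2⟩

theorem continuous_gav_test {f : Space d → ℝ} (hf : Continuous f) (hT : Test f) (s : ℝ) :
    Continuous (gav s f) :=
  continuous_of_dominated (F := fun x z => f (x + s • z)) (bound := fun _ => 1)
    (fun _ => (hf.comp (by fun_prop)).aestronglyMeasurable)
    (fun _ => Eventually.of_forall fun _ => hT.norm_le _) (integrable_const 1)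
    (Eventually.of_forall fun _ => hf.comp (by fun_prop))

theorem gav_mem {f : Space d → ℝ} (hf : Continuous f) (hT : Test f) (s : ℝ) (x : Space d) :
    gav s f x ∈ Set.Icc (0 : ℝ) 1 := by
  have h : Test fun z : Space d => f (x + s • z) :=
    ⟨(hf.comp (by fun_prop)).measurable, fun _ => hT.nonneg _, fun _ => hT.le_one _⟩
  exact h.integral_mem _

theorem test_gav {f : Space d → ℝ} (hf : Continuous f) (hT : Test f) (s : ℝ) : Test (gav s f) :=
  test_of_mem (continuous_gav_test hf hT s) (gav_mem hf hT s)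

theorem Test2.cont {u : Space d → ℝ} {α β : ℝ} (hu : Test2 u α β) : Continuous u :=
  hu.smooth.continuous

/-! ## The inner map -/

/-- The inner map on functions. -/
def innerMean (R : Rule M) (p : Space d → Space d) (G : ℕ) (u : Space d → ℝ) (v : Space d) : ℝ :=
  ∫ z, ∫ W, u (innerOut R p G v z W) ∂stdGaussian (Seeds d M) ∂stdGaussian (Space d)

theorem continuous_centre {p : Space d → Space d} (hp : Continuous p) :
    ∀ i, Continuous fun v => centre p v i
  | 0 => continuous_const
  | i + 1 => continuous_id.sub (hp.comp (continuous_centre hp i))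

theorem continuous_innerOut (R : Rule M) {p : Space d → Space d} (hp : Continuous p) (G : ℕ) :
    Continuous fun a : Space d × Space d × Seeds d M => innerOut R p G a.1 a.2.1 a.2.2 := by
  have hc := continuous_centre hp G
  have hs : ∀ q r, Continuous fun W : Seeds d M => slot W q r := fun q r => by unfold slot; fun_prop
  have hx : ∀ q, Continuous fun a : Space d × Space d × Seeds d M =>
      R.th q • a.2.1 + R.sd q • slot a.2.2 q none := fun q =>
    (continuous_snd.fst.const_smul (R.th q)).add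
      (((hs q none).comp continuous_snd.snd).const_smul (R.sd q))
  have hv : Continuous fun a : Space d × Space d × Seeds d M => a.1 := continuous_fst
  have hg : ∀ {X : (Space d × Space d × Seeds d M) → Space d}, Continuous X →
      Continuous fun a => cgrad p (centre p a.1 G) a.1 (X a) := fun {X} hX =>
    ((hp.comp ((hc.comp hv).add hX)).add (hc.comp hv)).sub hv
  have h1 : ∀ q, Continuous fun a : Space d × Space d × Seeds d M =>
      hq R (cgrad p (centre p a.1 G) a.1) a.2.1 a.2.2 q := fun q =>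
    hg ((hx q).sub (continuous_finsetSum _ fun r _ =>
      (hg (((hx q).const_smul (R.th r)).add
        (((hs q (some r)).comp continuous_snd.snd).const_smul (R.sd r)))).const_smul (R.weight r)))
  exact (hc.comp hv).add (continuous_snd.fst.sub (continuous_finsetSum _ fun q _ =>
    (h1 q).const_smul (R.weight q)))

theorem test_innerMean (R : Rule M) {p : Space d → Space d} (hp : Continuous p) (G : ℕ)
    {u : Space d → ℝ} (hu : Continuous u) (hT : Test u) :
    Continuous (innerMean R p G u) ∧ Test (innerMean R p G u) := by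
  have h := continuous_innerOut R hp G
  have hi1 : ∀ a : Space d × Space d, Continuous fun W : Seeds d M => (a.1, a.2, W) := fun a => by
    fun_prop
  have hi2 : ∀ W : Seeds d M, Continuous fun a : Space d × Space d => (a.1, a.2, W) := fun W => by
    fun_prop
  have h1 : Continuous fun a : Space d × Space d =>
      ∫ W, u (innerOut R p G a.1 a.2 W) ∂stdGaussian (Seeds d M) :=
    continuous_of_dominated (F := fun (a : Space d × Space d) W => u (innerOut R p G a.1 a.2 W))
      (bound := fun _ => 1)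
      (fun a => ((hu.comp h).comp (hi1 a)).aestronglyMeasurable)
      (fun _ => Eventually.of_forall fun _ => hT.norm_le _) (integrable_const 1)
      (Eventually.of_forall fun W => (hu.comp h).comp (hi2 W))
  have hW : ∀ a : Space d × Space d, Test fun W => u (innerOut R p G a.1 a.2 W) := fun a =>
    ⟨((hu.comp h).comp (hi1 a)).measurable, fun _ => hT.nonneg _, fun _ => hT.le_one _⟩
  have hz : ∀ v, Test fun z => ∫ W, u (innerOut R p G v z W) ∂stdGaussian (Seeds d M) := fun v =>
    ⟨(h1.comp (by fun_prop : Continuous fun z : Space d => (v, z))).measurable,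
      fun z => ((hW (v, z)).integral_mem _).1, fun z => ((hW (v, z)).integral_mem _).2⟩
  have hc : Continuous (innerMean R p G u) :=
    continuous_of_dominated
      (F := fun v z => ∫ W, u (innerOut R p G v z W) ∂stdGaussian (Seeds d M)) (bound := fun _ => 1)
      (fun v => (hz v).meas.aestronglyMeasurable)
      (fun v => Eventually.of_forall fun _ => (hz v).norm_le _) (integrable_const 1)
      (Eventually.of_forall fun z => h1.comp (by fun_prop : Continuous fun v : Space d => (v, z)))
  exact ⟨hc, test_of_mem hc fun v => (hz v).integral_mem _⟩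

theorem Pot.lip {p : Space d → Space d} {η : ℝ} (hp : Pot p η) (x y : Space d) :
    ‖p x - p y‖ ≤ 2 * η * ‖x - y‖ := by
  refine Convex.norm_image_sub_le_of_norm_fderiv_le (s := Set.univ)
    (fun z _ => hp.smooth.differentiable (by norm_num) z) (fun z _ => ?_) convex_univ
    (Set.mem_univ y) (Set.mem_univ x)
  set P := η⁻¹ • fderiv ℝ p z
  have hP : ∀ a, ⟪P a, a⟫ = η⁻¹ * ⟪fderiv ℝ p z a, a⟫ := fun a => by
    simp [P, real_inner_smul_left]
  have hη := hp.pos
  refine ContinuousLinearMap.opNorm_le_bound _ (by linarith) fun w => ?_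
  have h := symmetric_norm_le P (fun a b => by
    simp [P, real_inner_smul_left, real_inner_smul_right, hp.symm z a b]) (fun a => ?_) w
  · rw [show fderiv ℝ p z w = η • P w by simp [P, smul_smul, hη.ne'], norm_smul,
      Real.norm_eq_abs, abs_of_pos hη]
    linarith [mul_le_mul_of_nonneg_left h hη.le]
  · rw [hP]
    refine ⟨mul_nonneg (by positivity) ((by positivity : 0 ≤ η * ‖a‖ ^ 2).trans (hp.lower z a)),
      ?_⟩
    rw [inv_mul_le_iff₀ hη]
    linarith [hp.upper z a]

theorem centre_bounds {p : Space d → Space d} {η : ℝ} (hp : Pot p η) (v : Space d) :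
    ∀ i, ‖cgrad p (centre p v i) v 0‖ ≤ (1 / 4) ^ i * ‖v‖ ∧
      ‖centre p v i‖ ≤ (1 + (1 / 4) ^ i) * ‖v‖ := by
  have he : ∀ i, cgrad p (centre p v i) v 0 = p (centre p v i) + centre p v i - v := fun i => by
    simp [cgrad]
  have hres : ∀ i, ‖cgrad p (centre p v i) v 0‖ ≤ (1 / 4) ^ i * ‖v‖ := fun i => by
    induction i with
    | zero => simp [cgrad, centre, hp.zero]
    | succ i ih =>
      have e : cgrad p (centre p v (i + 1)) v 0
          = p (centre p v (i + 1)) - p (centre p v i) := by
        rw [he, centre]; module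
      have e2 : centre p v (i + 1) - centre p v i = -cgrad p (centre p v i) v 0 := by
        rw [he, centre]; module
      rw [e]
      refine (hp.lip _ _).trans ?_
      rw [e2, norm_neg]
      calc 2 * η * ‖cgrad p (centre p v i) v 0‖
          ≤ 1 / 4 * ((1 / 4) ^ i * ‖v‖) :=
            mul_le_mul (by linarith [hp.small]) ih (norm_nonneg _) (by norm_num)
        _ = _ := by ring
  refine fun i => ⟨hres i, ?_⟩
  set c := centre p v i
  have h1 : 0 ≤ ⟪p c, c⟫ := by
    obtain ⟨z, hz⟩ : ∃ z, ⟪p c, c⟫ = ⟪fderiv ℝ p z c, c⟫ := by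
      have hl : ∀ t : ℝ, HasDerivAt (fun s : ℝ => ⟪p (s • c), c⟫)
          ⟪fderiv ℝ p (t • c) c, c⟫ t := fun t => by
        have g0 : HasDerivAt (fun s : ℝ => s • c) c t := by
          simpa only [one_smul, id_eq] using (hasDerivAt_id t).smul_const c
        have g1 : HasDerivAt (fun s : ℝ => p (s • c)) (fderiv ℝ p (t • c) c) t :=
          HasFDerivAt.comp_hasDerivAt (l := p) (f := fun s : ℝ => s • c) t
            (hp.smooth.differentiable (by norm_num) _).hasFDerivAt g0
        simpa using g1.inner ℝ (hasDerivAt_const t c)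
      obtain ⟨t, -, ht⟩ := exists_hasDerivAt_eq_slope (f := fun s : ℝ => ⟪p (s • c), c⟫)
        (f' := fun t => ⟪fderiv ℝ p (t • c) c, c⟫) (a := 0) (b := 1) one_pos
        (fun t _ => (hl t).continuousAt.continuousWithinAt) fun t _ => hl t
      refine ⟨t • c, ?_⟩
      simpa [hp.zero] using ht.symm
    rw [hz]
    exact le_trans (by have := hp.pos; positivity) (hp.lower z c)
  have h2 : ‖c‖ ^ 2 ≤ ⟪c, v + cgrad p c v 0⟫ := by
    rw [show v + cgrad p c v 0 = p c + c by rw [he]; abel, inner_add_right,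
      real_inner_self_eq_norm_sq, real_inner_comm]
    linarith
  have h3 := real_inner_le_norm c (v + cgrad p c v 0)
  have h4 := norm_add_le v (cgrad p c v 0)
  have h5 := hres i
  rcases (norm_nonneg c).eq_or_lt with h | h
  · rw [← h]; positivity
  · refine le_of_mul_le_mul_left ?_ h
    rw [← sq]
    refine h2.trans (h3.trans (mul_le_mul_of_nonneg_left ?_ h.le))
    linarith

theorem norm_slot_le (W : Seeds d M) (q : Fin M) (r : Option (Fin M)) : ‖slot W q r‖ ≤ ‖W‖ := by
  rw [EuclideanSpace.norm_eq, EuclideanSpace.norm_eq]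
  refine Real.sqrt_le_sqrt ?_
  calc ∑ i, ‖slot W q r i‖ ^ 2
      = ∑ x ∈ Finset.univ.map ⟨fun i : Fin d => (q, r, i), fun a b h => by simpa using h⟩,
          ‖W x‖ ^ 2 := by rw [Finset.sum_map]; simp [slot]; rfl
    _ ≤ _ := Finset.sum_le_sum_of_subset_of_nonneg (Finset.subset_univ _) fun _ _ _ => by positivity

/-- How much farther one step of the inner map can go. -/
theorem innerOut_le {R : Rule M} {δ t0 : ℝ} (hR : R.Good δ t0) {p : Space d → Space d} {η : ℝ}
    (hp : Pot p η) (G : ℕ) (v z : Space d) (W : Seeds d M) :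
    ‖innerOut R p G v z W‖ ≤ (1 + 5 * (1 / 4) ^ G) * ‖v‖ + (3 * ‖z‖ + 2 * ‖W‖) := by
  obtain ⟨he, hc⟩ := centre_bounds hp v G
  set c := centre p v G
  set ε := ‖cgrad p c v 0‖
  have hg : ∀ x, ‖cgrad p c v x‖ ≤ ε + ‖x‖ / 4 := fun x => by
    have h1 := norm_add_le (cgrad p c v x - cgrad p c v 0) (cgrad p c v 0)
    rw [sub_add_cancel] at h1
    have h2 := hp.lip (c + x) (c + 0)
    simp only [cgrad, add_sub_add_left_eq_sub, sub_zero] at h1 h2 ⊢
    rw [show p (c + x) + c - v - (p (c + 0) + c - v) = p (c + x) - p (c + 0) by module] at h1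
    have := mul_le_mul_of_nonneg_right (show 2 * η ≤ 1 / 4 by linarith [hp.small]) (norm_nonneg x)
    simp only [ε, cgrad]
    linarith
  have hnode : ∀ (q : Fin M) (x u : Space d), ‖R.th q • x + R.sd q • u‖ ≤ ‖x‖ + ‖u‖ := fun q x u => by
    refine (norm_add_le _ _).trans (add_le_add ?_ ?_)
    · rw [norm_smul]
      refine mul_le_of_le_one_left (norm_nonneg _) ?_
      rw [Real.norm_eq_abs, Rule.th, abs_of_pos (Real.exp_pos _)]
      exact Real.exp_le_one_iff.2 (by linarith [hR.le_time q, hR.t0_pos])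
    · rw [norm_smul]
      refine mul_le_of_le_one_left (norm_nonneg _) ?_
      rw [Real.norm_eq_abs, Rule.sd, abs_of_nonneg (Real.sqrt_nonneg _)]
      exact Real.sqrt_le_one.2 (by linarith [sq_nonneg (R.th q)])
  have hsum : ∀ (f : Fin M → Space d) (B : ℝ), 0 ≤ B → (∀ q, ‖f q‖ ≤ B) →
      ‖∑ q, R.weight q • f q‖ ≤ 2 * B := fun f B hB hf => by
    refine (norm_sum_le _ _).trans ((Finset.sum_le_sum fun q _ => ?_).trans
      ((Finset.sum_mul _ _ _).symm.le.trans (mul_le_mul_of_nonneg_right hR.sum_weight hB)))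
    rw [norm_smul, Real.norm_eq_abs, abs_of_nonneg (hR.nonneg q)]
    exact mul_le_mul_of_nonneg_left (hf q) (hR.nonneg q)
  have hs1 : ∀ (x : Space d) (q : Fin M), ‖x‖ ≤ ‖z‖ + ‖W‖ →
      ‖s1 R (cgrad p c v) x (fun r => slot W q (some r))‖
        ≤ 2 * ε + 2 * ‖z‖ + 3 * ‖W‖ := fun x q hx => by
    refine (norm_sub_le _ _).trans ?_
    have := hsum (fun r => cgrad p c v (R.th r • x + R.sd r • slot W q (some r)))
      (ε + (‖x‖ + ‖W‖) / 4) (by positivity) fun r => (hg _).trans (by
        have := hnode r x (slot W q (some r))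
        have := norm_slot_le W q (some r)
        linarith)
    linarith [norm_nonneg z, norm_nonneg W]
  have hH : ∀ q, ‖hq R (cgrad p c v) z W q‖ ≤ 2 * ε + ‖z‖ + ‖W‖ := fun q => by
    refine (hg _).trans ?_
    have := hs1 (R.th q • z + R.sd q • slot W q none) q ((hnode q z _).trans
      (add_le_add le_rfl (norm_slot_le W q none)))
    linarith [norm_nonneg z, norm_nonneg W, norm_nonneg (cgrad p c v 0)]
  have h2 : ‖s2 R (cgrad p c v) z W‖ ≤ 4 * ε + 3 * ‖z‖ + 2 * ‖W‖ := by
    refine (norm_sub_le _ _).trans ?_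
    have := hsum _ _ (by positivity) hH
    linarith
  refine (norm_add_le _ _).trans ?_
  linarith

/-- The Gaussian moments entering the growth. -/
def growConst (d M : ℕ) : ℝ := 5 * (1 + d) + 2 * (1 + M * ((M + 1) * d))

theorem innerMean_far {R : Rule M} {δ t0 : ℝ} (hR : R.Good δ t0) {p : Space d → Space d} {η : ℝ}
    (hp : Pot p η) (G : ℕ) {r : ℝ} (hr : 0 < r) (v : Space d) :
    innerMean R p G (far r) v ≤ (1 + 5 * (1 / 4) ^ G) * far r v + growConst d M / r := by
  set κ : ℝ := 1 + 5 * (1 / 4) ^ G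
  have hκ : 1 ≤ κ := le_add_of_nonneg_right (by positivity)
  have hpt : ∀ z W, far r (innerOut R p G v z W) ≤ κ * far r v + (3 * ‖z‖ + 2 * ‖W‖) / r := by
    intro z W
    have hb := innerOut_le hR hp G v z W
    have hY : 0 ≤ (3 * ‖z‖ + 2 * ‖W‖) / r := by positivity
    have h0 := (test_far (d := d) hr).nonneg v
    unfold far
    rw [mul_min_of_nonneg _ _ (by linarith : 0 ≤ κ), mul_one, ← min_add_add_right]
    refine le_min ?_ ?_
    · linarith [min_le_left (1 : ℝ) (‖innerOut R p G v z W‖ / r)]
    · refine (min_le_right _ _).trans ?_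
      rw [← mul_div_assoc, ← add_div]
      exact div_le_div_of_nonneg_right hb hr.le
  obtain ⟨hz, hz'⟩ := gauss_norm (E := Space d)
  obtain ⟨hW, hW'⟩ := gauss_norm (E := Seeds d M)
  have hdim : Module.finrank ℝ (Seeds d M) = M * ((M + 1) * d) := by simp
  have hdim' : Module.finrank ℝ (Space d) = d := by simp
  rw [hdim] at hW'
  rw [hdim'] at hz'
  push_cast at hW'
  have hc := continuous_innerOut R hp.smooth.continuous G
  have hfc : Continuous (far (d := d) r) := by unfold far; fun_prop
  have hin : ∀ z, ∫ W, far r (innerOut R p G v z W) ∂stdGaussian (Seeds d M)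
      ≤ κ * far r v + (3 * ‖z‖ + 2 * (1 + M * ((M + 1) * d))) / r := fun z => by
    refine (integral_mono ((integrable_const 1).mono'
      ((hfc.comp hc).comp (by fun_prop : Continuous fun W : Seeds d M => (v, z, W))).aestronglyMeasurable
      (Eventually.of_forall fun W => (test_far hr).norm_le _))
      ((integrable_const (κ * far r v)).add ((((integrable_const (3 * ‖z‖)).add (hW.const_mul 2))).div_const r))
      (hpt z)).trans ?_
    simp only [Pi.add_apply]
    have hi2 : Integrable (fun W : Seeds d M => 3 * ‖z‖ + 2 * ‖W‖) (stdGaussian (Seeds d M)) :=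
      (integrable_const _).add (hW.const_mul 2)
    rw [integral_add (integrable_const _) (hi2.div_const r),
      integral_div, integral_add (integrable_const _) (hW.const_mul 2), integral_const_mul]
    simp only [integral_const, probReal_univ, one_smul]
    gcongr
    rw [integral_const_mul]
    linarith
  obtain ⟨hmc, hmT⟩ := test_innerMean R hp.smooth.continuous G hfc (test_far hr)
  have hzc : Test fun z => ∫ W, far r (innerOut R p G v z W) ∂stdGaussian (Seeds d M) := by
    have hW1 : ∀ z, Test fun W => far r (innerOut R p G v z W) := fun z =>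
      ⟨((hfc.comp hc).comp (by fun_prop : Continuous fun W : Seeds d M => (v, z, W))).measurable,
        fun _ => (test_far hr).nonneg _, fun _ => (test_far hr).le_one _⟩
    exact ⟨(((hfc.comp hc).comp (by fun_prop : Continuous fun a : Space d × Seeds d M =>
      (v, a.1, a.2))).measurable.stronglyMeasurable.integral_prod_right').measurable,
      fun z => ((hW1 z).integral_mem _).1, fun z => ((hW1 z).integral_mem _).2⟩
  refine (integral_mono (hzc.integrable _) ((integrable_const (κ * far r v)).add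
    (((hz.const_mul 3).add (integrable_const (2 * (1 + (M : ℝ) * ((M + 1) * d))))).div_const r))
    hin).trans ?_
  simp only [Pi.add_apply]
  have hi3 : Integrable (fun z : Space d => 3 * ‖z‖ + 2 * (1 + (M : ℝ) * ((M + 1) * d)))
      (stdGaussian (Space d)) := (hz.const_mul 3).add (integrable_const _)
  rw [integral_add (integrable_const _) (hi3.div_const r),
    integral_div, integral_add (hz.const_mul 3) (integrable_const _), integral_const_mul]
  simp only [integral_const, probReal_univ, one_smul]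
  unfold growConst
  gcongr
  rw [integral_const_mul]
  linarith

theorem gav_far {r : ℝ} (hr : 0 < r) (y : Space d) :
    gav 1 (far r) y ≤ far r y + (1 + d) / r := by
  obtain ⟨hz, hz'⟩ := gauss_norm (E := Space d)
  rw [show Module.finrank ℝ (Space d) = d by simp] at hz'
  have hfc : Continuous (far (d := d) r) := by unfold far; fun_prop
  refine (integral_mono ((integrable_const 1).mono'
    (hfc.comp (by fun_prop : Continuous fun z : Space d => y + (1 : ℝ) • z)).aestronglyMeasurable
    (Eventually.of_forall fun z => (test_far hr).norm_le _))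
    ((integrable_const (far r y)).add (hz.div_const r)) fun z => ?_).trans ?_
  · simpa using far_add hr y z
  · simp only [Pi.add_apply]
    rw [integral_add (integrable_const _) (hz.div_const r), integral_div]
    simp only [integral_const, probReal_univ, one_smul]
    gcongr

/-! ## One step -/

/-- The main error of one step. -/
def stepMain (d : ℕ) (η α β : ℝ) : ℝ := η ^ 3 * √d * α + η ^ 2 * √d * (β + η * α)

/-- The remaining error of one step on states of norm at most `R`. -/
def stepTiny (d G : ℕ) (δ t0 h : ℝ) (J : ℕ) (R : ℝ) : ℝ :=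
  (R * (1 / 4) ^ G + √d + 1) * (δ + √t0) * √d + (1 + √d) * (R * (1 / 4) ^ G)
    + chainErr d h J (4 * R)

theorem chainErr_mono {h : ℝ} {J : ℕ} (hF : Fine h J) {a b : ℝ} (ha : 0 ≤ a) (hab : a ≤ b) :
    chainErr d h J a ≤ chainErr d h J b := by
  have := pow_nonneg (show (0 : ℝ) ≤ 1 - h / 2 by linarith [hF.small]) J
  unfold chainErr
  gcongr

theorem chainErr_nonneg {h : ℝ} {J : ℕ} (hF : Fine h J) {a : ℝ} (ha : 0 ≤ a) :
    0 ≤ chainErr d h J a := by
  have := pow_nonneg (show (0 : ℝ) ≤ 1 - h / 2 by linarith [hF.small]) J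
  unfold chainErr
  positivity

theorem stepTiny_nonneg {h δ t0 R : ℝ} {G J : ℕ} (hF : Fine h J) (hδ : 0 ≤ δ) (hR : 0 ≤ R) :
    0 ≤ stepTiny d G δ t0 h J R := by
  have := chainErr_nonneg (d := d) hF (show 0 ≤ 4 * R by linarith)
  unfold stepTiny
  positivity

theorem Rule.Good.delta_nonneg {R : Rule M} {δ t0 : ℝ} (hR : R.Good δ t0) : 0 ≤ δ :=
  (abs_nonneg _).trans (hR.quad 0 le_rfl)

theorem inner_piJ {C : ℝ} (hK : Kit C) {R : Rule M} {δ t0 : ℝ} (hR : R.Good δ t0)
    {p : Space d → Space d} {η h : ℝ} {J : ℕ} (hp : Pot p η) (hF : Fine h J) (G : ℕ) {r : ℝ}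
    (hr : 0 < r) {u : Space d → ℝ} {α β : ℝ} (hα : 0 ≤ α) (hβ : 0 ≤ β) (hu : Test2 u α β)
    (h01 : ∀ x, u x ∈ Set.Icc (0 : ℝ) 1) (v : Space d) :
    |innerMean R p G u v - piJ p h J u v|
      ≤ C * (stepMain d η α β + stepTiny d G δ t0 h J r * (α + β)) + far r v := by
  have hC : 0 ≤ C := zero_le_one.trans hK.one_le
  have hm : 0 ≤ stepMain d η α β := by have := hp.pos; unfold stepMain; positivity
  have hti := stepTiny_nonneg (d := d) (G := G) (t0 := t0) hF hR.delta_nonneg hr.le
  rcases le_or_gt r ‖v‖ with hv | hv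
  · have h1 := (test_innerMean R hp.smooth.continuous G hu.cont (test_of_mem hu.cont h01)).2
    have h2 := (hK.piJ_cont d p hp.smooth.continuous u hu.cont h01 h J).2 v
    have := one_le_far hr hv
    have := h1.nonneg v
    have := h1.le_one v
    have : 0 ≤ C * (stepMain d η α β + stepTiny d G δ t0 h J r * (α + β)) := by positivity
    rw [abs_le]
    constructor <;> linarith [h2.1, h2.2]
  · obtain ⟨he, hc⟩ := centre_bounds hp v G
    have hρ : (1 / 4 : ℝ) ^ G ≤ 1 := pow_le_one₀ (by norm_num) (by norm_num)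
    have hst := hK.step d M R δ t0 hR p η h J hp hF v (centre p v G) _ he u α β hα hβ hu
    refine (hst.trans (mul_le_mul_of_nonneg_left ?_ hC)).trans
      (le_add_of_nonneg_right ((test_far hr).nonneg v))
    have hδ := hR.delta_nonneg
    have hη1 : η ≤ 1 := by linarith [hp.small]
    have hη0 := hp.pos
    have hq : (1 / 4 : ℝ) ^ G * ‖v‖ ≤ r * (1 / 4) ^ G := by
      rw [mul_comm r]; exact mul_le_mul_of_nonneg_left hv.le (by positivity)
    have hq' : r * (1 / 4 : ℝ) ^ G ≤ r := mul_le_of_le_one_right hr.le hρ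
    have a1 : ((1 / 4 : ℝ) ^ G * ‖v‖ + η * √d + 1) * (δ + √t0) * √d * α
        ≤ (r * (1 / 4) ^ G + √d + 1) * (δ + √t0) * √d * (α + β) := by
      gcongr
      · exact mul_le_of_le_one_left (Real.sqrt_nonneg _) hη1
      · linarith
    have a2 : ((1 / 4 : ℝ) ^ G * ‖v‖ + η * ((1 / 4) ^ G * ‖v‖) * √d) * (α + β)
        ≤ (1 + √d) * (r * (1 / 4) ^ G) * (α + β) := by
      refine mul_le_mul_of_nonneg_right ?_ (by positivity)
      rw [add_mul, one_mul]
      refine add_le_add hq ?_
      rw [mul_comm √d]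
      exact mul_le_mul_of_nonneg_right ((mul_le_of_le_one_left (by positivity) hη1).trans hq)
        (Real.sqrt_nonneg _)
    have a3 : chainErr d h J (‖v‖ + ‖centre p v G‖ + (1 / 4) ^ G * ‖v‖) * (α + β)
        ≤ chainErr d h J (4 * r) * (α + β) := by
      refine mul_le_mul_of_nonneg_right (chainErr_mono hF (by positivity) ?_) (by positivity)
      have := mul_le_mul_of_nonneg_right hρ (norm_nonneg v)
      linarith
    rw [stepMain, stepTiny, add_mul, add_mul]
    linarith

theorem post_piJ {C : ℝ} (hK : Kit C) {V : Space d → ℝ} (hV : InClass V) {η h : ℝ} {J : ℕ}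
    (h0 : 0 < η) (h1 : η ≤ 1 / 8) (hF : Fine h J) (G : ℕ) {δ t0 r : ℝ} (hδ : 0 ≤ δ) (hr : 0 < r)
    {u : Space d → ℝ} {α β : ℝ} (hα : 0 ≤ α) (hβ : 0 ≤ β) (hu : Test2 u α β)
    (h01 : ∀ x, u x ∈ Set.Icc (0 : ℝ) 1) (v : Space d) :
    |post V η u v - piJ (pOf V η) h J u v|
      ≤ C * (stepTiny d G δ t0 h J r * (α + β)) + far r v := by
  have hC : 0 ≤ C := zero_le_one.trans hK.one_le
  have hti := stepTiny_nonneg (d := d) (G := G) (t0 := t0) hF hδ hr.le
  have hp := hV.pot h0 h1
  rcases le_or_gt r ‖v‖ with hv | hv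
  · have h2 := (hK.piJ_cont d _ hp.smooth.continuous u hu.cont h01 h J).2 v
    have hT := hV.test_post h0 h1 (test_of_mem hu.cont h01)
    have := one_le_far hr hv
    have : 0 ≤ C * (stepTiny d G δ t0 h J r * (α + β)) := by positivity
    rw [abs_le]
    constructor <;> linarith [h2.1, h2.2, hT.nonneg v, hT.le_one v]
  · have h := hK.inv d (unitPot V η) η h J (hV.unit_smooth η)
      (by rw [hV.gradient_unit]; exact hp) hF u α β hα hβ hu v
    rw [← hV.post_eq h0 h1, hV.gradient_unit] at h
    refine (h.trans ?_).trans (le_add_of_nonneg_right ((test_far hr).nonneg v))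
    rw [mul_assoc]
    refine mul_le_mul_of_nonneg_left (mul_le_mul_of_nonneg_right ?_ (by positivity)) hC
    refine (chainErr_mono hF (norm_nonneg v) (show ‖v‖ ≤ 4 * r by linarith)).trans ?_
    unfold stepTiny
    have : 0 ≤ (r * (1 / 4) ^ G + √d + 1) * (δ + √t0) * √d + (1 + √d) * (r * (1 / 4) ^ G) := by
      positivity
    linarith

end

end P347.Quarter
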