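import Vale.Agent.P347.Quarter.Defs
import Mathlib.Analysis.Convex.Caratheodory
import Mathlib.Analysis.Convex.Integral
import Mathlib.MeasureTheory.SpecificCodomains.Pi

/-!
# P347: positive rules in Ornstein-Uhlenbeck time

On each of `O(log d)` cells `[s², (9 s / 8)²]` a positive rule with `O(log d)` nodes, exact for the
first moments, integrates `μ e^{-μ t}` up to a geometrically small error, uniformly in `μ`.
-/

namespace P347.Quarter

open MeasureTheory
open scoped BigOperators Nat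

noncomputable section

/-- The tail of the exponential series. -/
theorem exp_neg_taylor {y : ℝ} (hy : 0 ≤ y) (k : ℕ) :
    |Real.exp (-y) - ∑ i ∈ Finset.range k, (-y) ^ i / i !| ≤ y ^ k / k ! * Real.exp y := by
  have hs : ∀ z : ℝ, HasSum (fun n => z ^ (n + k) / (n + k)!)
      (Real.exp z - ∑ i ∈ Finset.range k, z ^ i / i !) := fun z => by
    refine (hasSum_nat_add_iff' k).2 ?_
    rw [Real.exp_eq_exp_ℝ]
    exact NormedSpace.expSeries_div_hasSum_exp z
  have hb : HasSum (fun n => y ^ k / k ! * (y ^ n / n !)) (y ^ k / k ! * Real.exp y) := by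
    rw [Real.exp_eq_exp_ℝ]
    exact (NormedSpace.expSeries_div_hasSum_exp y).mul_left _
  have hle : ∀ n, y ^ (n + k) / (n + k)! ≤ y ^ k / k ! * (y ^ n / n !) := fun n => by
    rw [div_mul_div_comm, ← pow_add, add_comm k n, ← Nat.cast_mul, mul_comm k !]
    exact div_le_div_of_nonneg_left (by positivity) (by positivity)
      (Nat.cast_le.2 (Nat.le_of_dvd (Nat.factorial_pos _)
        (Nat.factorial_mul_factorial_dvd_factorial_add n k)))
  have hn : ∀ n, |(-y) ^ (n + k) / (n + k)!| = y ^ (n + k) / (n + k)! := fun n => by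
    rw [abs_div, abs_pow, abs_neg, abs_of_nonneg hy, Nat.abs_cast]
  rw [← (hs (-y)).tsum_eq]
  refine (Real.norm_eq_abs _).ge.trans (tsum_of_norm_bounded hb fun n => ?_)
  rw [Real.norm_eq_abs, hn]
  exact hle n

/-- The moment curve. -/
def curve (k : ℕ) (x : ℝ) : Fin k → ℝ := fun i => x ^ (i : ℕ)

/-- A positive rule on `[0, 1]` exact for the first `k` moments. -/
theorem exists_moment_rule (k : ℕ) : ∃ (c x : Fin (k + 1) → ℝ), (∀ m, 0 ≤ c m) ∧ ∑ m, c m = 1 ∧
    (∀ m, x m ∈ Set.Icc (0 : ℝ) 1) ∧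
    ∀ i < k, ∑ m, c m * x m ^ i = ∫ t in (0 : ℝ)..1, t ^ i := by
  classical
  let K : Set ((Fin (k + 1) → ℝ) × (Fin (k + 1) → ℝ)) :=
    stdSimplex ℝ (Fin (k + 1)) ×ˢ Set.pi Set.univ fun _ => Set.Icc (0 : ℝ) 1
  let F : (Fin (k + 1) → ℝ) × (Fin (k + 1) → ℝ) → (Fin k → ℝ) := fun q =>
    ∑ m, q.1 m • curve k (q.2 m)
  have hK : IsCompact (F '' K) := (IsCompact.prod (isCompact_stdSimplex ℝ (Fin (k + 1)))
    (isCompact_univ_pi fun _ => isCompact_Icc)).image (by
      unfold F curve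
      fun_prop)
  have hsub : convexHull ℝ (curve k '' Set.Icc 0 1) ⊆ F '' K := fun p hp => by
    obtain ⟨ι, hι, z, w, hz, hind, hw, hw1, hwz⟩ := eq_pos_convex_span_of_mem_convexHull hp
    have hcard : Fintype.card ι ≤ Fintype.card (Fin (k + 1)) := by
      refine hind.card_le_finrank_succ.trans ?_
      rw [Fintype.card_fin]
      exact Nat.succ_le_succ ((Submodule.finrank_le _).trans (Module.finrank_fin_fun ℝ).le)
    obtain ⟨e⟩ := Function.Embedding.nonempty_of_card_le hcard
    have hz' : ∀ i, ∃ t ∈ Set.Icc (0 : ℝ) 1, curve k t = z i := fun i => hz ⟨i, rfl⟩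
    choose t ht htz using hz'
    have hsum : ∀ {β : Type} [AddCommMonoid β] (G : Fin (k + 1) → β),
        (∀ m, m ∉ Set.range e → G m = 0) → ∑ m, G m = ∑ i, G (e i) := fun {β} _ G hG => by
      rw [← Finset.sum_map Finset.univ e G]
      exact (Finset.sum_subset (Finset.subset_univ _) fun m _ hm => hG m fun ⟨i, hi⟩ =>
        hm (Finset.mem_map.2 ⟨i, Finset.mem_univ i, hi⟩)).symm
    refine ⟨(Function.extend e w 0, Function.extend e t 0), ⟨⟨fun m => ?_, ?_⟩, fun m _ => ?_⟩, ?_⟩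
    · by_cases hm : ∃ i, e i = m
      · obtain ⟨i, rfl⟩ := hm
        simp only [e.injective.extend_apply]
        exact (hw i).le
      · simp [Function.extend_apply' _ _ _ hm]
    · rw [hsum (Function.extend e w 0) fun m hm => Function.extend_apply' _ _ _ hm]
      simpa only [e.injective.extend_apply] using hw1
    · by_cases hm : ∃ i, e i = m
      · obtain ⟨i, rfl⟩ := hm
        simp only [e.injective.extend_apply]
        exact ht i
      · simp [Function.extend_apply' _ _ _ hm]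
    · refine (hsum _ fun m hm => ?_).trans ?_
      · simp [Function.extend_apply' _ _ _ hm]
      · simpa only [e.injective.extend_apply, htz] using hwz
  set μ : Measure ℝ := volume.restrict (Set.Ioc 0 1)
  have : IsProbabilityMeasure μ := ⟨by simp [μ]⟩
  have hc : Continuous (curve k) := by unfold curve; fun_prop
  have hi : Integrable (curve k) μ :=
    (hc.continuousOn.integrableOn_compact isCompact_Icc).mono_set Set.Ioc_subset_Icc_self
  have hmem : (∫ t, curve k t ∂μ) ∈ closure (convexHull ℝ (curve k '' Set.Icc 0 1)) :=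
    (convex_convexHull ℝ _).closure.integral_mem isClosed_closure
      (ae_restrict_of_forall_mem measurableSet_Ioc fun t ht => subset_closure
        (subset_convexHull ℝ _ ⟨t, Set.Ioc_subset_Icc_self ht, rfl⟩)) hi
  obtain ⟨⟨c, x⟩, ⟨⟨hc0, hc1⟩, hx⟩, he⟩ := closure_minimal hsub hK.isClosed hmem
  refine ⟨c, x, hc0, hc1, fun m => hx m (Set.mem_univ m), fun i hik => ?_⟩
  have h := congrFun he ⟨i, hik⟩
  simp only [F, Finset.sum_apply, Pi.smul_apply, smul_eq_mul, curve] at h
  rw [h, intervalIntegral.integral_of_le zero_le_one]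
  exact eval_integral (μ := μ) (f := curve k) (fun j =>
    ((continuous_apply j).comp hc).integrableOn_Icc.mono_set Set.Ioc_subset_Icc_self) ⟨i, hik⟩

/-- A rule with exact moments against an exponential. -/
theorem moment_error {k : ℕ} {c x : Fin (k + 1) → ℝ} (hc : ∀ m, 0 ≤ c m) (h1 : ∑ m, c m = 1)
    (hx : ∀ m, x m ∈ Set.Icc (0 : ℝ) 1)
    (hm : ∀ i < k, ∑ m, c m * x m ^ i = ∫ t in (0 : ℝ)..1, t ^ i) {y : ℝ} (hy : 0 ≤ y) :
    |∑ m, c m * Real.exp (-(y * x m)) - ∫ t in (0 : ℝ)..1, Real.exp (-(y * t))|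
      ≤ 2 * (y ^ k / k ! * Real.exp y) := by
  set P : ℝ → ℝ := fun t => ∑ i ∈ Finset.range k, (-y) ^ i / i ! * t ^ i
  set B := y ^ k / k ! * Real.exp y
  have hP : ∀ t ∈ Set.Icc (0 : ℝ) 1, |Real.exp (-(y * t)) - P t| ≤ B := fun t ht => by
    have h := exp_neg_taylor (mul_nonneg hy ht.1) k
    have e : P t = ∑ i ∈ Finset.range k, (-(y * t)) ^ i / i ! :=
      Finset.sum_congr rfl fun i _ => by rw [← neg_mul, mul_pow, div_mul_eq_mul_div]
    rw [e]
    have : y * t ≤ y := mul_le_of_le_one_right hy ht.2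
    have h0 : (0 : ℝ) ≤ y * t := mul_nonneg hy ht.1
    exact h.trans (mul_le_mul (by gcongr) (Real.exp_le_exp.2 this) (Real.exp_nonneg _)
      (by positivity))
  have eP : ∑ m, c m * P (x m) = ∫ t in (0 : ℝ)..1, P t := by
    simp only [P, Finset.mul_sum]
    rw [Finset.sum_comm, intervalIntegral.integral_finsetSum fun i _ =>
      (continuous_pow i).intervalIntegrable _ _ |>.const_mul _]
    refine Finset.sum_congr rfl fun i hi => ?_
    rw [intervalIntegral.integral_const_mul, ← hm i (Finset.mem_range.1 hi), Finset.mul_sum]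
    exact Finset.sum_congr rfl fun m _ => by ring
  have hd : |∑ m, c m * (Real.exp (-(y * x m)) - P (x m))| ≤ B := by
    refine (Finset.abs_sum_le_sum_abs _ _).trans ?_
    refine (Finset.sum_le_sum fun m _ => ?_).trans_eq (by rw [← Finset.sum_mul, h1, one_mul])
    rw [abs_mul, abs_of_nonneg (hc m)]
    exact mul_le_mul_of_nonneg_left (hP _ (hx m)) (hc m)
  have hint : |∫ t in (0 : ℝ)..1, (Real.exp (-(y * t)) - P t)| ≤ B := by
    have h := intervalIntegral.norm_integral_le_of_norm_le_const (a := (0 : ℝ)) (b := 1) (C := B)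
      (f := fun t => Real.exp (-(y * t)) - P t) fun t ht => by
        rw [Set.uIoc_of_le zero_le_one] at ht
        exact hP t (Set.Ioc_subset_Icc_self ht)
    simpa using h
  rw [intervalIntegral.integral_sub ((by fun_prop : Continuous fun t => Real.exp (-(y * t))).intervalIntegrable _ _)
    ((by fun_prop : Continuous P).intervalIntegrable _ _), ← eP] at hint
  simp only [mul_sub, Finset.sum_sub_distrib] at hd
  rw [abs_le] at hd hint ⊢
  constructor <;> linarith [hd.1, hd.2, hint.1, hint.2]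

/-- One cell of ratio `81/64`, uniformly in the rate. -/
theorem cell_error {k : ℕ} {c x : Fin (k + 1) → ℝ} (hc : ∀ m, 0 ≤ c m) (h1 : ∑ m, c m = 1)
    (hx : ∀ m, x m ∈ Set.Icc (0 : ℝ) 1)
    (hm : ∀ i < k, ∑ m, c m * x m ^ i = ∫ t in (0 : ℝ)..1, t ^ i) {Y : ℝ} (hY : 0 ≤ Y) :
    |∑ m, 17 / 64 * Y * c m * Real.exp (-(Y * (1 + 17 / 64 * x m)))
        - (Real.exp (-Y) - Real.exp (-(81 / 64 * Y)))|
      ≤ 2 * (k + 1) * (17 / 47) ^ (k + 1) := by
  set y := 17 / 64 * Y with hy
  have hy0 : 0 ≤ y := by positivity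
  have hint : y * ∫ t in (0 : ℝ)..1, Real.exp (-(y * t)) = 1 - Real.exp (-y) := by
    rw [← intervalIntegral.integral_const_mul, intervalIntegral.integral_eq_sub_of_hasDerivAt
      (f := fun t => -Real.exp (-(y * t))) (fun t _ => ?_)
      ((by fun_prop : Continuous fun t => y * Real.exp (-(y * t))).intervalIntegrable _ _)]
    · simp
      ring
    · exact ((((hasDerivAt_id' t).const_mul y).neg.exp).neg).congr_deriv (by simp; ring)
  have e : ∑ m, 17 / 64 * Y * c m * Real.exp (-(Y * (1 + 17 / 64 * x m)))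
      - (Real.exp (-Y) - Real.exp (-(81 / 64 * Y)))
      = Real.exp (-Y) * y * (∑ m, c m * Real.exp (-(y * x m))
        - ∫ t in (0 : ℝ)..1, Real.exp (-(y * t))) := by
    have e1 : Real.exp (-(81 / 64 * Y)) = Real.exp (-Y) * Real.exp (-y) := by
      rw [← Real.exp_add, hy]; ring_nf
    rw [mul_sub, mul_assoc (Real.exp (-Y)) y (∫ _ in _.._, _), hint, e1, mul_sub, mul_one,
      Finset.mul_sum]
    congr 1
    refine Finset.sum_congr rfl fun m _ => ?_
    have e2 : Real.exp (-(Y * (1 + 17 / 64 * x m))) = Real.exp (-Y) * Real.exp (-(y * x m)) := by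
      rw [← Real.exp_add, hy]; ring_nf
    rw [e2, hy]
    ring
  rw [e, abs_mul, abs_mul, Real.abs_exp, abs_of_nonneg hy0]
  refine (mul_le_mul_of_nonneg_left (moment_error hc h1 hx hm hy0) (by positivity)).trans ?_
  set z := 47 / 64 * Y with hz
  have hz0 : 0 ≤ z := by positivity
  have h := Real.pow_div_factorial_le_exp z hz0 (k + 1)
  rw [div_le_iff₀ (by positivity)] at h
  have e3 : Real.exp (-Y) * Real.exp y = Real.exp (-z) := by
    rw [← Real.exp_add, hy, hz]; ring_nf
  have e4 : y = 17 / 47 * z := by rw [hy, hz]; ring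
  calc Real.exp (-Y) * y * (2 * (y ^ k / k ! * Real.exp y))
      = 2 * (17 / 47) ^ (k + 1) * (z ^ (k + 1) * Real.exp (-z)) / k ! := by
        rw [← e3, e4, mul_pow, pow_succ, pow_succ]; ring
    _ ≤ 2 * (17 / 47) ^ (k + 1) * (k + 1)! / k ! := by
        gcongr
        rw [Real.exp_neg, ← div_eq_mul_inv, div_le_iff₀ (Real.exp_pos _), mul_comm]
        exact h
    _ = 2 * (k + 1) * (17 / 47) ^ (k + 1) := by
        rw [Nat.factorial_succ]; push_cast; field_simp

/-- The numerical conditions on the number of cells and nodes. -/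
theorem rule_sizes {d : ℕ} (hd : 2 ≤ d) : ∃ J k : ℕ,
    ((J * (k + 1) : ℕ) : ℝ) ≤ 10 ^ 6 * Real.log d ^ 3 ∧
    100 * (d : ℝ) ≤ (1 / (d : ℝ) ^ 10 * (9 / 8) ^ J) ^ 2 ∧
    3 * (J * (2 * (k + 1) * (17 / 47) ^ (k + 1))) + 3 * Real.exp (-(100 * (d : ℝ)))
      ≤ 1 / (d : ℝ) ^ 20 := by
  set n := Nat.clog 2 d
  have hD : (2 : ℝ) ≤ d := by exact_mod_cast hd
  have hn : (d : ℝ) ≤ 2 ^ n := by exact_mod_cast Nat.le_pow_clog one_lt_two d
  have hn1 : 1 ≤ n := Nat.clog_pos one_lt_two hd
  have hn2 : (2 : ℝ) ^ n ≤ 2 * d := by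
    have h := Nat.pow_pred_clog_lt_self one_lt_two hd
    have : (2 : ℕ) ^ n ≤ 2 * d := by
      obtain ⟨m, hm⟩ := Nat.exists_eq_succ_of_ne_zero (by omega : n ≠ 0)
      change Nat.clog 2 d = m + 1 at hm
      rw [hm] at h
      rw [show n = m + 1 from hm, pow_succ]
      simp only [Nat.pred_succ] at h
      omega
    exact_mod_cast this
  have hlog : (0.69 : ℝ) ≤ Real.log d :=
    le_trans (by linarith [Real.log_two_gt_d9]) (Real.log_le_log two_pos hD)
  have hnl : (n : ℝ) ≤ 3 * Real.log d := by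
    have h := Real.log_le_log (by positivity) hn2
    rw [Real.log_pow, Real.log_mul two_ne_zero (by positivity)] at h
    nlinarith [Real.log_two_gt_d9, Real.log_two_lt_d9,
      mul_le_mul_of_nonneg_left Real.log_two_gt_d9.le (Nat.cast_nonneg n : (0 : ℝ) ≤ n)]
  refine ⟨90 * n, 40 * n, ?_, ?_, ?_⟩
  · have h1 : (1 : ℝ) ≤ n := by exact_mod_cast hn1
    push_cast
    nlinarith [pow_le_pow_left₀ (by linarith : (0 : ℝ) ≤ n) hnl 2,
      mul_le_mul_of_nonneg_left hlog (sq_nonneg (Real.log (d : ℝ)))]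
  · have h2 : (2 : ℝ) ^ (15 * n) ≤ (9 / 8) ^ (90 * n) := by
      rw [show 90 * n = 6 * (15 * n) by ring, pow_mul (9 / 8 : ℝ)]
      exact pow_le_pow_left₀ zero_le_two (by norm_num) _
    have h3 : (d : ℝ) ^ 15 ≤ 2 ^ (15 * n) := by
      rw [mul_comm 15 n, pow_mul]
      exact pow_le_pow_left₀ (by positivity) hn 15
    have h4 : (d : ℝ) ^ 5 ≤ 1 / (d : ℝ) ^ 10 * (9 / 8) ^ (90 * n) := by
      rw [one_div_mul_eq_div, le_div_iff₀ (by positivity), ← pow_add]
      exact h3.trans h2
    refine le_trans ?_ (pow_le_pow_left₀ (by positivity) h4 2)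
    rw [← pow_mul]
    have : (2 : ℝ) ^ 9 ≤ (d : ℝ) ^ 9 := pow_le_pow_left₀ zero_le_two hD 9
    rw [show 5 * 2 = 9 + 1 from rfl, pow_succ]
    exact mul_le_mul_of_nonneg_right (by linarith) (by positivity)
  · set D := (d : ℝ)
    have hD0 : (0 : ℝ) < D := by linarith
    have hnd : (n : ℝ) ≤ 2 * D := le_trans (by exact_mod_cast (n.lt_two_pow_self).le) hn2
    have hq : ((17 : ℝ) / 47) ^ (40 * n + 1) ≤ 1 / D ^ 40 := by
      refine (pow_le_pow_of_le_one (by norm_num) (by norm_num) (Nat.le_succ _)).trans ?_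
      refine (pow_le_pow_left₀ (by norm_num) (show (17 : ℝ) / 47 ≤ 1 / 2 by norm_num) _).trans ?_
      rw [div_pow, one_pow, mul_comm 40 n, pow_mul]
      exact one_div_le_one_div_of_le (by positivity) (pow_le_pow_left₀ hD0.le hn 40)
    have he : Real.exp (-(100 * D)) ≤ 1 / D ^ 40 := by
      have h := pow_le_pow_left₀ hD0.le (by linarith [Real.add_one_le_exp D] : D ≤ Real.exp D) 40
      rw [← Real.exp_nat_mul] at h
      rw [Real.exp_neg, ← one_div]
      refine one_div_le_one_div_of_le (by positivity) (h.trans (Real.exp_le_exp.2 ?_))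
      push_cast
      linarith
    have hb : 3 * ((90 * n : ℕ) * (2 * (((40 * n : ℕ) : ℝ) + 1))) + 3 ≤ D ^ 20 := by
      have h18 : (2 : ℝ) ^ 18 ≤ D ^ 18 := pow_le_pow_left₀ zero_le_two hD 18
      have e : D ^ 20 = D ^ 18 * D ^ 2 := by ring
      push_cast
      rw [e]
      nlinarith [mul_le_mul_of_nonneg_right h18 (sq_nonneg D),
        mul_self_le_mul_self (Nat.cast_nonneg n) hnd]
    have hp : (0 : ℝ) ≤ ((90 * n : ℕ) : ℝ) * (2 * (((40 * n : ℕ) : ℝ) + 1)) := by positivity
    calc 3 * (((90 * n : ℕ) : ℝ) * (2 * (((40 * n : ℕ) : ℝ) + 1) * (17 / 47) ^ (40 * n + 1)))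
          + 3 * Real.exp (-(100 * D))
        ≤ (3 * (((90 * n : ℕ) : ℝ) * (2 * (((40 * n : ℕ) : ℝ) + 1))) + 3) * (1 / D ^ 40) := by
          rw [← mul_assoc (((90 * n : ℕ) : ℝ)), add_mul, mul_assoc 3]
          gcongr
      _ ≤ D ^ 20 * (1 / D ^ 40) := mul_le_mul_of_nonneg_right hb (by positivity)
      _ = 1 / D ^ 20 := by field_simp

/-- The mass of a cell at a node, against the noise size. -/
theorem div_sd_le {t : ℝ} (ht : 0 < t) : 1 / √(1 - Real.exp (-t) ^ 2) ≤ 1 + 1 / √t := by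
  have h1 : Real.exp (-t) ^ 2 ≤ 1 / (1 + 2 * t) := by
    rw [← Real.exp_nat_mul, mul_neg, Real.exp_neg, ← one_div]
    exact one_div_le_one_div_of_le (by positivity)
      (le_trans (by push_cast; linarith) (Real.add_one_le_exp _))
  have hp : 0 < √t := Real.sqrt_pos.2 ht
  have h2 : 2 * t / (1 + 2 * t) ≤ 1 - Real.exp (-t) ^ 2 := by
    have : 1 - 1 / (1 + 2 * t) = 2 * t / (1 + 2 * t) := by field_simp; ring
    linarith
  have h3 : √t / (1 + √t) ≤ √(1 - Real.exp (-t) ^ 2) := by
    refine Real.le_sqrt_of_sq_le (le_trans ?_ h2)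
    rw [div_pow, Real.sq_sqrt ht.le, div_le_div_iff₀ (by positivity) (by positivity)]
    nlinarith [sq_nonneg (1 + √t), Real.sq_sqrt ht.le]
  refine (one_div_le_one_div_of_le (by positivity) h3).trans_eq ?_
  field_simp
  ring

/-- The cells weighted by `e^{-t}` have bounded total square root. -/
theorem sqrt_cell_le {s : ℝ} (hs : 0 < s) :
    17 / 64 * s * Real.exp (-s ^ 2)
      ≤ 5 * ((9 / 8 * s) / (1 + 9 / 8 * s) - s / (1 + s)) := by
  have e : (9 / 8 * s) / (1 + 9 / 8 * s) - s / (1 + s)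
      = 1 / 8 * s / ((1 + 9 / 8 * s) * (1 + s)) := by field_simp; ring
  have h : Real.exp (-s ^ 2) ≤ 1 / (1 + s ^ 2) := by
    rw [Real.exp_neg, ← one_div]
    exact one_div_le_one_div_of_le (by positivity) (by linarith [Real.add_one_le_exp (s ^ 2)])
  rw [e]
  refine (mul_le_mul_of_nonneg_left h (by positivity)).trans ?_
  rw [mul_one_div, mul_div_assoc', div_le_div_iff₀ (by positivity) (by positivity)]
  nlinarith [mul_nonneg hs.le (sq_nonneg (s - 1)), mul_nonneg hs.le (sq_nonneg (s + 1))]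

/-- Rules with polylogarithmically many nodes exist. -/
theorem rule : RuleSpec := by
  refine ⟨10 ^ 6, by norm_num, fun d hd => ?_⟩
  obtain ⟨J, k, hM, hlong, herr⟩ := rule_sizes hd
  obtain ⟨c, x, hc, hc1, hx, hmom⟩ := exists_moment_rule k
  have hD : (2 : ℝ) ≤ d := by exact_mod_cast hd
  set t0 : ℝ := 1 / (d : ℝ) ^ 20 with ht0
  have ht0p : 0 < t0 := by positivity
  set s : ℕ → ℝ := fun j => 1 / (d : ℝ) ^ 10 * (9 / 8) ^ j with hs
  have hsp : ∀ j, 0 < s j := fun j => by positivity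
  have hs1 : ∀ j, s (j + 1) = 9 / 8 * s j := fun j => by simp only [hs, pow_succ]; ring
  have hs0 : s 0 ^ 2 = t0 := by simp [hs, ht0, ← pow_mul]
  let b : ℕ → ℝ := fun j => s j ^ 2
  have hbp : ∀ j, 0 < b j := fun j => pow_pos (hsp j) 2
  have hb1 : ∀ j, b (j + 1) = 81 / 64 * b j := fun j => by simp only [b, hs1]; ring
  have hb0 : ∀ j, t0 ≤ b j := fun j => by
    induction j with
    | zero => exact hs0.ge
    | succ j ih => rw [hb1]; linarith [hbp j]
  let e : Fin (J * (k + 1)) ≃ Fin J × Fin (k + 1) := finProdFinEquiv.symm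
  let τ : Fin J × Fin (k + 1) → ℝ := fun q => b q.1 * (1 + 17 / 64 * x q.2)
  let w : Fin J × Fin (k + 1) → ℝ := fun q =>
    17 / 64 * b q.1 * c q.2 * Real.exp (t0 - τ q)
  let R : Rule (J * (k + 1)) := ⟨τ ∘ e, w ∘ e⟩
  have hτb : ∀ q, b q.1 ≤ τ q := fun q =>
    le_mul_of_one_le_right (hbp _).le (by linarith [(hx q.2).1])
  have hw : ∀ q, 0 ≤ w q := fun q =>
    mul_nonneg (mul_nonneg (mul_nonneg (by norm_num) (hbp _).le) (hc _)) (Real.exp_nonneg _)
  have het : Real.exp t0 ≤ 3 := by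
    refine (Real.exp_le_exp.2 ?_).trans (Real.exp_one_lt_d9.le.trans (by norm_num))
    rw [ht0, div_le_one (by positivity)]
    exact one_le_pow₀ (by linarith)
  have key : ∀ l : ℝ, 0 ≤ l → |∑ q, w q * ((1 + l) * Real.exp (-(l * τ q)))
      - Real.exp (-(l * t0))| ≤ t0 := fun l hl => by
    set u := 1 + l with hu
    have hu1 : 1 ≤ u := by linarith
    have e1 : ∑ q, w q * (u * Real.exp (-(l * τ q))) = Real.exp t0 * ∑ j : Fin J,
        ∑ m, 17 / 64 * (u * b j) * c m * Real.exp (-(u * b j * (1 + 17 / 64 * x m))) := by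
      rw [Fintype.sum_prod_type, Finset.mul_sum]
      refine Finset.sum_congr rfl fun j _ => ?_
      rw [Finset.mul_sum]
      refine Finset.sum_congr rfl fun m _ => ?_
      simp only [w, τ]
      rw [show Real.exp (t0 - b j * (1 + 17 / 64 * x m)) = Real.exp t0
          * Real.exp (-(b j * (1 + 17 / 64 * x m))) by rw [← Real.exp_add]; ring_nf,
        show Real.exp (-(u * b j * (1 + 17 / 64 * x m))) = Real.exp (-(b j * (1 + 17 / 64 * x m)))
          * Real.exp (-(l * (b j * (1 + 17 / 64 * x m)))) by rw [← Real.exp_add, hu]; ring_nf]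
      ring
    have e2 : ∑ j : Fin J, (Real.exp (-(u * b j)) - Real.exp (-(81 / 64 * (u * b j))))
        = Real.exp (-(u * b 0)) - Real.exp (-(u * b J)) := by
      rw [← Finset.sum_range_sub' (fun j => Real.exp (-(u * b j))),
        ← Fin.sum_univ_eq_sum_range (fun j => Real.exp (-(u * b j)) - Real.exp (-(u * b (j + 1))))]
      exact Finset.sum_congr rfl fun j _ => by rw [hb1]; ring_nf
    have e3 : Real.exp (-(l * t0)) = Real.exp t0 * Real.exp (-(u * b 0)) := by
      rw [show b 0 = t0 from hs0, ← Real.exp_add, hu]; ring_nf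
    have h1 : |∑ j : Fin J, (∑ m, 17 / 64 * (u * b j) * c m
          * Real.exp (-(u * b j * (1 + 17 / 64 * x m)))
          - (Real.exp (-(u * b j)) - Real.exp (-(81 / 64 * (u * b j)))))|
        ≤ J * (2 * (k + 1) * (17 / 47) ^ (k + 1)) := by
      refine (Finset.abs_sum_le_sum_abs _ _).trans ((Finset.sum_le_sum fun j _ =>
        cell_error hc hc1 hx hmom (mul_nonneg (by linarith) (hbp _).le)).trans_eq ?_)
      simp
    rw [Finset.sum_sub_distrib, e2] at h1
    have h2 : Real.exp (-(u * b J)) ≤ Real.exp (-(100 * (d : ℝ))) := Real.exp_le_exp.2 (by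
      have := le_mul_of_one_le_left (hbp J).le hu1
      have : 100 * (d : ℝ) ≤ b J := hlong
      linarith)
    have h3 := Real.exp_pos (-(u * b J))
    rw [e1, e3, ← mul_sub, abs_mul, Real.abs_exp]
    refine (mul_le_mul_of_nonneg_right het (abs_nonneg _)).trans (le_trans ?_ herr)
    rw [← mul_add]
    refine mul_le_mul_of_nonneg_left ?_ (by norm_num)
    rw [abs_le] at h1 ⊢
    constructor <;> linarith [h1.1, h1.2]
  have sum1 : ∑ q, w q ≤ 1 + t0 := by
    have h := key 0 le_rfl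
    simp only [add_zero, zero_mul, neg_zero, Real.exp_zero, mul_one] at h
    linarith [(abs_le.1 h).2]
  have ht01 : t0 ≤ 1 / 1000 := by
    refine le_trans (one_div_le_one_div_of_le (by positivity)
      (pow_le_pow_left₀ zero_le_two hD 20)) (by norm_num)
  have sumdiv : ∑ q, w q / √(1 - Real.exp (-τ q) ^ 2) ≤ 8 := by
    have hq : ∀ q : Fin J × Fin (k + 1), w q / √(1 - Real.exp (-τ q) ^ 2)
        ≤ w q + 101 / 100 * (17 / 64 * s q.1 * Real.exp (-s q.1 ^ 2)) * c q.2 := fun q => by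
      have hτ : 0 < τ q := (hbp _).trans_le (hτb q)
      rw [div_eq_mul_one_div]
      refine (mul_le_mul_of_nonneg_left (div_sd_le hτ) (hw q)).trans ?_
      rw [mul_add, mul_one, add_le_add_iff_left, mul_one_div]
      have hsq : s q.1 ≤ √(τ q) := Real.le_sqrt_of_sq_le (hτb q)
      refine (div_le_div_of_nonneg_left (hw q) (hsp _) hsq).trans ?_
      rw [div_le_iff₀ (hsp _)]
      have hE : Real.exp (t0 - τ q) ≤ 101 / 100 * Real.exp (-s q.1 ^ 2) := by
        have h100 : Real.exp t0 ≤ 101 / 100 := by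
          refine le_trans (Real.exp_bound_div_one_sub_of_interval ht0p.le (by linarith)) ?_
          rw [div_le_iff₀ (by linarith)]
          linarith
        rw [sub_eq_add_neg, Real.exp_add]
        exact mul_le_mul h100 (Real.exp_le_exp.2 (neg_le_neg (hτb q))) (Real.exp_nonneg _)
          (by norm_num)
      simp only [w, b]
      calc 17 / 64 * s q.1 ^ 2 * c q.2 * Real.exp (t0 - τ q)
          ≤ 17 / 64 * s q.1 ^ 2 * c q.2 * (101 / 100 * Real.exp (-s q.1 ^ 2)) :=
            mul_le_mul_of_nonneg_left hE (mul_nonneg (by positivity) (hc _))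
        _ = _ := by ring
    refine (Finset.sum_le_sum fun q _ => hq q).trans ?_
    rw [Finset.sum_add_distrib, Fintype.sum_prod_type (f := fun q : Fin J × Fin (k + 1) =>
      101 / 100 * (17 / 64 * s q.1 * Real.exp (-s q.1 ^ 2)) * c q.2)]
    simp only [← Finset.mul_sum, hc1, mul_one]
    have h5 : ∑ j : Fin J, 17 / 64 * s j * Real.exp (-s j ^ 2) ≤ 5 := by
      have hG : ∀ j, 17 / 64 * s j * Real.exp (-s j ^ 2)
          ≤ 5 * (s (j + 1) / (1 + s (j + 1))) - 5 * (s j / (1 + s j)) := fun j => by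
        rw [hs1, ← mul_sub]
        exact sqrt_cell_le (hsp j)
      refine (Finset.sum_le_sum fun (j : Fin J) _ => hG j).trans ?_
      rw [Fin.sum_univ_eq_sum_range (fun j => 5 * (s (j + 1) / (1 + s (j + 1)))
        - 5 * (s j / (1 + s j))), Finset.sum_range_sub (fun j => 5 * (s j / (1 + s j)))]
      have a1 : s J / (1 + s J) ≤ 1 := (div_le_one (by linarith [hsp J])).2 (by linarith [hsp J])
      have a2 : 0 ≤ s 0 / (1 + s 0) := div_nonneg (hsp 0).le (by linarith [hsp 0])
      linarith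
    linarith
  refine ⟨J * (k + 1), R, hM, ⟨ht0p, fun q => (hb0 _).trans (hτb _), fun q => hw _, ?_, ?_, ?_⟩⟩
  · show ∑ q, w (e q) ≤ 2
    rw [e.sum_comp w]
    linarith
  · show ∑ q, w (e q) / √(1 - Real.exp (-τ (e q)) ^ 2) ≤ 8
    rw [e.sum_comp (fun q => w q / √(1 - Real.exp (-τ q) ^ 2))]
    exact sumdiv
  · intro l hl
    show |∑ q, w (e q) * ((1 + l) * Real.exp (-(l * τ (e q)))) - _| ≤ _
    rw [e.sum_comp (fun q => w q * ((1 + l) * Real.exp (-(l * τ q))))]
    exact key l hl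

end

end P347.Quarter
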