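import Vale.Agent.P347.Quarter.Path

/-!
# P347: smoothing and contraction of the proximal chain, and the Stein sum of the inner chain
-/

namespace P347.Quarter

open MeasureTheory ProbabilityTheory Filter Topology Finset
open scoped RealInnerProductSpace

noncomputable section

variable {d J : ℕ} {p : Space d → Space d} {η h : ℝ}

set_option linter.unusedVariables false

variable {T : (Space d → ℝ) → Space d → ℝ} {Tv : (Space d → Space d) → Space d → Space d} {s c : ℝ}

theorem Avg.sub_iter (A : Avg T Tv s c) {f g : Space d → ℝ} {B B' : ℝ} (hf : Bdd f B) (hg : Bdd g B')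
    (n : ℕ) (x : Space d) : T^[n] (fun y => f y - g y) x = T^[n] f x - T^[n] g x := by
  induction n generalizing x with
  | zero => rfl
  | succ n ih =>
    rw [Function.iterate_succ_apply', Function.iterate_succ_apply', Function.iterate_succ_apply',
      funext ih, A.sub (A.bdd_iter hf n) (A.bdd_iter hg n)]

theorem Avg.mono_iter (A : Avg T Tv s c) {f g : Space d → ℝ} {B B' : ℝ} (hf : Bdd f B)
    (hg : Bdd g B') (hfg : ∀ y, f y ≤ g y) (n : ℕ) (x : Space d) : T^[n] f x ≤ T^[n] g x := by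
  induction n generalizing x with
  | zero => exact hfg x
  | succ n ih =>
    rw [Function.iterate_succ_apply', Function.iterate_succ_apply']
    exact A.mono (A.bdd_iter hf n) (A.bdd_iter hg n) ih x

theorem Avg.jensen_iter (A : Avg T Tv s c) {f : Space d → ℝ} {B : ℝ} (hf : Bdd f B) (n : ℕ)
    (x : Space d) : T^[n] f x ^ 2 ≤ T^[n] (fun y => f y ^ 2) x := by
  induction n generalizing x with
  | zero => exact le_rfl
  | succ n ih =>
    rw [Function.iterate_succ_apply', Function.iterate_succ_apply']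
    exact (A.jensen (A.bdd_iter hf n) x).trans
      (A.mono (A.bdd_iter hf n).sq (A.bdd_iter hf.sq n) ih x)

theorem Bdd.subv {f g : Space d → Space d} {B B' : ℝ} (hf : Bdd f B) (hg : Bdd g B') :
    Bdd (fun y => f y - g y) (B + B') :=
  ⟨hf.cont.sub hg.cont, fun y => (norm_sub_le _ _).trans (add_le_add (hf.bound y) (hg.bound y))⟩

theorem Bdd.smulv {f : Space d → Space d} {B : ℝ} (hf : Bdd f B) (r : ℝ) :
    Bdd (fun y => r • f y) (|r| * B) :=
  ⟨hf.cont.const_smul r, fun y => by
    rw [norm_smul, Real.norm_eq_abs]; exact mul_le_mul_of_nonneg_left (hf.bound y) (abs_nonneg r)⟩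

/-- The vector operator is linear. -/
theorem Avg.subv_smul_iter (A : Avg T Tv s c) {f g : Space d → Space d} {B B' : ℝ} (hf : Bdd f B)
    (hg : Bdd g B') (r : ℝ) (n : ℕ) :
    Tv^[n] (fun y => r • f y - g y) = fun x => r • Tv^[n] f x - Tv^[n] g x := by
  funext x
  refine ext_inner_left ℝ fun e => ?_
  have hi : ∀ {Φ : Space d → Space d} {C : ℝ}, Bdd Φ C →
      ⟪e, Tv^[n] Φ x⟫ = T^[n] (fun y => ⟪e, Φ y⟫) x :=
    fun hΦ => congrFun (A.inner_iter hΦ e n) x
  rw [hi ((hf.smulv r).subv hg), inner_sub_right, real_inner_smul_right, hi hf, hi hg,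
    ← A.smul_iter (hf.inner e) r n x]
  have hfun : (fun y => ⟪e, r • f y - g y⟫) = fun y => r * ⟪e, f y⟫ - ⟪e, g y⟫ := by
    funext y; rw [inner_sub_right, real_inner_smul_right]
  have hb : Bdd (fun y => r * ⟪e, f y⟫) (|r| * (‖e‖ * B)) :=
    ⟨continuous_const.mul (hf.inner e).cont, fun y => by
      rw [norm_mul, Real.norm_eq_abs r]
      exact mul_le_mul_of_nonneg_left ((hf.inner e).bound y) (abs_nonneg r)⟩
  rw [hfun, A.sub_iter hb (hg.inner e)]

/-! ### The factors -/

theorem qfac_le (hp : Pot p η) (h0 : 0 ≤ h) : qfac η h ≤ 1 - h := by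
  unfold qfac; nlinarith [hp.pos]

theorem geom_qfac (η h : ℝ) (J : ℕ) :
    h * (∑ i ∈ range J, qfac η h ^ i) * (1 + η) = 1 - qfac η h ^ J := by
  rw [← geom_sum_mul_neg (qfac η h) J]
  unfold qfac
  ring

theorem sum_qfac_le (hp : Pot p η) (h0 : 0 < h) (h8 : h ≤ 1 / 8) (J : ℕ) :
    h * ∑ i ∈ range J, qfac η h ^ i ≤ 1 := by
  have hq := qfac_nonneg hp h8 h0.le
  have h1 := geom_qfac η h J
  have h2 : 0 ≤ h * ∑ i ∈ range J, qfac η h ^ i := by positivity
  nlinarith [hp.pos, pow_nonneg hq J]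

theorem path_factor_le (hp : Pot p η) (hF : Fine h J) :
    qfac η h ^ J + h * ∑ i ∈ range J, qfac η h ^ i ≤ (1 + η / 2)⁻¹ := by
  have hq := qfac_nonneg hp hF.small hF.pos.le
  have h1 := geom_qfac η h J
  have h2 : qfac η h ^ J ≤ 1 / 16 := (pow_le_pow_left₀ hq (by
    unfold qfac; nlinarith [hp.pos, hF.pos]) J).trans hF.long
  have hη := hp.pos
  rw [← one_div, le_div_iff₀ (by positivity)]
  have h3 : (qfac η h ^ J + h * ∑ i ∈ range J, qfac η h ^ i) * (1 + η)
      = 1 + η * qfac η h ^ J := by rw [add_mul, h1]; ring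
  have h4 : 0 ≤ qfac η h ^ J + h * ∑ i ∈ range J, qfac η h ^ i := by
    have := hF.pos; positivity
  refine le_of_mul_le_mul_right (le_of_le_of_eq (b := (1 + η / 2) * (1 + η * (1 / 16))) ?_ rfl |>.trans
    ?_) (by positivity : (0 : ℝ) < 1 + η)
  · rw [mul_right_comm, h3, mul_comm _ (1 + η / 2)]
    exact mul_le_mul_of_nonneg_left (by nlinarith) (by positivity)
  · nlinarith [hp.small]

theorem path_factor_le_one (hp : Pot p η) (hF : Fine h J) :
    qfac η h ^ J + h * ∑ i ∈ range J, qfac η h ^ i ≤ 1 :=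
  (path_factor_le hp hF).trans (inv_le_one_of_one_le₀ (by linarith [hp.pos]))

/-! ### The proximal chain -/

theorem grad_piJ_le (hp : Pot p η) (hF : Fine h J) {f : Space d → ℝ} {L : ℝ} (hf : Lip1 f L)
    (v : Space d) :
    ‖gradient (piJ p h J f) v‖ ≤ piJ p h J (fun y => ‖gradient f y‖) v ∧
      ‖gradient (piJ p h J f) v - piJ p h J (gradient f) v‖ ≤ 2 * η * L := by
  obtain ⟨h1, h2, h3⟩ := path_bounds hp hF.pos hF.small hf J v v
  rw [(gradient_piJ hp hF.pos.le hF.small hf J).2 v]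
  have A := avg_eul hp hF.pos hF.small v
  have hb := A.bdd_iter hf.bdd_gradient.norm J
  have hN0 : 0 ≤ piJ p h J (fun y => ‖gradient f y‖) v :=
    (le_of_eq (by simpa using (A.smul_iter (bdd_const (d := d) 0) 0 J v).symm)).trans
      (A.mono_iter (bdd_const 0) hf.bdd_gradient.norm (fun y => norm_nonneg _) J v)
  have hNL : piJ p h J (fun y => ‖gradient f y‖) v ≤ L := (le_abs_self _).trans (hb.bound v)
  refine ⟨?_, ?_⟩
  · refine (norm_add_le _ _).trans ((add_le_add h1 h2).trans ?_)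
    rw [← add_mul]
    exact mul_le_of_le_one_left hN0 (path_factor_le_one hp hF)
  · refine h3.trans ?_
    exact mul_le_mul (mul_le_of_le_one_right (by linarith [hp.pos])
      (sum_qfac_le hp hF.pos hF.small J)) hNL hN0 (by linarith [hp.pos])

theorem lip1_piJ (hp : Pot p η) (hF : Fine h J) {f : Space d → ℝ} {L : ℝ} (hf : Lip1 f L) :
    Lip1 (piJ p h J f) L :=
  ⟨(gradient_piJ hp hF.pos.le hF.small hf J).1, fun v =>
    (norm_gradient v).ge.trans ((grad_piJ_le hp hF hf v).1.trans
      ((le_abs_self _).trans ((bdd_piJ hp hf.bdd_gradient.norm J).bound v)))⟩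

/-- The proximal chain as an averaging operator. -/
theorem avg_qop (hp : Pot p η) (hF : Fine h J) : Avg (qop p h J) (qop p h J) 1 1 where
  pos := one_pos
  c_nonneg := zero_le_one
  c_le := le_rfl
  bdd := fun hf => (bdd_piJ hp hf J).gav 1
  bddv := fun hf => (bdd_piJ hp hf J).gav 1
  smooth := fun hf => (bdd_piJ hp hf J).contDiff one_ne_zero
  smoothv := fun hf => (bdd_piJ hp hf J).contDiff one_ne_zero
  sub := fun {f g B B'} hf hg x => by
    have e : piJ p h J (fun y => f y - g y) = fun v => piJ p h J f v - piJ p h J g v :=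
      funext fun v => (avg_eul hp hF.pos hF.small v).sub_iter hf hg J v
    rw [qop, e]
    exact gav_sub (bdd_piJ hp hf J) (bdd_piJ hp hg J) 1 x
  smul := fun {f B} hf r x => by
    have e : piJ p h J (fun y => r * f y) = fun v => r * piJ p h J f v :=
      funext fun v => (avg_eul hp hF.pos hF.small v).smul_iter hf r J v
    rw [qop, qop, e]
    simp only [gav, integral_const_mul]
  mono := fun hf hg hfg x => gav_mono (bdd_piJ hp hf J) (bdd_piJ hp hg J)
    (fun v => (avg_eul hp hF.pos hF.small v).mono_iter hf hg hfg J v) 1 x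
  inner := fun {Φ B} hf e x => by
    rw [qop, inner_gav (bdd_piJ hp hf J)]
    congr 1
    exact funext fun v => congrFun ((avg_eul hp hF.pos hF.small v).inner_iter hf e J) v
  var := fun {f B} hf x => by
    refine (gradient_gav_sq_le (bdd_piJ hp hf J) one_pos x).trans (sub_le_sub_right ?_ _)
    exact gav_mono (bdd_piJ hp hf J).sq (bdd_piJ hp hf.sq J)
      (fun v => (avg_eul hp hF.pos hF.small v).jensen_iter hf J v) 1 x
  grad := fun {f L} hf x => by
    rw [one_mul, qop, (lip1_piJ hp hF hf).gradient_gav]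
    exact norm_gav_le (bdd_piJ hp hf.bdd_gradient.norm J) (fun v => (grad_piJ_le hp hF hf v).1) 1 x

theorem qop_mem (hp : Pot p η) (hF : Fine h J) {f : Space d → ℝ} (hc : Continuous f)
    (hf : ∀ x, f x ∈ Set.Icc (0 : ℝ) 1) :
    Continuous (piJ p h J f) ∧ ∀ v, piJ p h J f v ∈ Set.Icc (0 : ℝ) 1 := by
  have hb : Bdd f 1 := ⟨hc, fun x => abs_le.2 ⟨by linarith [(hf x).1], (hf x).2⟩⟩
  have hconst : ∀ (r : ℝ) (v : Space d), piJ p h J (fun _ => r) v = r := fun r v => by
    have : ∀ j, (eulOp p h v)^[j] (fun _ => r) = fun _ => r := by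
      intro j
      induction j with
      | zero => rfl
      | succ j ih =>
        rw [Function.iterate_succ_apply', ih]
        funext x
        simp [eulOp, gav]
    exact congrFun (this J) v
  refine ⟨(bdd_piJ hp hb J).cont, fun v => ⟨?_, ?_⟩⟩
  · exact (hconst 0 v).ge.trans
      ((avg_eul hp hF.pos hF.small v).mono_iter (bdd_const 0) hb (fun y => (hf y).1) J v)
  · exact ((avg_eul hp hF.pos hF.small v).mono_iter hb (bdd_const 1) (fun y => (hf y).2) J v).trans
      (hconst 1 v).le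

theorem qiter_mem (hp : Pot p η) (hF : Fine h J) {f : Space d → ℝ} (hc : Continuous f)
    (hf : ∀ x, f x ∈ Set.Icc (0 : ℝ) 1) (k : ℕ) :
    Continuous ((qop p h J)^[k] f) ∧ ∀ x, (qop p h J)^[k] f x ∈ Set.Icc (0 : ℝ) 1 := by
  induction k with
  | zero => exact ⟨hc, hf⟩
  | succ k ih =>
    rw [Function.iterate_succ_apply']
    obtain ⟨h1, h2⟩ := qop_mem hp hF ih.1 ih.2
    have hb : Bdd (piJ p h J ((qop p h J)^[k] f)) 1 :=
      ⟨h1, fun x => abs_le.2 ⟨by linarith [(h2 x).1], (h2 x).2⟩⟩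
    refine ⟨(hb.gav 1).cont, fun x => ⟨integral_nonneg fun z => (h2 _).1, ?_⟩⟩
    exact (integral_mono ((hb.shift 1 x).integrable _) (integrable_const 1)
      fun z => (h2 _).2).trans (le_of_eq (by simp))

theorem sum_inv_sqrt_le (n : ℕ) : ∑ i ∈ range n, (√((i : ℝ) + 1))⁻¹ ≤ 2 * √(n : ℝ) := by
  induction n with
  | zero => simp
  | succ n ih =>
    rw [Finset.sum_range_succ]
    push_cast
    have hp : 0 < √((n : ℝ) + 1) := by positivity
    have h1 : (√((n : ℝ) + 1))⁻¹ ≤ 2 * (√((n : ℝ) + 1) - √(n : ℝ)) := by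
      rw [inv_eq_one_div, div_le_iff₀ hp]
      nlinarith [Real.mul_self_sqrt (show (0 : ℝ) ≤ (n : ℝ) + 1 by positivity),
        Real.mul_self_sqrt (Nat.cast_nonneg (α := ℝ) n), sq_nonneg (√((n : ℝ) + 1) - √(n : ℝ))]
    linarith

/-- The Hessian of `Q ^ (n + j) f`, from `n`. -/
theorem frob_qiter_le (hp : Pot p η) (hF : Fine h J) {f : Space d → ℝ} (hb : Bdd f 1) {n : ℕ}
    (hn : 1 ≤ n) : ∀ (j l : ℕ), 1 ≤ l + j → ∀ x,
    frob (fderiv ℝ ((qop p h J)^[l] (gradient ((qop p h J)^[n + j] f))) x)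
      ≤ (√(n : ℝ))⁻¹ * (√((l + j : ℕ) : ℝ))⁻¹
        + 2 * η * (√(n : ℝ))⁻¹ * ∑ i ∈ range j, (√((max (l + i) 1 : ℕ) : ℝ))⁻¹ := by
  set A := avg_qop hp hF
  have hlip : ∀ m, n ≤ m → Lip1 ((qop p h J)^[m] f) (√(n : ℝ))⁻¹ := fun m hm => by
    obtain ⟨k, rfl⟩ : ∃ k, m = k + 1 := ⟨m - 1, by omega⟩
    refine ⟨?_, fun x => ?_⟩
    · rw [Function.iterate_succ_apply']; exact A.smooth (A.bdd_iter hb k)
    · refine (norm_gradient x).ge.trans ((A.iter_grad_le hb (by omega) x).trans ?_)
      rw [one_mul, one_div]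
      exact inv_anti₀ (by positivity) (Real.sqrt_le_sqrt (by exact_mod_cast hm))
  intro j
  induction j with
  | zero =>
    intro l hl x
    refine (A.iter_frob_le (hlip n le_rfl).bdd_gradient (by omega) x).trans (le_of_eq ?_)
    simp [div_eq_mul_inv]
  | succ j ih =>
    intro l _ x
    set g := (qop p h J)^[n + j] f with hg
    have hgl : Lip1 g (√(n : ℝ))⁻¹ := hlip _ (by omega)
    set r := fun v => piJ p h J (gradient g) v - gradient (piJ p h J g) v with hr
    have hbr : Bdd r (2 * η * (√(n : ℝ))⁻¹) :=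
      ⟨(bdd_piJ hp hgl.bdd_gradient J).cont.sub (continuous_gradient (lip1_piJ hp hF hgl).smooth),
        fun v => by rw [hr, norm_sub_rev]; exact (grad_piJ_le hp hF hgl v).2⟩
    have hstep : gradient ((qop p h J)^[n + (j + 1)] f)
        = fun x => (1 : ℝ) • qop p h J (gradient g) x - gav 1 r x := by
      funext x
      rw [show n + (j + 1) = (n + j) + 1 by ring, Function.iterate_succ_apply', ← hg, qop,
        (lip1_piJ hp hF hgl).gradient_gav, one_smul, qop]
      simp only [gav]
      rw [← integral_sub (((bdd_piJ hp hgl.bdd_gradient J).shift 1 x).integrable _)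
        ((hbr.shift 1 x).integrable _)]
      exact integral_congr_ae (Eventually.of_forall fun z => by simp [hr])
    have hbq : Bdd (qop p h J (gradient g)) (√(n : ℝ))⁻¹ := A.bddv hgl.bdd_gradient
    have hbg : Bdd (gav 1 r) (2 * η * (√(n : ℝ))⁻¹) := hbr.gav 1
    rw [hstep, A.subv_smul_iter hbq hbg]
    simp only [one_smul, ← Function.iterate_succ_apply]
    have d1 : DifferentiableAt ℝ ((qop p h J)^[l + 1] (gradient g)) x :=
      A.differentiableAt_iter hgl.bdd_gradient (by omega) x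
    have d2 : DifferentiableAt ℝ ((qop p h J)^[l] (gav 1 r)) x := by
      rcases Nat.eq_zero_or_pos l with rfl | hl
      · exact (hbr.contDiff one_ne_zero).differentiable one_ne_zero x
      · exact A.differentiableAt_iter hbg hl x
    rw [fderiv_fun_sub d1 d2]
    refine (frob_sub_le _ _).trans ((add_le_add (ih (l + 1) (by omega) x)
      (?_ : frob (fderiv ℝ ((qop p h J)^[l] (gav 1 r)) x)
        ≤ 2 * η * (√(n : ℝ))⁻¹ * (√((max l 1 : ℕ) : ℝ))⁻¹)).trans (le_of_eq ?_))
    · rcases Nat.eq_zero_or_pos l with rfl | hl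
      · simpa using hbr.frob_fderiv_gav_le' one_pos x
      · rw [max_eq_left hl]
        refine (A.iter_frob_le hbg hl x).trans (le_of_eq ?_)
        simp [div_eq_mul_inv]
    · rw [Finset.sum_range_succ' (fun i => (√((max (l + i) 1 : ℕ) : ℝ))⁻¹) j,
        Finset.sum_congr rfl (fun i _ => by rw [show l + (i + 1) = l + 1 + i by ring] :
          ∀ i ∈ range j, (√((max (l + (i + 1)) 1 : ℕ) : ℝ))⁻¹ = (√((max (l + 1 + i) 1 : ℕ) : ℝ))⁻¹),
        show l + (j + 1) = l + 1 + j by ring, add_zero]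
      ring

/-- L1: smoothing. -/
theorem smoothing : SmoothingSpec := by
  refine ⟨20, by norm_num, fun d p η h J hp hF f hc hf k hk => ?_⟩
  have hb : Bdd f 1 := ⟨hc, fun x => abs_le.2 ⟨by linarith [(hf x).1], (hf x).2⟩⟩
  set A := avg_qop hp hF
  have hη := hp.pos
  obtain ⟨k', rfl⟩ : ∃ k', k = k' + 1 := ⟨k - 1, by omega⟩
  have hT : Test2 ((qop p h J)^[k' + 1] f) (1 : ℝ)⁻¹ (2 * (1 : ℝ)⁻¹ ^ 2) := by
    rw [Function.iterate_succ_apply']
    obtain ⟨h1, h2⟩ := qiter_mem hp hF hc hf k'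
    obtain ⟨h3, h4⟩ := qop_mem hp hF h1 h2
    exact test2_gav h3 h4 one_pos
  refine ⟨⟨hT.smooth, fun x => ?_, fun x => ?_⟩, (qiter_mem hp hF hc hf _).2⟩
  · refine (A.iter_grad_le hb hk x).trans ?_
    rw [one_mul]
    exact div_le_div_of_nonneg_right (by norm_num) (Real.sqrt_nonneg _)
  rcases Nat.eq_zero_or_pos k' with rfl | hk'
  · refine (hT.hess x).trans ?_
    push_cast
    norm_num
    linarith
  set n := (k' + 1) / 2 with hn
  set j := k' + 1 - n with hj
  have hkey := frob_qiter_le hp hF hb (show 1 ≤ n by omega) j 0 (by omega) x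
  rw [show n + j = k' + 1 by omega] at hkey
  simp only [Function.iterate_zero, id_eq, zero_add] at hkey
  refine hkey.trans ?_
  have hn0 : (0 : ℝ) < √(n : ℝ) := Real.sqrt_pos.2 (by exact_mod_cast (show 0 < n by omega))
  have hj0 : (0 : ℝ) < √(j : ℝ) := Real.sqrt_pos.2 (by exact_mod_cast (show 0 < j by omega))
  have hk3 : ((k' + 1 : ℕ) : ℝ) ≤ 3 * (√(n : ℝ) * √(j : ℝ)) := by
    rw [← Real.sqrt_mul (Nat.cast_nonneg n), show (3 : ℝ) = √9 by
      rw [show (9 : ℝ) = 3 ^ 2 by norm_num, Real.sqrt_sq (by norm_num)],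
      ← Real.sqrt_mul (by norm_num), Real.le_sqrt (Nat.cast_nonneg _) (by positivity)]
    have h1 : k' + 1 ≤ 3 * n := by omega
    have h2 : k' + 1 ≤ 2 * j := by omega
    have h3 : (k' + 1) ^ 2 ≤ 9 * (n * j) := by nlinarith
    exact_mod_cast h3
  have hsum : ∑ i ∈ range j, (√((max i 1 : ℕ) : ℝ))⁻¹ ≤ 2 * (2 * √(j : ℝ)) := by
    refine le_trans (Finset.sum_le_sum fun i _ => ?_)
      ((Finset.mul_sum _ _ _).symm.trans_le (mul_le_mul_of_nonneg_left (sum_inv_sqrt_le j) (by norm_num)))
    have h4 : √((i : ℝ) + 1) ≤ 2 * √((max i 1 : ℕ) : ℝ) := by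
      rw [show (2 : ℝ) = √4 by rw [show (4 : ℝ) = 2 ^ 2 by norm_num, Real.sqrt_sq (by norm_num)],
        ← Real.sqrt_mul (by norm_num)]
      refine Real.sqrt_le_sqrt ?_
      have : i + 1 ≤ 4 * max i 1 := by omega
      exact_mod_cast this
    have h5 : 0 < √((max i 1 : ℕ) : ℝ) := Real.sqrt_pos.2 (by
      exact_mod_cast (show 0 < max i 1 by omega))
    rw [inv_le_iff_one_le_mul₀ h5, ← div_eq_mul_inv, div_mul_eq_mul_div,
      le_div_iff₀ (by positivity), one_mul]
    linarith
  have hjn : √(j : ℝ) ≤ 2 * √(n : ℝ) := by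
    rw [show (2 : ℝ) = √4 by rw [show (4 : ℝ) = 2 ^ 2 by norm_num, Real.sqrt_sq (by norm_num)],
      ← Real.sqrt_mul (by norm_num)]
    refine Real.sqrt_le_sqrt ?_
    exact_mod_cast (show j ≤ 4 * n by omega)
  have e1 : (√(n : ℝ))⁻¹ * (√(j : ℝ))⁻¹ ≤ 3 * (1 / ((k' + 1 : ℕ) : ℝ)) := by
    rw [← mul_inv, mul_one_div, inv_eq_one_div,
      div_le_div_iff₀ (by positivity) (by positivity)]
    linarith
  have e2 : 2 * η * (√(n : ℝ))⁻¹ * ∑ i ∈ range j, (√((max i 1 : ℕ) : ℝ))⁻¹ ≤ 16 * η := by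
    refine (mul_le_mul_of_nonneg_left (hsum.trans (mul_le_mul_of_nonneg_left
      (mul_le_mul_of_nonneg_left hjn (by norm_num)) (by norm_num))) (by positivity)).trans
      (le_of_eq ?_)
    field_simp
    ring
  have : (0 : ℝ) ≤ 1 / ((k' + 1 : ℕ) : ℝ) := by positivity
  nlinarith

/-- L1: contraction. -/
theorem contraction : ContractionSpec := by
  intro d p η h J hp hF f K hK k x y
  rcases eq_or_ne x y with rfl | hxy
  · simp
  have hK0 : 0 ≤ K :=
    nonneg_of_mul_nonneg_left ((abs_nonneg _).trans (hK x y)) (norm_pos_iff.2 (sub_ne_zero.2 hxy))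
  set r := (1 + η / 2)⁻¹ with hr
  have hη := hp.pos
  suffices H : ∀ k x y, |(qop p h J)^[k] f x - (qop p h J)^[k] f y| ≤ r ^ k * K * ‖x - y‖ by
    simpa [mul_assoc] using H k x y
  intro k
  induction k with
  | zero => intro x y; simpa using hK x y
  | succ k ih =>
    intro x y
    set g := (qop p h J)^[k] f
    have hp1 : ∀ a b : Space d, |piJ p h J g a - piJ p h J g b| ≤ r ^ (k + 1) * K * ‖a - b‖ := fun a b => by
      refine (iter_lip hp hF.pos.le hF.small (by positivity) ih J a b a b).trans ?_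
      rw [← add_mul]
      refine (mul_le_mul_of_nonneg_left (mul_le_mul_of_nonneg_right (path_factor_le hp hF)
        (norm_nonneg (a - b))) (by positivity : 0 ≤ r ^ k * K)).trans (le_of_eq ?_)
      rw [pow_succ, hr]; ring
    have hint : ∀ a : Space d,
        Integrable (fun z : Space d => piJ p h J g (a + (1 : ℝ) • z)) (stdGaussian (Space d)) :=
      fun a => integrable_of_lip (E := Space d) (L := r ^ (k + 1) * K)
        (fun s t => by simpa using hp1 (a + (1 : ℝ) • s) (a + (1 : ℝ) • t))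
        ((continuous_of_lip (E := Space d) (by positivity) hp1).comp (by fun_prop))
    rw [Function.iterate_succ_apply', qop, gav, gav, ← integral_sub (hint x) (hint y)]
    exact abs_integral_le_integral_abs.trans ((integral_mono_of_nonneg
      (Eventually.of_forall fun _ => abs_nonneg _) (integrable_const _)
      (Eventually.of_forall fun z => by simpa using hp1 (x + (1 : ℝ) • z) (y + (1 : ℝ) • z))).trans
      (le_of_eq (by simp)))

/-! ### The Stein sum -/

theorem sum_range_div_two_le (g : ℕ → ℝ) (hg : ∀ t, 0 ≤ g t) (J : ℕ) :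
    ∑ m ∈ range J, g (m / 2) ≤ 2 * ∑ t ∈ range J, g t := by
  have h1 : ∀ N, ∑ m ∈ range (2 * N), g (m / 2) = 2 * ∑ t ∈ range N, g t := by
    intro N
    induction N with
    | zero => simp
    | succ N ih =>
      rw [show 2 * (N + 1) = 2 * N + 1 + 1 by ring, Finset.sum_range_succ, Finset.sum_range_succ, ih,
        Finset.sum_range_succ g, show 2 * N / 2 = N by omega, show (2 * N + 1) / 2 = N by omega]
      ring
  rw [← h1]
  exact Finset.sum_le_sum_of_subset_of_nonneg (range_mono (by omega)) fun t _ _ => hg _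

theorem sum_pow_div_sqrt_le {q : ℝ} (hq0 : 0 ≤ q) (hq : q ≤ 1 - h) (h0 : 0 < h) (h1 : h ≤ 1) (J : ℕ) :
    ∑ t ∈ range J, q ^ t * (√((t : ℝ) + 1))⁻¹ ≤ 4 / √h := by
  set N := ⌈1 / h⌉₊ with hN
  have hN1 : 1 / h ≤ (N : ℝ) := Nat.le_ceil _
  have hN2 : (N : ℝ) ≤ 2 / h := by
    have h3 := Nat.ceil_lt_add_one (show 0 ≤ 1 / h by positivity)
    have h4 : (1 : ℝ) ≤ 1 / h := by rw [le_div_iff₀ h0]; linarith
    rw [show 2 / h = 1 / h + 1 / h by ring]
    rw [hN]; linarith
  have hq1 : q ≤ 1 := by linarith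
  have hpt : ∀ t : ℕ, q ^ t * (√((t : ℝ) + 1))⁻¹
      ≤ (if t < N then (√((t : ℝ) + 1))⁻¹ else 0) + √h * q ^ t := fun t => by
    have h2 : 0 ≤ √h * q ^ t := by positivity
    split_ifs with ht
    · have : q ^ t * (√((t : ℝ) + 1))⁻¹ ≤ (√((t : ℝ) + 1))⁻¹ :=
        mul_le_of_le_one_left (by positivity) (pow_le_one₀ hq0 hq1)
      linarith
    · rw [zero_add, mul_comm]
      refine mul_le_mul_of_nonneg_right ?_ (pow_nonneg hq0 t)
      rw [inv_le_iff_one_le_mul₀ (by positivity), ← Real.sqrt_mul h0.le, Real.one_le_sqrt]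
      have h5 : (N : ℝ) ≤ (t : ℝ) + 1 := by exact_mod_cast (by omega : N ≤ t + 1)
      have h6 : 1 ≤ h * (N : ℝ) := by rw [div_le_iff₀ h0] at hN1; linarith
      nlinarith
  refine (Finset.sum_le_sum fun t _ => hpt t).trans ?_
  rw [Finset.sum_add_distrib, ← Finset.mul_sum, ← Finset.sum_filter]
  have hA : ∑ t ∈ (range J).filter (fun t => t < N), (√((t : ℝ) + 1))⁻¹ ≤ 2 * √(2 / h) := by
    refine (Finset.sum_le_sum_of_subset_of_nonneg (t := range N) (fun t ht => by
      simp only [Finset.mem_filter, Finset.mem_range] at ht ⊢; exact ht.2)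
      fun t _ _ => by positivity).trans ?_
    exact (sum_inv_sqrt_le N).trans (mul_le_mul_of_nonneg_left (Real.sqrt_le_sqrt hN2) (by norm_num))
  have hB : √h * ∑ t ∈ range J, q ^ t ≤ 1 / √h := by
    have h7 := geom_sum_mul_neg q J
    have h8 : h * ∑ t ∈ range J, q ^ t ≤ 1 := by
      have h9 : 0 ≤ ∑ t ∈ range J, q ^ t := Finset.sum_nonneg fun t _ => pow_nonneg hq0 t
      nlinarith [pow_nonneg hq0 J]
    rw [le_div_iff₀ (by positivity), mul_right_comm, Real.mul_self_sqrt h0.le]
    exact h8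
  have hs : √2 ≤ 3 / 2 := by
    rw [Real.sqrt_le_left (by norm_num)]; norm_num
  rw [Real.sqrt_div (by norm_num : (0 : ℝ) ≤ 2)] at hA
  have : 2 * (√2 / √h) ≤ 3 / √h := by
    rw [mul_div, div_le_div_iff_of_pos_right (by positivity)]; linarith
  have : (3 : ℝ) / √h + 1 / √h = 4 / √h := by ring
  linarith

theorem lip1_eulIter (hp : Pot p η) (h0 : 0 < h) (h8 : h ≤ 1 / 8) {u : Space d → ℝ} {α : ℝ}
    (hu : Lip1 u α) (v : Space d) (j : ℕ) : Lip1 ((eulOp p h v)^[j] u) (qfac η h ^ j * α) := by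
  induction j with
  | zero => simpa using hu
  | succ j ih =>
    rw [Function.iterate_succ_apply', pow_succ', mul_assoc]
    obtain ⟨h1, h2⟩ := gradient_eulOp hp h0.le h8 ih v
    refine ⟨(h1.gav _).smooth, fun x => (norm_gradient x).ge.trans ?_⟩
    rw [h2]
    refine norm_gav_le_const (fun y => (hp.step_le h0.le h8 y _).trans ?_) _ x
    exact mul_le_mul_of_nonneg_left (ih.bdd_gradient.bound _) (qfac_nonneg hp h8 h0.le)

/-- The weight of one error term after `m` further steps. -/
def eulDecay (η h : ℝ) (m : ℕ) : ℝ := qfac η h ^ (m / 2) * (2 / (√(2 * h) * √((m : ℝ) + 1)))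

theorem frob_eul_smooth (hp : Pot p η) (h0 : 0 < h) (h8 : h ≤ 1 / 8) {r : Space d → Space d} {B : ℝ}
    (hr : Bdd r B) (v : Space d) (m : ℕ) (x : Space d) :
    frob (fderiv ℝ ((eulOp p h v)^[m] (gav √(2 * h) r)) x) ≤ B * eulDecay η h m := by
  have hB : 0 ≤ B := hr.nonneg
  have hσ : 0 < √(2 * h) := by positivity
  have A := avg_eul hp h0 h8 v
  have hR := hr.gav √(2 * h)
  rcases Nat.eq_zero_or_pos m with rfl | hm
  · refine (hr.frob_fderiv_gav_le' hσ x).trans ?_
    simp only [eulDecay, Nat.zero_div, pow_zero, one_mul, Nat.cast_zero, zero_add, Real.sqrt_one,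
      mul_one]
    rw [mul_comm]
    refine mul_le_mul_of_nonneg_left ?_ hB
    rw [inv_eq_one_div]
    exact div_le_div_of_nonneg_right (by norm_num) hσ.le
  · obtain ⟨b, hb⟩ : ∃ b, m = m / 2 + b := ⟨m - m / 2, by omega⟩
    have hb1 : 1 ≤ b := by omega
    conv_lhs => rw [hb, Function.iterate_add_apply]
    have hs : ContDiff ℝ 1 ((eulOp p h v)^[b] (gav √(2 * h) r)) := by
      obtain ⟨b', rfl⟩ : ∃ b', b = b' + 1 := ⟨b - 1, by omega⟩
      rw [Function.iterate_succ_apply']; exact A.smoothv (A.bddv_iter hR b')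
    refine (A.frob_contract_iter (A.bddv_iter hR b) hs (A.iter_frob_le hR hb1) (m / 2) x).trans ?_
    rw [eulDecay, ← mul_assoc, mul_comm B, mul_assoc]
    refine mul_le_mul_of_nonneg_left ?_ (pow_nonneg (qfac_nonneg hp h8 h0.le) _)
    rw [mul_div]
    have h4 : √((m : ℝ) + 1) ≤ 2 * √(b : ℝ) := by
      rw [show (2 : ℝ) = √4 by rw [show (4 : ℝ) = 2 ^ 2 by norm_num, Real.sqrt_sq (by norm_num)],
        ← Real.sqrt_mul (by norm_num)]
      refine Real.sqrt_le_sqrt ?_
      exact_mod_cast (show m + 1 ≤ 4 * b by omega)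
    have hb0 : 0 < √(b : ℝ) := Real.sqrt_pos.2 (by exact_mod_cast hb1)
    rw [div_le_div_iff₀ (by positivity) (by positivity)]
    nlinarith [mul_le_mul_of_nonneg_left h4 (mul_nonneg hB hσ.le)]

theorem frob_eulIter_le (hp : Pot p η) (h0 : 0 < h) (h8 : h ≤ 1 / 8) {u : Space d → ℝ} {α β : ℝ}
    (hu : Test2 u α β) (hβ : 0 ≤ β) (v : Space d) : ∀ (j l : ℕ) (x : Space d),
    DifferentiableAt ℝ ((eulOp p h v)^[l] (gradient ((eulOp p h v)^[j] u))) x ∧
    frob (fderiv ℝ ((eulOp p h v)^[l] (gradient ((eulOp p h v)^[j] u))) x)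
      ≤ qfac η h ^ (l + j) * β
        + 2 * h * η * α * ∑ i ∈ range j, qfac η h ^ i * eulDecay η h (l + j - 1 - i) := by
  have A := avg_eul hp h0 h8 v
  have hl : Lip1 u α := ⟨hu.smooth.of_le (by norm_num), fun x => (norm_gradient x).ge.trans (hu.grad x)⟩
  have hgc : ContDiff ℝ 1 (gradient u) := by
    have h1 : ContDiff ℝ 1 (fderiv ℝ u) := hu.smooth.fderiv_right (by norm_num)
    exact (InnerProductSpace.toDual ℝ (Space d)).symm.contDiff.comp h1
  intro j
  induction j with
  | zero =>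
    intro l x
    refine ⟨?_, ?_⟩
    · rcases Nat.eq_zero_or_pos l with rfl | hl'
      · exact hgc.differentiable one_ne_zero x
      · exact A.differentiableAt_iter hl.bdd_gradient hl' x
    · refine (A.frob_contract_iter hl.bdd_gradient hgc hu.hess l x).trans (le_of_eq ?_)
      simp
  | succ j ih =>
    intro l x
    set g := (eulOp p h v)^[j] u with hg
    have hgl : Lip1 g (qfac η h ^ j * α) := lip1_eulIter hp h0 h8 hl v j
    set r := fun y => h • fderiv ℝ p y (gradient g (eul p h v y)) with hr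
    have hgb := bdd_comp_eul hp hgl.bdd_gradient v (h := h)
    have hbr : Bdd r (2 * h * η * (qfac η h ^ j * α)) :=
      ⟨(((hp.smooth.continuous_fderiv one_ne_zero).clm_apply hgb.cont)).const_smul h, fun y => by
        rw [hr, norm_smul, Real.norm_of_nonneg h0.le]
        refine (mul_le_mul_of_nonneg_left ((hp.hess_le y _).trans (mul_le_mul_of_nonneg_left
          (hgb.bound y) (by linarith [hp.pos]))) h0.le).trans (le_of_eq ?_)
        ring⟩
    have hbg : Bdd (eulOp p h v (gradient g)) (qfac η h ^ j * α) := A.bddv hgl.bdd_gradient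
    have hstep : gradient ((eulOp p h v)^[j + 1] u)
        = fun x => (1 - h) • eulOp p h v (gradient g) x - gav √(2 * h) r x := by
      rw [Function.iterate_succ_apply', ← hg, (gradient_eulOp hp h0.le h8 hgl v).2]
      funext x
      simp only [eulOp, gav]
      have i1 : Integrable (fun z => (1 - h) • gradient g (eul p h v (x + √(2 * h) • z)))
          (stdGaussian (Space d)) := ((hgb.shift _ x).integrable _).smul (1 - h)
      have i2 : Integrable (fun z => r (x + √(2 * h) • z)) (stdGaussian (Space d)) :=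
        (hbr.shift _ x).integrable _
      rw [← integral_smul, ← integral_sub i1 i2]
      exact integral_congr_ae (Eventually.of_forall fun z => by simp [hr]; module)
    rw [hstep, A.subv_smul_iter hbg (hbr.gav _)]
    simp only [← Function.iterate_succ_apply]
    have d2 : DifferentiableAt ℝ ((eulOp p h v)^[l] (gav √(2 * h) r)) x := by
      rcases Nat.eq_zero_or_pos l with rfl | hl'
      · exact (hbr.contDiff (by positivity)).differentiable one_ne_zero x
      · exact A.differentiableAt_iter (hbr.gav _) hl' x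
    obtain ⟨d1, b1⟩ := ih (l + 1) x
    have d1' := d1.fun_const_smul (1 - h)
    refine ⟨d1'.fun_sub d2, ?_⟩
    rw [fderiv_fun_sub d1' d2, fderiv_fun_const_smul d1]
    refine (frob_sub_le _ _).trans ?_
    rw [frob_smul]
    have h1 : |1 - h| * frob (fderiv ℝ ((eulOp p h v)^[l + 1] (gradient g)) x)
        ≤ qfac η h ^ (l + 1 + j) * β
          + 2 * h * η * α * ∑ i ∈ range j, qfac η h ^ i * eulDecay η h (l + 1 + j - 1 - i) :=
      (mul_le_of_le_one_left (frob_nonneg _) (abs_le.2 ⟨by linarith, by linarith⟩)).trans b1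
    refine (add_le_add h1 (frob_eul_smooth hp h0 h8 hbr v l x)).trans (le_of_eq ?_)
    rw [Finset.sum_range_succ, show l + (j + 1) - 1 - j = l by omega,
      show l + (j + 1) = l + 1 + j by ring]
    ring

/-- L1: the Stein sum. -/
theorem steinSum : SteinSumSpec := by
  refine ⟨64, by norm_num, fun d p η h J hp hF v u α β hα hβ hu => ?_⟩
  have h0 := hF.pos
  have h8 := hF.small
  have hq := qfac_nonneg hp h8 h0.le
  have hη := hp.pos
  have hl : Lip1 u α := ⟨hu.smooth.of_le (by norm_num), fun x => (norm_gradient x).ge.trans (hu.grad x)⟩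
  set U := fun x => h * ∑ j ∈ range J, (eulOp p h v)^[j] u x with hU
  have hd : ∀ j, Differentiable ℝ ((eulOp p h v)^[j] u) := fun j =>
    (lip1_eulIter hp h0 h8 hl v j).smooth.differentiable one_ne_zero
  have hgs : ∀ j, ContDiff ℝ 1 (gradient ((eulOp p h v)^[j] u)) := fun j => by
    cases j with
    | zero =>
      have h1 : ContDiff ℝ 1 (fderiv ℝ u) := hu.smooth.fderiv_right (by norm_num)
      exact (InnerProductSpace.toDual ℝ (Space d)).symm.contDiff.comp h1
    | succ j =>
      have hg := lip1_eulIter hp h0 h8 hl v j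
      rw [Function.iterate_succ_apply', (gradient_eulOp hp h0.le h8 hg v).2]
      have hgb := bdd_comp_eul hp hg.bdd_gradient v (h := h)
      refine Bdd.contDiff (B := qfac η h * (qfac η h ^ j * α))
        ⟨hgb.cont.sub ((hgb.cont.add ((hp.smooth.continuous_fderiv one_ne_zero).clm_apply
          hgb.cont)).const_smul h), fun y => (hp.step_le h0.le h8 y _).trans
          (mul_le_mul_of_nonneg_left (hgb.bound y) hq)⟩ (by positivity)
  have hgrad : gradient U = fun x => h • ∑ j ∈ range J, gradient ((eulOp p h v)^[j] u) x := by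
    funext x
    have h1 := (HasFDerivAt.fun_sum (u := range J) fun j _ => (hd j x).hasFDerivAt).const_mul h
    simp only [gradient, hU, h1.fderiv, map_smul, map_sum]
  have hsum : h * ∑ i ∈ range J, qfac η h ^ i ≤ 1 := sum_qfac_le hp h0 h8 J
  refine ⟨contDiff_two_of_gradient (fun x => ((HasFDerivAt.fun_sum (u := range J)
      fun j _ => (hd j x).hasFDerivAt).const_mul h).differentiableAt) ?_, fun x => ?_, fun x => ?_⟩
  · rw [hgrad]
    exact (ContDiff.sum fun j _ => hgs j).const_smul h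
  · rw [hgrad]
    simp only [norm_smul, Real.norm_of_nonneg h0.le]
    refine (mul_le_mul_of_nonneg_left ((norm_sum_le _ _).trans (Finset.sum_le_sum fun j _ =>
      (lip1_eulIter hp h0 h8 hl v j).bdd_gradient.bound x)) h0.le).trans ?_
    rw [← Finset.sum_mul, ← mul_assoc]
    nlinarith
  · rw [hgrad]
    have hds : ∀ j ∈ range J, DifferentiableAt ℝ (gradient ((eulOp p h v)^[j] u)) x :=
      fun j _ => (hgs j).differentiable one_ne_zero x
    rw [fderiv_fun_const_smul (DifferentiableAt.fun_sum hds), fderiv_fun_sum hds, frob_smul,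
      abs_of_pos h0]
    refine (mul_le_mul_of_nonneg_left ((frob_sum_le _ _).trans (Finset.sum_le_sum fun j _ => by
      simpa using (frob_eulIter_le hp h0 h8 hu hβ v j 0 x).2)) h0.le).trans ?_
    rw [Finset.sum_add_distrib, ← Finset.sum_mul, ← Finset.mul_sum, mul_add, ← mul_assoc]
    have hφ0 : ∀ m, 0 ≤ eulDecay η h m := fun m =>
      mul_nonneg (pow_nonneg hq _) (by positivity)
    have hflip : ∑ j ∈ range J, ∑ i ∈ range j, qfac η h ^ i * eulDecay η h (j - 1 - i)
        ≤ (∑ i ∈ range J, qfac η h ^ i) * ∑ m ∈ range J, eulDecay η h m := by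
      rcases J with _ | K
      · simp
      rw [Finset.sum_range_succ' (fun j => ∑ i ∈ range j, qfac η h ^ i * eulDecay η h (j - 1 - i))]
      simp only [Finset.range_zero, Finset.sum_empty, add_zero, Nat.add_sub_cancel]
      rw [Finset.sum_range_diag_flip K fun a b => qfac η h ^ a * eulDecay η h b, Finset.sum_mul]
      refine (Finset.sum_le_sum fun m _ => ?_).trans (Finset.sum_le_sum_of_subset_of_nonneg
        (range_mono (Nat.le_succ K)) fun m _ _ => mul_nonneg (pow_nonneg hq m)
          (Finset.sum_nonneg fun b _ => hφ0 b))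
      rw [← Finset.mul_sum]
      exact mul_le_mul_of_nonneg_left (Finset.sum_le_sum_of_subset_of_nonneg (range_mono (by omega))
        fun b _ _ => hφ0 b) (pow_nonneg hq m)
    have hdec : ∑ m ∈ range J, eulDecay η h m ≤ 16 / h := by
      set g := fun t : ℕ => qfac η h ^ t * (√((t : ℝ) + 1))⁻¹ with hg
      have h1 : ∀ m, eulDecay η h m ≤ 2 / √(2 * h) * g (m / 2) := fun m => by
        rw [eulDecay, hg, mul_comm (2 / √(2 * h)), mul_assoc]
        refine mul_le_mul_of_nonneg_left ?_ (pow_nonneg hq _)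
        rw [← div_div, mul_comm _ (2 / √(2 * h)), div_eq_mul_inv]
        refine mul_le_mul_of_nonneg_left (inv_anti₀ (by positivity) (Real.sqrt_le_sqrt ?_))
          (by positivity)
        have : ((m / 2 : ℕ) : ℝ) ≤ (m : ℝ) := by exact_mod_cast Nat.div_le_self m 2
        linarith
      refine (Finset.sum_le_sum fun m _ => h1 m).trans ?_
      rw [← Finset.mul_sum]
      refine (mul_le_mul_of_nonneg_left ((sum_range_div_two_le g (fun t => by positivity) J).trans
        (mul_le_mul_of_nonneg_left (sum_pow_div_sqrt_le hq (qfac_le hp h0.le) h0 (by linarith) J)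
          (by norm_num))) (by positivity)).trans ?_
      have hs : h ≤ √(2 * h) * √h := by
        rw [← Real.sqrt_mul (by positivity), show 2 * h * h = 2 * h ^ 2 by ring,
          Real.sqrt_mul (by norm_num), Real.sqrt_sq h0.le]
        exact le_mul_of_one_le_left h0.le (Real.one_le_sqrt.2 (by norm_num))
      rw [show 2 / √(2 * h) * (2 * (4 / √h)) = 16 / (√(2 * h) * √h) by ring]
      exact div_le_div_of_nonneg_left (by norm_num) h0 hs
    have hS0 : 0 ≤ ∑ i ∈ range J, qfac η h ^ i := Finset.sum_nonneg fun i _ => pow_nonneg hq i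
    have h3 : h * (∑ j ∈ range J, ∑ i ∈ range j, qfac η h ^ i * eulDecay η h (j - 1 - i)) ≤ 16 / h :=
      (mul_le_mul_of_nonneg_left hflip h0.le).trans (by
        rw [← mul_assoc]
        exact (mul_le_of_le_one_left (Finset.sum_nonneg fun b _ => hφ0 b) hsum).trans hdec)
    have h4 : h * (h * ∑ j ∈ range J, ∑ i ∈ range j, qfac η h ^ i * eulDecay η h (j - 1 - i)) ≤ 16 := by
      refine (mul_le_mul_of_nonneg_left h3 h0.le).trans (le_of_eq ?_)
      field_simp
    have h5 := mul_le_mul_of_nonneg_left h4 (by positivity : 0 ≤ 2 * η * α)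
    have h6 := mul_le_mul_of_nonneg_right hsum hβ
    nlinarith [mul_nonneg hη.le hα]

end

end P347.Quarter
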