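import Vale.Agent.P347.Quarter.Main
import Vale.Agent.P347.Quarter.Cont
import Vale.Agent.P347.Quarter.Smoothing
import Vale.Agent.P347.Quarter.Defect
import Vale.Agent.P347.Quarter.Rule

/-!
# P347: the pieces with one constant
-/

namespace P347.Quarter

open MeasureTheory ProbabilityTheory
open scoped RealInnerProductSpace

noncomputable section

theorem exists_kit (hS : StepSpec) : ∃ C : ℝ, Kit C := by
  obtain ⟨C₁, h1, hsm⟩ := smoothing
  obtain ⟨C₂, h2, hinv⟩ := Defect.invariant steinSum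
  obtain ⟨C₃, h3, hst⟩ := hS
  have g2 : (2 : ℝ) ≤ 2 + C₁ + C₂ + C₃ := by linarith
  refine ⟨2 + C₁ + C₂ + C₃, ⟨by linarith, fun d f hc hf s hs => ?_, fun d p hp f hf h01 h J => ?_,
    fun d p η h J hp hF f hf h01 k hk => ?_, fun d p η h J hp hF f K hf k x y => ?_,
    fun d U η h J hU hp hF u α β hα hβ hu v => ?_,
    fun d M R δ t0 hR p η h J hp hF v c ρ hρ u α β hα hβ hu => ?_⟩⟩
  · refine (test2_gav hc hf hs).mono ?_ ?_
    · rw [div_eq_mul_inv]; exact le_mul_of_one_le_left (by positivity) (by linarith)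
    · rw [div_eq_mul_inv, inv_pow]; exact mul_le_mul_of_nonneg_right g2 (by positivity)
  · exact ⟨continuous_piJ hp hf h01 h J, fun v => piJ_mem hp hf h01 h J v⟩
  · obtain ⟨a, b⟩ := hsm d p η h J hp hF f hf h01 k hk
    refine ⟨a.mono ?_ ?_, b⟩
    · exact div_le_div_of_nonneg_right (by linarith) (Real.sqrt_nonneg _)
    · exact mul_le_mul_of_nonneg_right (by linarith) (by have := hp.pos; positivity)
  · exact contraction d p η h J hp hF f K hf k x y
  · refine (hinv d U η h J hU hp hF u α β hα hβ hu v).trans ?_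
    have := chainErr_nonneg (d := d) hF (norm_nonneg v)
    gcongr
    linarith
  · refine (hst d M R δ t0 hR p η h J hp hF v c ρ hρ u α β hα hβ hu).trans ?_
    have hρ0 : 0 ≤ ρ := (norm_nonneg _).trans hρ
    have := chainErr_nonneg (d := d) hF (show 0 ≤ ‖v‖ + ‖c‖ + ρ by positivity)
    have := hR.delta_nonneg
    have := hp.pos
    gcongr
    linarith

/-- The quarter theorem from the step bound. -/
theorem quarter_of_step (hS : StepSpec) :
    ∃ C' : ℝ, ∀ d : ℕ, 2 ≤ d →
      ∃ q : ℕ, (q : ℝ) ≤ C' * (d : ℝ) ^ (1 / 4 : ℝ) * Real.log d ^ 9 ∧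
        ∃ (Ω : Type) (_ : MeasurableSpace Ω) (P : Measure Ω) (M : Type) (_ : MeasurableSpace M)
          (init : M) (query : Ω → M → EuclideanSpace ℝ (Fin d))
          (update : Ω → M → ℝ × EuclideanSpace ℝ (Fin d) → M) (out : M → EuclideanSpace ℝ (Fin d)),
          StandardBorelSpace Ω ∧ IsProbabilityMeasure P ∧ Measurable (Function.uncurry query) ∧
          Measurable (fun z : (Ω × (ℝ × EuclideanSpace ℝ (Fin d))) × M => update z.1.1 z.2 z.1.2) ∧
          Measurable out ∧
          ∀ V : EuclideanSpace ℝ (Fin d) → ℝ, ContDiff ℝ 2 V → V 0 = 0 → gradient V 0 = 0 →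
            (∀ x h, ‖h‖ ^ 2 ≤ iteratedFDeriv ℝ 2 V x ![h, h] ∧
              iteratedFDeriv ℝ 2 V x ![h, h] ≤ 2 * ‖h‖ ^ 2) →
            ∀ S : Set (EuclideanSpace ℝ (Fin d)), MeasurableSet S →
              |(P.map fun ω => out ((fun s =>
                  update ω s (V (query ω s), gradient V (query ω s)))^[q] init)).real S
                - (∫ x in S, Real.exp (-V x)) / ∫ x, Real.exp (-V x)| ≤ 1 / 10 := by
  obtain ⟨C, hK⟩ := exists_kit hS
  exact quarter_of_kit hK rule

end

end P347.Quarter
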