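import Vale.Agent.P347.Quarter.Cov
import Vale.Agent.P347.Quarter.Krylov

/-!
# P347: a quadrature rule applied to an Ornstein-Uhlenbeck orbit

On a fine lattice of times the weighted sum is one polynomial in one step of the semigroup, so its
norm is at most the supremum of the polynomial on `[0, 1]`, which the rule bounds.
-/

open MeasureTheory ProbabilityTheory Set Filter Topology Polynomial
open scoped RealInnerProductSpace Gradient

namespace P347.Quarter

noncomputable section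

variable {d M : ℕ}

/-- A difference quotient across a point of differentiability. -/
theorem tendsto_straddle {f : ℝ → ℝ} {f' t : ℝ} (hf : HasDerivAt f f' t) {a : ℝ → ℝ}
    (ha : ∀ h, 0 < h → a h ≤ t ∧ t ≤ a h + h) :
    Tendsto (fun h => (f (a h + h) - f (a h)) / h) (𝓝[>] 0) (𝓝 f') := by
  rw [Metric.tendsto_nhds]
  intro ε hε
  have h0 := (hasDerivAt_iff_isLittleO.1 hf).bound (show 0 < ε / 4 by positivity)
  obtain ⟨ρ, hρ, hball⟩ := Metric.eventually_nhds_iff.1 h0
  filter_upwards [self_mem_nhdsWithin,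
    mem_nhdsWithin_of_mem_nhds (Metric.ball_mem_nhds (0 : ℝ) hρ)] with h (hh : 0 < h) hh2
  rw [Real.ball_eq_Ioo] at hh2
  obtain ⟨h1, h2⟩ := ha h hh
  have key : ∀ y, |y - t| ≤ h → |f y - f t - (y - t) * f'| ≤ ε / 4 * h := fun y hy => by
    have := hball (y := y) (by rw [Real.dist_eq]; linarith [hh2.2])
    simp only [Real.norm_eq_abs, smul_eq_mul] at this
    exact this.trans (mul_le_mul_of_nonneg_left hy (by positivity))
  have k1 := abs_le.1 (key (a h + h) (abs_le.2 ⟨by linarith, by linarith⟩))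
  have k2 := abs_le.1 (key (a h) (abs_le.2 ⟨by linarith, by linarith⟩))
  have hle : |(f (a h + h) - f (a h)) / h - f'| ≤ ε / 2 := by
    have e : (f (a h + h) - f (a h)) / h - f' = (f (a h + h) - f (a h) - h * f') / h := by
      field_simp
    rw [e, abs_div, abs_of_pos hh, div_le_iff₀ hh, abs_le]
    constructor <;> linarith
  rw [Real.dist_eq]
  linarith

/-- The grid point below a time. -/
theorem floor_grid {t h : ℝ} (ht : 0 ≤ t) (hh : 0 < h) :
    (⌊t / h⌋₊ : ℝ) * h ≤ t ∧ t ≤ (⌊t / h⌋₊ : ℝ) * h + h := by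
  have h1 := Nat.floor_le (show 0 ≤ t / h by positivity)
  have h2 := Nat.lt_floor_add_one (t / h)
  rw [le_div_iff₀ hh] at h1
  rw [div_lt_iff₀ hh] at h2
  exact ⟨h1, by linarith⟩

/-- One term of the lattice rule against the exact one. -/
theorem lattice_term {l t h u : ℝ} (hl : 0 ≤ l) (ht : 0 < t) (hh : 0 < h) (hu : t - h ≤ u)
    (hu' : u ≤ t) (ht2 : h ≤ t / 2) :
    |Real.exp (-(l * u)) * ((1 - Real.exp (-((1 + l) * h))) / h)
      - (1 + l) * Real.exp (-(l * t))| ≤ 4 * (1 + 8 / t ^ 2) * h := by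
  set μ := 1 + l with hμ
  have hy : 0 ≤ μ * h := by positivity
  have e1 : |(1 - Real.exp (-(μ * h))) / h - μ| ≤ μ ^ 2 * h := by
    have a1 := Real.add_one_le_exp (-(μ * h))
    have a2 : Real.exp (-(μ * h)) * (1 + μ * h) ≤ 1 := by
      have := mul_le_mul_of_nonneg_left (Real.add_one_le_exp (μ * h))
        (Real.exp_nonneg (-(μ * h)))
      rw [← Real.exp_add, neg_add_cancel, Real.exp_zero] at this
      linarith
    rw [abs_le]
    constructor
    · rw [le_sub_iff_add_le, le_div_iff₀ hh]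
      by_contra hc
      push Not at hc
      nlinarith [pow_nonneg hy 3, Real.exp_pos (-(μ * h))]
    · rw [sub_le_iff_le_add, div_le_iff₀ hh]
      nlinarith [sq_nonneg (μ * h)]
  have e2 : |Real.exp (-(l * u)) - Real.exp (-(l * t))| ≤ Real.exp (-(l * u)) * (l * h) := by
    have hfac : Real.exp (-(l * t)) = Real.exp (-(l * u)) * Real.exp (-(l * (t - u))) := by
      rw [← Real.exp_add]; ring_nf
    have a1 := Real.add_one_le_exp (-(l * (t - u)))
    have a2 : Real.exp (-(l * (t - u))) ≤ 1 :=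
      Real.exp_le_one_iff.2 (by nlinarith [sub_nonneg.2 hu'])
    rw [hfac, ← mul_one_sub, abs_mul, abs_of_nonneg (Real.exp_nonneg _),
      abs_of_nonneg (sub_nonneg.2 a2)]
    refine mul_le_mul_of_nonneg_left ?_ (Real.exp_nonneg _)
    linarith [mul_le_mul_of_nonneg_left (show t - u ≤ h by linarith) hl]
  have e3 : Real.exp (-(l * u)) * μ ^ 2 ≤ 2 + 16 / t ^ 2 := by
    have a1 : Real.exp (-(l * u)) ≤ Real.exp (-(l * t / 2)) := Real.exp_le_exp.2 (by
      nlinarith [mul_le_mul_of_nonneg_left (show t / 2 ≤ u by linarith) hl])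
    have a2 := Real.quadratic_le_exp_of_nonneg (show 0 ≤ l * t / 2 by positivity)
    have a3 : Real.exp (-(l * t / 2)) * Real.exp (l * t / 2) = 1 := by
      rw [← Real.exp_add, neg_add_cancel, Real.exp_zero]
    have a4 : Real.exp (-(l * t / 2)) * (1 + l ^ 2 * t ^ 2 / 8) ≤ 1 := by
      refine le_trans ?_ a3.le
      refine mul_le_mul_of_nonneg_left ?_ (Real.exp_nonneg _)
      have : 0 ≤ l * t := by positivity
      nlinarith
    have a5 : μ ^ 2 ≤ (1 + l ^ 2 * t ^ 2 / 8) * (2 + 16 / t ^ 2) := by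
      have : (1 + l ^ 2 * t ^ 2 / 8) * (2 + 16 / t ^ 2) = 2 + 16 / t ^ 2 + l ^ 2 * t ^ 2 / 4 + 2 * l ^ 2 := by
        field_simp; ring
      rw [this, hμ]
      have : 0 ≤ 16 / t ^ 2 := by positivity
      nlinarith [sq_nonneg (l - 1), sq_nonneg (l * t)]
    calc Real.exp (-(l * u)) * μ ^ 2
        ≤ Real.exp (-(l * t / 2)) * ((1 + l ^ 2 * t ^ 2 / 8) * (2 + 16 / t ^ 2)) :=
          mul_le_mul a1 a5 (sq_nonneg _) (Real.exp_nonneg _)
      _ = Real.exp (-(l * t / 2)) * (1 + l ^ 2 * t ^ 2 / 8) * (2 + 16 / t ^ 2) := by ring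
      _ ≤ 1 * (2 + 16 / t ^ 2) := mul_le_mul_of_nonneg_right a4 (by positivity)
      _ = _ := one_mul _
  have split : Real.exp (-(l * u)) * ((1 - Real.exp (-(μ * h))) / h) - μ * Real.exp (-(l * t))
      = Real.exp (-(l * u)) * ((1 - Real.exp (-(μ * h))) / h - μ)
        + μ * (Real.exp (-(l * u)) - Real.exp (-(l * t))) := by ring
  rw [split]
  refine (abs_add_le _ _).trans ?_
  rw [abs_mul, abs_mul, abs_of_nonneg (Real.exp_nonneg _), abs_of_nonneg (show 0 ≤ μ by positivity)]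
  have b1 := mul_le_mul_of_nonneg_left e1 (Real.exp_nonneg (-(l * u)))
  have b2 := mul_le_mul_of_nonneg_left e2 (show 0 ≤ μ by positivity)
  have b3 : μ * (Real.exp (-(l * u)) * (l * h)) ≤ Real.exp (-(l * u)) * μ ^ 2 * h := by
    have : μ * l ≤ μ ^ 2 := by rw [hμ]; nlinarith
    have := mul_le_mul_of_nonneg_left this (mul_nonneg (Real.exp_nonneg (-(l * u))) hh.le)
    linarith
  have b4 := mul_le_mul_of_nonneg_right e3 hh.le
  have e16 : 4 * (1 + 8 / t ^ 2) = 2 * (2 + 16 / t ^ 2) := by ring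
  rw [e16]
  linarith

/-- The polynomial of a rule on a lattice. -/
def latticePoly (R : Rule M) (t0 h : ℝ) : ℝ[X] :=
  (∑ q, C (R.weight q / h) *
      (X ^ ⌊R.time q / h⌋₊ - C (Real.exp (-h)) * X ^ (⌊R.time q / h⌋₊ + 1)))
    - X ^ ⌊t0 / h⌋₊

theorem latticePoly_le {R : Rule M} {δ t0 : ℝ} (hR : R.Good δ t0) {h : ℝ} (hh : 0 < h)
    (hs : h ≤ t0 / 2) {x : ℝ} (hx : x ∈ Icc (0 : ℝ) 1) :
    |(latticePoly R t0 h).eval x| ≤ δ + (8 * (1 + 8 / t0 ^ 2) + 2 / t0) * h := by
  have hδ : 0 ≤ δ := le_trans (abs_nonneg _) (hR.quad 0 le_rfl)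
  have ht0 := hR.t0_pos
  have hn1 : ∀ s : ℝ, t0 ≤ s → 1 ≤ ⌊s / h⌋₊ := fun s hs' => by
    rw [Nat.one_le_floor_iff, one_le_div₀ hh]; linarith
  have hrest : 0 ≤ (8 * (1 + 8 / t0 ^ 2) + 2 / t0) * h := by positivity
  simp only [latticePoly, eval_sub, eval_finsetSum, eval_mul, eval_C, eval_pow, eval_X]
  rcases eq_or_lt_of_le hx.1 with h0 | hxpos
  · subst h0
    have z1 : ∀ q, (0 : ℝ) ^ ⌊R.time q / h⌋₊ = 0 := fun q =>
      zero_pow (by have := hn1 _ (hR.le_time q); omega)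
    have z0 : (0 : ℝ) ^ ⌊t0 / h⌋₊ = 0 := zero_pow (by have := hn1 t0 le_rfl; omega)
    simp [z1, z0]
    linarith
  set l : ℝ := -Real.log x / h with hl
  have hl0 : 0 ≤ l := div_nonneg (neg_nonneg.2 (Real.log_nonpos hx.1 hx.2)) hh.le
  have hpow : ∀ n : ℕ, x ^ n = Real.exp (-(l * (n * h))) := fun n => by
    rw [← Real.rpow_natCast x n, Real.rpow_def_of_pos hxpos, hl]
    congr 1
    field_simp
  simp only [hpow]
  have hterm : ∀ q, R.weight q / h * (Real.exp (-(l * (⌊R.time q / h⌋₊ * h)))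
      - Real.exp (-h) * Real.exp (-(l * ((⌊R.time q / h⌋₊ + 1 : ℕ) * h))))
      = R.weight q * (Real.exp (-(l * (⌊R.time q / h⌋₊ * h)))
        * ((1 - Real.exp (-((1 + l) * h))) / h)) := fun q => by
    have e : Real.exp (-h) * Real.exp (-(l * ((⌊R.time q / h⌋₊ + 1 : ℕ) * h)))
        = Real.exp (-(l * (⌊R.time q / h⌋₊ * h))) * Real.exp (-((1 + l) * h)) := by
      rw [← Real.exp_add, ← Real.exp_add]; push_cast; ring_nf
    rw [e]; field_simp
  simp only [hterm]
  set u : Fin M → ℝ := fun q => (⌊R.time q / h⌋₊ : ℝ) * h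
  set u0 : ℝ := (⌊t0 / h⌋₊ : ℝ) * h
  have hsum : |∑ q, R.weight q * (Real.exp (-(l * u q)) * ((1 - Real.exp (-((1 + l) * h))) / h))
      - ∑ q, R.weight q * ((1 + l) * Real.exp (-(l * R.time q)))|
        ≤ 2 * (4 * (1 + 8 / t0 ^ 2) * h) := by
    rw [← Finset.sum_sub_distrib]
    refine (Finset.abs_sum_le_sum_abs _ _).trans ?_
    refine le_trans (Finset.sum_le_sum fun q _ => ?_) (show
      ∑ q, R.weight q * (4 * (1 + 8 / t0 ^ 2) * h) ≤ _ by
        rw [← Finset.sum_mul]; exact mul_le_mul_of_nonneg_right hR.sum_weight (by positivity))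
    rw [← mul_sub, abs_mul, abs_of_nonneg (hR.nonneg q)]
    refine mul_le_mul_of_nonneg_left ?_ (hR.nonneg q)
    have htq : t0 ≤ R.time q := hR.le_time q
    obtain ⟨g1, g2⟩ := floor_grid (ht0.le.trans htq) hh
    refine (lattice_term hl0 (ht0.trans_le htq) hh (by linarith) g1
      (by linarith)).trans ?_
    refine mul_le_mul_of_nonneg_right (mul_le_mul_of_nonneg_left (add_le_add le_rfl ?_) (by norm_num))
      hh.le
    exact div_le_div_of_nonneg_left (by norm_num) (by positivity)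
      (pow_le_pow_left₀ ht0.le htq 2)
  have h0 : |Real.exp (-(l * u0)) - Real.exp (-(l * t0))| ≤ 2 / t0 * h := by
    obtain ⟨g1, g2⟩ := floor_grid ht0.le hh
    have hfac : Real.exp (-(l * t0)) = Real.exp (-(l * u0)) * Real.exp (-(l * (t0 - u0))) := by
      rw [← Real.exp_add]; ring_nf
    have a1 := Real.add_one_le_exp (-(l * (t0 - u0)))
    have a2 : Real.exp (-(l * (t0 - u0))) ≤ 1 :=
      Real.exp_le_one_iff.2 (by nlinarith [sub_nonneg.2 g1])
    rw [hfac, ← mul_one_sub, abs_mul, abs_of_nonneg (Real.exp_nonneg _),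
      abs_of_nonneg (sub_nonneg.2 a2)]
    have a3 : 1 - Real.exp (-(l * (t0 - u0))) ≤ l * h := by
      linarith [mul_le_mul_of_nonneg_left (show t0 - u0 ≤ h by linarith) hl0]
    refine (mul_le_mul_of_nonneg_left a3 (Real.exp_nonneg _)).trans ?_
    have a4 := Real.add_one_le_exp (l * u0)
    have a5 : Real.exp (-(l * u0)) * Real.exp (l * u0) = 1 := by
      rw [← Real.exp_add, neg_add_cancel, Real.exp_zero]
    have a6 : Real.exp (-(l * u0)) * (l * u0) ≤ 1 := by
      nlinarith [mul_le_mul_of_nonneg_left a4 (Real.exp_nonneg (-(l * u0))),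
        Real.exp_pos (-(l * u0))]
    have a7 : Real.exp (-(l * u0)) * l ≤ 2 / t0 := by
      rw [le_div_iff₀ ht0]
      nlinarith [mul_le_mul_of_nonneg_left (show t0 / 2 ≤ u0 by linarith)
        (mul_nonneg (Real.exp_nonneg (-(l * u0))) hl0)]
    nlinarith [mul_le_mul_of_nonneg_right a7 hh.le]
  have hq := abs_le.1 (hR.quad l hl0)
  have hs1 := abs_le.1 hsum
  have hs0 := abs_le.1 h0
  rw [abs_le]
  constructor <;> linarith

/-- The rule along an orbit of symmetric steps between zero and the identity. -/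
theorem quad_orbit {V : Type} [NormedAddCommGroup V] [InnerProductSpace ℝ V] {R : Rule M}
    {δ t0 : ℝ} (hR : R.Good δ t0) (v : ℝ → V)
    (hstep : ∀ h, 0 < h → ∃ A : V →ₗ[ℝ] V, A.IsSymmetric ∧ (∀ x, 0 ≤ ⟪A x, x⟫) ∧
      (∀ x, ⟪A x, x⟫ ≤ ‖x‖ ^ 2) ∧ ∀ n : ℕ, (A ^ n) (v 0) = v (n * h))
    (a : V) (D : Fin M → ℝ) (hD : ∀ q, HasDerivAt (fun t => ⟪a, v t⟫) (D q) (R.time q))
    (hc : ContinuousAt (fun t => ⟪a, v t⟫) t0) :
    |∑ q, R.weight q * (⟪a, v (R.time q)⟫ - D q) - ⟪a, v t0⟫| ≤ δ * (‖a‖ * ‖v 0‖) := by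
  set ψ := fun t => ⟪a, v t⟫ with hψ
  set K := 8 * (1 + 8 / t0 ^ 2) + 2 / t0
  set Φ : ℝ → ℝ := fun h => ∑ q, R.weight q *
    (-((ψ (⌊R.time q / h⌋₊ * h + h) - ψ (⌊R.time q / h⌋₊ * h)) / h)
      + (1 - Real.exp (-h)) / h * ψ (⌊R.time q / h⌋₊ * h + h)) - ψ (⌊t0 / h⌋₊ * h) with hΦ
  have hbound : ∀ᶠ h in 𝓝[>] (0 : ℝ), |Φ h| ≤ (δ + K * h) * (‖a‖ * ‖v 0‖) := by
    filter_upwards [self_mem_nhdsWithin,
      mem_nhdsWithin_of_mem_nhds (Iio_mem_nhds (half_pos hR.t0_pos))] with h (hh : 0 < h)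
        (hs : h < t0 / 2)
    obtain ⟨A, hA1, hA2, hA3, hA4⟩ := hstep h hh
    have hp := poly_norm_le hA1 hA2 hA3 (latticePoly R t0 h)
      (fun x hx => latticePoly_le hR hh hs.le hx) (v 0)
    have e : ⟪a, (aeval A (latticePoly R t0 h)) (v 0)⟫ = Φ h := by
      simp only [latticePoly, map_sub, map_sum, map_mul, aeval_C, map_pow, aeval_X,
        LinearMap.sub_apply, LinearMap.sum_apply, Module.End.mul_apply,
        Module.algebraMap_end_apply, hA4, inner_sub_right, inner_sum, inner_smul_right, hΦ]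
      congr 1
      refine Finset.sum_congr rfl fun q _ => ?_
      push_cast
      rw [add_mul, one_mul]
      simp only [hψ]
      field_simp
      ring
    rw [← e]
    refine (abs_real_inner_le_norm _ _).trans ?_
    calc ‖a‖ * ‖(aeval A (latticePoly R t0 h)) (v 0)‖
        ≤ ‖a‖ * ((δ + K * h) * ‖v 0‖) := mul_le_mul_of_nonneg_left hp (norm_nonneg _)
      _ = _ := by ring
  have hgrid : ∀ t, 0 ≤ t → Tendsto (fun h : ℝ => (⌊t / h⌋₊ : ℝ) * h) (𝓝[>] 0) (𝓝 t) := by
    intro t ht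
    refine tendsto_of_tendsto_of_tendsto_of_le_of_le' (g := fun h => t - h) ?_ tendsto_const_nhds
      ?_ ?_
    · have : Tendsto (fun h : ℝ => t - h) (𝓝 0) (𝓝 (t - 0)) := Continuous.tendsto (by fun_prop) 0
      simpa using this.mono_left nhdsWithin_le_nhds
    · filter_upwards [self_mem_nhdsWithin] with h hh
      linarith [(floor_grid ht hh).2]
    · filter_upwards [self_mem_nhdsWithin] with h hh
      exact (floor_grid ht hh).1
  have hexp : Tendsto (fun h : ℝ => (1 - Real.exp (-h)) / h) (𝓝[>] 0) (𝓝 1) := by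
    have hd : HasDerivAt (fun h : ℝ => -Real.exp (-h)) 1 0 := by
      refine (((hasDerivAt_id (0 : ℝ)).neg.exp).neg).congr_deriv ?_
      simp
    refine hd.tendsto_slope_zero_right.congr fun h => ?_
    simp
    ring
  have hlim : Tendsto Φ (𝓝[>] 0) (𝓝 (∑ q, R.weight q * (ψ (R.time q) - D q) - ψ t0)) := by
    refine Tendsto.sub (tendsto_finsetSum _ fun q _ => Tendsto.const_mul _ ?_)
      (hc.tendsto.comp (hgrid t0 hR.t0_pos.le))
    have hq : 0 ≤ R.time q := hR.t0_pos.le.trans (hR.le_time q)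
    have h1 := (tendsto_straddle (hD q) fun h hh => floor_grid hq hh).neg
    have h2 : Tendsto (fun h : ℝ => ψ (⌊R.time q / h⌋₊ * h + h)) (𝓝[>] 0) (𝓝 (ψ (R.time q))) := by
      refine (hD q).continuousAt.tendsto.comp ?_
      have h3 : Tendsto (fun h : ℝ => h) (𝓝[>] 0) (𝓝 (0 : ℝ)) := nhdsWithin_le_nhds
      simpa using (hgrid _ hq).add h3
    have h3 := h1.add (hexp.mul h2)
    rw [one_mul, neg_add_eq_sub] at h3
    exact h3
  have hb : Tendsto (fun h : ℝ => (δ + K * h) * (‖a‖ * ‖v 0‖)) (𝓝[>] 0)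
      (𝓝 (δ * (‖a‖ * ‖v 0‖))) := by
    have : Tendsto (fun h : ℝ => (δ + K * h) * (‖a‖ * ‖v 0‖)) (𝓝 0)
        (𝓝 ((δ + K * 0) * (‖a‖ * ‖v 0‖))) := Continuous.tendsto (by fun_prop) 0
    simpa using this.mono_left nhdsWithin_le_nhds
  exact le_of_tendsto_of_tendsto hlim.abs hb hbound

/-! ## The Ornstein-Uhlenbeck orbit in the space of square integrable fields -/

/-- Square integrable fields. -/
abbrev L2Field (d : ℕ) := Lp (Space d) 2 (stdGaussian (Space d))

theorem ouMap_mp {θ : ℝ} (hθ : θ ∈ Icc (-1 : ℝ) 1) :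
    MeasurePreserving (fun z : Space d × Space d => ouMap θ z) (gauss2 (Space d))
      (stdGaussian (Space d)) :=
  measurePreserving_fst.comp (ouMap_preserving hθ)

/-- The averaging operator with contraction `θ`. -/
def ouOp (θ : ℝ) (hθ : θ ∈ Icc (-1 : ℝ) 1) : L2Field d →L[ℝ] L2Field d :=
  (ContinuousLinearMap.adjoint
    (Lp.compMeasurePreservingₗᵢ ℝ (p := 2) (E := Space d) (Prod.fst : Space d × Space d → Space d)
      measurePreserving_fst).toContinuousLinearMap).comp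
    (Lp.compMeasurePreservingₗᵢ ℝ (p := 2) (E := Space d) _ (ouMap_mp hθ)).toContinuousLinearMap

theorem inner_ouOp {θ : ℝ} (hθ : θ ∈ Icc (-1 : ℝ) 1) (a b : L2Field d) :
    ⟪a, ouOp θ hθ b⟫ = ∫ z, ⟪a z.1, b (ouMap θ z)⟫ ∂gauss2 (Space d) ∧
      Integrable (fun z : Space d × Space d => ⟪a z.1, b (ouMap θ z)⟫) (gauss2 (Space d)) := by
  set A := Lp.compMeasurePreserving (p := 2) (E := Space d)
    (Prod.fst : Space d × Space d → Space d) (μ := gauss2 (Space d)) measurePreserving_fst a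
  set B := Lp.compMeasurePreserving (p := 2) (E := Space d) _ (ouMap_mp hθ) b
  have e : (fun z : Space d × Space d => ⟪A z, B z⟫) =ᵐ[gauss2 (Space d)]
      fun z => ⟪a z.1, b (ouMap θ z)⟫ := by
    filter_upwards [Lp.coeFn_compMeasurePreserving a (measurePreserving_fst
        (μ := stdGaussian (Space d)) (ν := stdGaussian (Space d))),
      Lp.coeFn_compMeasurePreserving b (ouMap_mp hθ)] with z h1 h2
    simp only [A, B, h1, h2, Function.comp_apply]
  refine ⟨?_, (L2.integrable_inner A B).congr e⟩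
  rw [ouOp, ContinuousLinearMap.comp_apply, ContinuousLinearMap.adjoint_inner_right]
  change ⟪A, B⟫ = _
  rw [L2.inner_def]
  exact integral_congr_ae e

theorem ouOp_symm {θ : ℝ} (hθ : θ ∈ Icc (-1 : ℝ) 1) (a b : L2Field d) :
    ⟪ouOp θ hθ a, b⟫ = ⟪a, ouOp θ hθ b⟫ := by
  rw [real_inner_comm, (inner_ouOp hθ b a).1, (inner_ouOp hθ a b).1]
  set T : Space d × Space d → Space d × Space d := fun z => (ouMap θ z, ouPartner θ z)
  have hT := ouMap_preserving (E := Space d) hθ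
  have hs : √(1 - θ ^ 2) * √(1 - θ ^ 2) = 1 - θ ^ 2 :=
    Real.mul_self_sqrt (by nlinarith [hθ.1, hθ.2])
  have hback : ∀ z, ouMap θ (T z) = z.1 := fun z => by
    simp only [T, ouMap, ouPartner, smul_add, smul_sub, smul_smul, hs]
    module
  have h := integral_map (μ := gauss2 (Space d)) (φ := T) hT.measurable.aemeasurable
    (f := fun z => ⟪b z.1, a (ouMap θ z)⟫)
    (hT.map_eq.symm ▸ (inner_ouOp hθ b a).2.aestronglyMeasurable)
  rw [hT.map_eq] at h
  rw [h]
  refine integral_congr_ae (Eventually.of_forall fun z => ?_)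
  simp only [hback]
  exact real_inner_comm _ _

theorem ouOp_le {θ : ℝ} (hθ : θ ∈ Icc (-1 : ℝ) 1) (x : L2Field d) : ‖ouOp θ hθ x‖ ≤ ‖x‖ := by
  rw [ouOp, ContinuousLinearMap.comp_apply]
  refine (ContinuousLinearMap.le_opNorm _ _).trans ?_
  rw [LinearIsometryEquiv.norm_map]
  calc _ ≤ 1 * ‖(Lp.compMeasurePreservingₗᵢ ℝ (p := 2) (E := Space d) _
        (ouMap_mp hθ)).toContinuousLinearMap x‖ :=
        mul_le_mul_of_nonneg_right (LinearIsometry.norm_toContinuousLinearMap_le _) (norm_nonneg _)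
    _ = ‖x‖ := by rw [one_mul]; exact LinearIsometry.norm_map _ x

section Orbit

variable {G : Space d → Space d} {L : ℝ}

theorem ou_lip (hG : ∀ x y, ‖G x - G y‖ ≤ L * ‖x - y‖) (hGc : Continuous G) {θ : ℝ}
    (hθ : θ ∈ Icc (0 : ℝ) 1) (hL : 0 ≤ L) (x y : Space d) :
    ‖ou θ G x - ou θ G y‖ ≤ L * ‖x - y‖ := by
  have hi : ∀ p : Space d, Integrable (fun z => G (θ • p + √(1 - θ ^ 2) • z))
      (stdGaussian (Space d)) := fun p =>
    integrable_of_poly (C := ‖G 0‖ + L * ‖θ • p‖ + L * √(1 - θ ^ 2)) (n := 1)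
      (hGc.comp (by fun_prop)).aestronglyMeasurable fun z => by
        have h1 := hG (θ • p + √(1 - θ ^ 2) • z) 0
        rw [sub_zero] at h1
        have h2 := norm_le_norm_add_norm_sub' (G (θ • p + √(1 - θ ^ 2) • z)) (G 0)
        have h3 := norm_add_le (θ • p) (√(1 - θ ^ 2) • z)
        rw [norm_smul √(1 - θ ^ 2) z, Real.norm_eq_abs, abs_of_nonneg (Real.sqrt_nonneg _)] at h3
        have h4 := mul_le_mul_of_nonneg_left h3 hL
        rw [pow_one]
        have : 0 ≤ (‖G 0‖ + L * ‖θ • p‖) * ‖z‖ + L * √(1 - θ ^ 2) := by positivity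
        linarith
  rw [ou, ou, ← integral_sub (hi x) (hi y)]
  refine (norm_integral_le_of_norm_le_const (C := L * ‖x - y‖)
    (Eventually.of_forall fun z => (hG _ _).trans ?_)).trans (le_of_eq (by simp))
  refine mul_le_mul_of_nonneg_left ?_ hL
  rw [add_sub_add_right_eq_sub, ← smul_sub, norm_smul, Real.norm_eq_abs, abs_of_nonneg hθ.1]
  exact mul_le_of_le_one_left (norm_nonneg _) hθ.2

theorem memLp_of_lip {f : Space d → Space d} (hf : ∀ x y, ‖f x - f y‖ ≤ L * ‖x - y‖)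
    (hL : 0 ≤ L) : MemLp f 2 (stdGaussian (Space d)) := by
  have hc : Continuous f := (LipschitzWith.of_dist_le_mul (K := L.toNNReal) fun x y => by
    simpa [dist_eq_norm, Real.coe_toNNReal L hL] using hf x y).continuous
  refine (memLp_two_iff_integrable_sq_norm hc.aestronglyMeasurable).2 ?_
  refine integrable_of_poly (C := (‖f 0‖ + L) ^ 2) (n := 2) (hc.norm.pow 2).aestronglyMeasurable
    fun x => ?_
  rw [Real.norm_eq_abs, abs_of_nonneg (sq_nonneg _), ← mul_pow]
  refine pow_le_pow_left₀ (norm_nonneg _) ?_ 2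
  have h1 := hf x 0
  rw [sub_zero] at h1
  have h2 := norm_le_norm_add_norm_sub' (f x) (f 0)
  linarith [mul_nonneg (norm_nonneg (f 0)) (norm_nonneg x)]

theorem ou_one (G : Space d → Space d) : ou 1 G = G := by
  funext x; simp [ou]

/-- Averaging twice is averaging once. -/
theorem ou_ou (hG : ∀ x y, ‖G x - G y‖ ≤ L * ‖x - y‖) (hGc : Continuous G) (hL : 0 ≤ L)
    {θ κ : ℝ} (hθ : θ ∈ Ico (0 : ℝ) 1) (hκ : κ ∈ Icc (0 : ℝ) 1) (x : Space d) :
    ∫ w, ou κ G (θ • x + √(1 - θ ^ 2) • w) ∂stdGaussian (Space d) = ou (θ * κ) G x := by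
  set γ := stdGaussian (Space d) with hγ
  set c := √(1 - (θ * κ) ^ 2) with hc
  have hθκ : θ * κ < 1 := lt_of_le_of_lt (mul_le_of_le_one_right hθ.1 hκ.2) hθ.2
  have hθκ0 : 0 ≤ θ * κ := mul_nonneg hθ.1 hκ.1
  have hcpos : 0 < c := Real.sqrt_pos.2 (by nlinarith)
  set r := κ * √(1 - θ ^ 2) / c with hr
  have hc2 : c ^ 2 = 1 - (θ * κ) ^ 2 := Real.sq_sqrt (by nlinarith)
  have hs1 : √(1 - θ ^ 2) ^ 2 = 1 - θ ^ 2 := Real.sq_sqrt (by nlinarith [hθ.1, hθ.2])
  have hs2 : √(1 - κ ^ 2) ^ 2 = 1 - κ ^ 2 := Real.sq_sqrt (by nlinarith [hκ.1, hκ.2])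
  have hr2 : 1 - r ^ 2 = (√(1 - κ ^ 2) / c) ^ 2 := by
    rw [hr, div_pow, div_pow, mul_pow, hs1, hs2]
    field_simp
    rw [hc2]; ring
  have hrI : r ∈ Icc (-1 : ℝ) 1 := by
    have h0 : 0 ≤ r := div_nonneg (mul_nonneg hκ.1 (Real.sqrt_nonneg _)) hcpos.le
    exact ⟨by linarith, by nlinarith [sq_nonneg (√(1 - κ ^ 2) / c)]⟩
  have hcr : √(1 - r ^ 2) = √(1 - κ ^ 2) / c := by
    rw [hr2, Real.sqrt_sq (by positivity)]
  have hpt : ∀ w u : Space d, κ • (θ • x + √(1 - θ ^ 2) • w) + √(1 - κ ^ 2) • u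
      = (θ * κ) • x + c • ouMap r (w, u) := fun w u => by
    simp only [ouMap, hcr]
    simp only [hr, smul_add, smul_smul]
    rw [show c * (κ * √(1 - θ ^ 2) / c) = κ * √(1 - θ ^ 2) by field_simp,
      show c * (√(1 - κ ^ 2) / c) = √(1 - κ ^ 2) by field_simp]
    module
  have hfi : Integrable (fun v => G ((θ * κ) • x + c • v)) γ := by
    refine integrable_of_poly (C := ‖G 0‖ + L * ‖(θ * κ) • x‖ + L * c) (n := 1)
      (hGc.comp (by fun_prop)).aestronglyMeasurable fun z => ?_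
    have h1 := hG ((θ * κ) • x + c • z) 0
    rw [sub_zero] at h1
    have h2 := norm_le_norm_add_norm_sub' (G ((θ * κ) • x + c • z)) (G 0)
    have h3 := norm_add_le ((θ * κ) • x) (c • z)
    rw [norm_smul c z, Real.norm_eq_abs, abs_of_nonneg hcpos.le] at h3
    have h4 := mul_le_mul_of_nonneg_left h3 hL
    rw [pow_one]
    have : 0 ≤ (‖G 0‖ + L * ‖(θ * κ) • x‖) * ‖z‖ + L * c := by positivity
    linarith
  have hmp := ouMap_mp (d := d) hrI
  have hint : Integrable (fun z : Space d × Space d => G ((θ * κ) • x + c • ouMap r z))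
      (gauss2 (Space d)) :=
    (hmp.integrable_comp hfi.aestronglyMeasurable).2 hfi
  have h := integral_map (μ := gauss2 (Space d)) hmp.measurable.aemeasurable
    (f := fun v => G ((θ * κ) • x + c • v)) (hmp.map_eq.symm ▸ hfi.aestronglyMeasurable)
  rw [hmp.map_eq, integral_prod _ hint] at h
  simp only [ou, hpt]
  exact h.symm

/-- The orbit of a Lipschitz field. -/
def orbit (hG : ∀ x y, ‖G x - G y‖ ≤ L * ‖x - y‖) (hGc : Continuous G) (hL : 0 ≤ L) (t : ℝ) :
    L2Field d :=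
  if ht : 0 ≤ t then
    (memLp_of_lip (f := ou (Real.exp (-t)) G)
      (ou_lip hG hGc ⟨(Real.exp_pos _).le, Real.exp_le_one_iff.2 (by linarith)⟩ hL) hL).toLp _
  else 0

theorem orbit_spec (hG : ∀ x y, ‖G x - G y‖ ≤ L * ‖x - y‖) (hGc : Continuous G) (hL : 0 ≤ L)
    {t : ℝ} (ht : 0 ≤ t) :
    (orbit hG hGc hL t : Space d → Space d) =ᵐ[stdGaussian (Space d)] ou (Real.exp (-t)) G := by
  rw [orbit, dif_pos ht]
  exact MemLp.coeFn_toLp _

theorem ouOp_orbit (hG : ∀ x y, ‖G x - G y‖ ≤ L * ‖x - y‖) (hGc : Continuous G) (hL : 0 ≤ L)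
    {s t : ℝ} (hs : 0 < s) (ht : 0 ≤ t) (hθ : Real.exp (-s) ∈ Icc (-1 : ℝ) 1) :
    ouOp (Real.exp (-s)) hθ (orbit hG hGc hL t) = orbit hG hGc hL (s + t) := by
  refine ext_inner_left ℝ fun a => ?_
  set γ := stdGaussian (Space d) with hγ
  obtain ⟨e, hint⟩ := inner_ouOp hθ a (orbit hG hGc hL t)
  rw [e, L2.inner_def]
  have hcomp : (fun z : Space d × Space d => ⟪a z.1, (orbit hG hGc hL t) (ouMap (Real.exp (-s)) z)⟫)
      =ᵐ[gauss2 (Space d)]
        fun z => ⟪a z.1, ou (Real.exp (-t)) G (ouMap (Real.exp (-s)) z)⟫ := by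
    filter_upwards [(ouMap_mp hθ).quasiMeasurePreserving.ae_eq (orbit_spec hG hGc hL ht)] with z hz
    simp only [Function.comp_apply] at hz
    rw [hz]
  rw [integral_congr_ae hcomp, integral_prod _ (hint.congr hcomp)]
  refine integral_congr_ae ?_
  filter_upwards [orbit_spec hG hGc hL (show 0 ≤ s + t by linarith)] with x hx
  have hκ : Real.exp (-t) ∈ Icc (0 : ℝ) 1 :=
    ⟨(Real.exp_pos _).le, Real.exp_le_one_iff.2 (by linarith)⟩
  have hθ' : Real.exp (-s) ∈ Ico (0 : ℝ) 1 :=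
    ⟨(Real.exp_pos _).le, Real.exp_lt_one_iff.2 (by linarith)⟩
  have hlip := ou_lip hG hGc hκ hL
  have hcont : Continuous (ou (Real.exp (-t)) G) :=
    (LipschitzWith.of_dist_le_mul (K := L.toNNReal) fun x y => by
      simpa [dist_eq_norm, Real.coe_toNNReal L hL] using hlip x y).continuous
  have hi : Integrable (fun w => ou (Real.exp (-t)) G (ouMap (Real.exp (-s)) (x, w))) γ := by
    have hl : ∀ u v : Space d, ‖ou (Real.exp (-t)) G (ouMap (Real.exp (-s)) (x, u))
        - ou (Real.exp (-t)) G (ouMap (Real.exp (-s)) (x, v))‖ ≤ L * ‖u - v‖ := fun u v => by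
      refine (hlip _ _).trans (mul_le_mul_of_nonneg_left ?_ hL)
      simp only [ouMap, add_sub_add_left_eq_sub, ← smul_sub, norm_smul, Real.norm_eq_abs,
        abs_of_nonneg (Real.sqrt_nonneg _)]
      exact mul_le_of_le_one_left (norm_nonneg _)
        (Real.sqrt_le_one.2 (by linarith [sq_nonneg (Real.exp (-s))]))
    exact (memLp_of_lip hl hL).integrable (by norm_num)
  rw [integral_inner hi, hx]
  simp only [ouMap]
  rw [ou_ou hG hGc hL hθ' hκ, ← Real.exp_add]
  ring_nf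

end Orbit

/-- The rule against a square integrable field, in correlations. -/
theorem quad_corrV {R : Rule M} {δ t0 : ℝ} (hR : R.Good δ t0) {G : Space d → Space d} {L : ℝ}
    (hG : ContDiff ℝ 1 G) (hL : ∀ x, ‖fderiv ℝ G x‖ ≤ L) {a : Space d → Space d} (ha : Tame a)
    (ha2 : MemLp a 2 (stdGaussian (Space d))) :
    |∑ q, R.weight q * (corrV a G (R.th q) + R.th q * corrDV a G (R.th q))
        - corrV a G (Real.exp (-t0))| ≤
      δ * (√(∫ x, ‖a x‖ ^ 2 ∂stdGaussian (Space d)) * √(∫ x, ‖G x‖ ^ 2 ∂stdGaussian (Space d))) := by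
  have hL0 : 0 ≤ L := le_trans (norm_nonneg _) (hL 0)
  have hGt := tame_of_lip hG hL
  have hlip : ∀ x y, ‖G x - G y‖ ≤ L * ‖x - y‖ := fun x y =>
    Convex.norm_image_sub_le_of_norm_fderiv_le (s := univ)
      (fun z _ => hGt.differentiable z) (fun z _ => hL z) convex_univ (mem_univ y) (mem_univ x)
  set v := orbit hlip hG.continuous hL0 with hv
  set a' : L2Field d := ha2.toLp a with ha'
  have hpair : ∀ t, 0 < t → ⟪a', v t⟫ = corrV a G (Real.exp (-t)) := by
    intro t ht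
    have hθ : Real.exp (-t) ∈ Icc (-1 : ℝ) 1 :=
      ⟨by linarith [Real.exp_pos (-t)], Real.exp_le_one_iff.2 (by linarith)⟩
    have h := ouOp_orbit hlip hG.continuous hL0 ht le_rfl hθ
    rw [add_zero] at h
    rw [hv, ← h, (inner_ouOp hθ a' _).1, corrV]
    refine integral_congr_ae ?_
    filter_upwards [(measurePreserving_fst (μ := stdGaussian (Space d))
        (ν := stdGaussian (Space d))).quasiMeasurePreserving.ae_eq ha2.coeFn_toLp,
      (ouMap_mp hθ).quasiMeasurePreserving.ae_eq (orbit_spec hlip hG.continuous hL0 le_rfl)]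
      with z h1 h2
    simp only [Function.comp_apply] at h1 h2
    rw [ha', h1, h2, neg_zero, Real.exp_zero, ou_one]
  have hder : ∀ q, HasDerivAt (fun t => ⟪a', v t⟫) (-(R.th q * corrDV a G (R.th q))) (R.time q) := by
    intro q
    have hq : 0 < R.time q := hR.t0_pos.trans_le (hR.le_time q)
    have h1 : HasDerivAt (fun t => Real.exp (-t)) (-Real.exp (-R.time q)) (R.time q) := by
      simpa using (hasDerivAt_id (R.time q)).neg.exp
    have hI : Real.exp (-R.time q) ∈ Ioo (-1 : ℝ) 1 :=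
      ⟨by linarith [Real.exp_pos (-R.time q)], Real.exp_lt_one_iff.2 (by linarith)⟩
    have h2 := (hasDerivAt_corrV ha hGt hI).comp (R.time q) h1
    refine (h2.congr_deriv ?_).congr_of_eventuallyEq ?_
    · simp only [Rule.th]; ring
    · filter_upwards [Ioi_mem_nhds hq] with t ht using hpair t ht
  have hcont : ContinuousAt (fun t => ⟪a', v t⟫) t0 := by
    have hI : Icc (-1 : ℝ) 1 ∈ 𝓝 (Real.exp (-t0)) :=
      Icc_mem_nhds (by linarith [Real.exp_pos (-t0)]) (Real.exp_lt_one_iff.2 (by linarith [hR.t0_pos]))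
    have h1 : ContinuousAt (fun t => corrV a G (Real.exp (-t))) t0 :=
      ContinuousAt.comp (f := fun t : ℝ => Real.exp (-t))
        ((continuousOn_corrV ha hGt).1.continuousAt hI) (by fun_prop)
    refine h1.congr ?_
    filter_upwards [Ioi_mem_nhds hR.t0_pos] with t ht using (hpair t ht).symm
  have hstep : ∀ h, 0 < h → ∃ A : L2Field d →ₗ[ℝ] L2Field d, A.IsSymmetric ∧
      (∀ x, 0 ≤ ⟪A x, x⟫) ∧ (∀ x, ⟪A x, x⟫ ≤ ‖x‖ ^ 2) ∧ ∀ n : ℕ, (A ^ n) (v 0) = v (n * h) := by
    intro h hh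
    have hθ : Real.exp (-(h / 2)) ∈ Icc (-1 : ℝ) 1 :=
      ⟨by linarith [Real.exp_pos (-(h / 2))], Real.exp_le_one_iff.2 (by linarith)⟩
    set B := ouOp (d := d) _ hθ
    refine ⟨(B.comp B).toLinearMap, fun x y => ?_, fun x => ?_, fun x => ?_, fun n => ?_⟩
    · simp only [ContinuousLinearMap.coe_coe, ContinuousLinearMap.comp_apply]
      rw [ouOp_symm hθ, ouOp_symm hθ]
    · simp only [ContinuousLinearMap.coe_coe, ContinuousLinearMap.comp_apply]
      rw [ouOp_symm hθ, real_inner_self_eq_norm_sq]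
      exact sq_nonneg _
    · simp only [ContinuousLinearMap.coe_coe, ContinuousLinearMap.comp_apply]
      rw [ouOp_symm hθ, real_inner_self_eq_norm_sq]
      exact pow_le_pow_left₀ (norm_nonneg _) (ouOp_le hθ x) 2
    · induction n with
      | zero => simp
      | succ n ih =>
        have hn : (0 : ℝ) ≤ n * h := by positivity
        rw [pow_succ', Module.End.mul_apply, ih]
        simp only [ContinuousLinearMap.coe_coe, ContinuousLinearMap.comp_apply, hv, B]
        rw [ouOp_orbit hlip hG.continuous hL0 (half_pos hh) hn hθ,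
          ouOp_orbit hlip hG.continuous hL0 (half_pos hh) (by linarith) hθ]
        congr 1
        push_cast
        ring
  have hmain := quad_orbit hR v hstep a' _ hder hcont
  have htq : ∀ q, 0 < R.time q := fun q => hR.t0_pos.trans_le (hR.le_time q)
  simp only [hpair _ (htq _), hpair t0 hR.t0_pos, sub_neg_eq_add] at hmain
  have hnorm : ∀ (F : L2Field d) (f : Space d → Space d),
      (F : Space d → Space d) =ᵐ[stdGaussian (Space d)] f →
      ‖F‖ = √(∫ x, ‖f x‖ ^ 2 ∂stdGaussian (Space d)) := fun F f hFf => by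
    rw [norm_eq_sqrt_real_inner, L2.inner_def]
    refine congrArg Real.sqrt (integral_congr_ae ?_)
    filter_upwards [hFf] with x hx
    rw [hx, real_inner_self_eq_norm_sq]
  have h0 := orbit_spec hlip hG.continuous hL0 (t := 0) le_rfl
  rw [neg_zero, Real.exp_zero, ou_one] at h0
  rw [hnorm a' a ha2.coeFn_toLp, hnorm (v 0) G h0] at hmain
  exact hmain

end

end P347.Quarter
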