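import Vale.Agent.P347.Quarter.Quad

/-!
# P347: the quadrature piece
-/

open MeasureTheory ProbabilityTheory Set Filter Topology
open scoped RealInnerProductSpace Gradient

namespace P347.Quarter

noncomputable section

variable {d M : ℕ}

/-- The derivative of an Ornstein-Uhlenbeck average. -/
theorem hasFDerivAt_ou {G : Space d → Space d} {L : ℝ} (hG : ContDiff ℝ 1 G)
    (hL : ∀ x, ‖fderiv ℝ G x‖ ≤ L) {θ : ℝ} (x : Space d) :
    HasFDerivAt (ou θ G)
      (∫ z, θ • fderiv ℝ G (θ • x + √(1 - θ ^ 2) • z) ∂stdGaussian (Space d)) x := by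
  set γ := stdGaussian (Space d) with hγ
  set s := √(1 - θ ^ 2) with hs
  have hGt := tame_of_lip hG hL
  have hL0 : 0 ≤ L := le_trans (norm_nonneg _) (hL 0)
  have hF : ∀ y : Space d, Continuous fun z => G (θ • y + s • z) := fun y =>
    hG.continuous.comp (by fun_prop)
  have hi : Integrable (fun z => G (θ • x + s • z)) γ :=
    (hGt.comp ((tame_const (θ • x)).add
      (tame_clm (s • ContinuousLinearMap.id ℝ (Space d))))).integrable
  refine hasFDerivAt_integral_of_dominated_of_fderiv_le (μ := γ)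
    (F := fun y z => G (θ • y + s • z)) (F' := fun y z => θ • fderiv ℝ G (θ • y + s • z))
    (bound := fun _ => |θ| * L) univ_mem (Eventually.of_forall fun y => (hF y).aestronglyMeasurable)
    hi ?_ (Eventually.of_forall fun z y _ => ?_) (integrable_const _)
    (Eventually.of_forall fun z y _ => ?_)
  · exact ((hGt.continuous_fderiv.comp (by fun_prop)).const_smul θ).aestronglyMeasurable
  · rw [norm_smul, Real.norm_eq_abs]
    exact mul_le_mul_of_nonneg_left (hL _) (abs_nonneg θ)
  · have h1 : HasFDerivAt (fun y : Space d => θ • y + s • z)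
        (θ • ContinuousLinearMap.id ℝ (Space d)) y :=
      ((hasFDerivAt_id y).const_smul θ).add_const _
    refine ((hGt.differentiable _).hasFDerivAt.comp y h1).congr_fderiv ?_
    ext w
    simp

theorem fdot_le {A B : Space d →L[ℝ] Space d} {L : ℝ} (hB : ‖B‖ ≤ L) :
    |fdot A B| ≤ frob A * (L * √d) := by
  set e := EuclideanSpace.basisFun (Fin d) ℝ
  have hL0 : 0 ≤ L := le_trans (norm_nonneg _) hB
  have h1 : |fdot A B| ≤ L * ∑ i, ‖A (e i)‖ := by
    rw [Finset.mul_sum]
    refine (Finset.abs_sum_le_sum_abs _ _).trans (Finset.sum_le_sum fun i _ => ?_)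
    refine (abs_real_inner_le_norm _ _).trans ?_
    rw [mul_comm]
    refine mul_le_mul_of_nonneg_right ((B.le_opNorm _).trans ?_) (norm_nonneg _)
    rw [e.norm_eq_one, mul_one]; exact hB
  have hcs := Finset.sum_mul_sq_le_sq_mul_sq Finset.univ (fun _ : Fin d => (1 : ℝ))
    (fun i => ‖A (e i)‖)
  simp only [one_mul, one_pow, Finset.sum_const, Finset.card_univ, Fintype.card_fin,
    nsmul_eq_mul, mul_one] at hcs
  have h2 : ∑ i, ‖A (e i)‖ ≤ √d * frob A := by
    rw [frob, ← Real.sqrt_mul (Nat.cast_nonneg d)]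
    refine Real.le_sqrt_of_sq_le (hcs.trans (le_of_eq ?_))
    simp only [fdot, real_inner_self_eq_norm_sq, e]
  linarith [mul_le_mul_of_nonneg_left h2 hL0]

theorem tame_field {a : Space d → Space d} {α β : ℝ} (ha : Field a α β) : Tame a := by
  have h0 : 0 ≤ α := le_trans (norm_nonneg _) (ha.bound 0)
  refine Tame.of_bounds ha.smooth (C := α) (D := β) (n := 0) (k := 0) h0
    (le_trans (Real.sqrt_nonneg _) (ha.deriv 0)) (fun x => by simpa using ha.bound x) fun x => ?_
  rw [pow_zero, mul_one]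
  refine ContinuousLinearMap.opNorm_le_bound _ (le_trans (Real.sqrt_nonneg _) (ha.deriv 0))
    fun v => ?_
  refine le_trans ?_ (mul_le_mul_of_nonneg_right (ha.deriv x) (norm_nonneg v))
  set A := fderiv ℝ a x
  set e := EuclideanSpace.basisFun (Fin d) ℝ
  have h1 : ‖A v‖ ≤ ∑ i, |⟪e i, v⟫| * ‖A (e i)‖ := by
    conv_lhs => rw [← e.sum_repr' v, map_sum]
    refine (norm_sum_le _ _).trans (le_of_eq (Finset.sum_congr rfl fun i _ => ?_))
    rw [map_smul, norm_smul, Real.norm_eq_abs]
  have hcs := Finset.sum_mul_sq_le_sq_mul_sq Finset.univ (fun i => |⟪e i, v⟫|) (fun i => ‖A (e i)‖)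
  have h2 : ∑ i, |⟪e i, v⟫| ^ 2 = ‖v‖ ^ 2 := by
    simp only [sq_abs]
    exact e.sum_sq_inner_right v
  have h3 : ∑ i, ‖A (e i)‖ ^ 2 = frob A ^ 2 := by
    have e0 : fdot A A = ∑ i, ‖A (e i)‖ ^ 2 := by
      simp only [fdot, real_inner_self_eq_norm_sq, e]
    rw [frob, e0, Real.sq_sqrt (Finset.sum_nonneg fun i _ => sq_nonneg _)]
  rw [h2, h3, ← mul_pow] at hcs
  refine h1.trans ?_
  rw [mul_comm]
  exact le_of_pow_le_pow_left₀ two_ne_zero (mul_nonneg (norm_nonneg _) (Real.sqrt_nonneg _)) hcs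

theorem integral_norm_sq_gauss : ∫ x, ‖x‖ ^ 2 ∂stdGaussian (Space d) = (d : ℝ) := by
  have h := gauss_ibp (EuclideanSpace.basisFun (Fin d) ℝ)
    (F := fun x : Space d => x) (tame_clm (ContinuousLinearMap.id ℝ (Space d)))
  simp only [real_inner_self_eq_norm_sq, fderiv_fun_id, ContinuousLinearMap.id_apply,
    OrthonormalBasis.norm_eq_one, one_pow, Finset.sum_const, Finset.card_univ, Fintype.card_fin,
    nsmul_eq_mul, mul_one, integral_const, probReal_univ, one_smul] at h
  exact h

/-- Moving a field along the pairing costs its Lipschitz constant. -/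
theorem corrV_near_one {a G : Space d → Space d} {α L θ : ℝ} (ha : Tame a) (hG : Tame G)
    (hα : ∀ x, ‖a x‖ ≤ α) (hL : ∀ x y, ‖G x - G y‖ ≤ L * ‖x - y‖) (hL0 : 0 ≤ L)
    (hθ : θ ∈ Icc (0 : ℝ) 1) :
    |corrV a G θ - ∫ x, ⟪a x, G x⟫ ∂stdGaussian (Space d)| ≤
      3 * α * L * √((1 - θ) * d) := by
  have hα0 : 0 ≤ α := le_trans (norm_nonneg _) (hα 0)
  have hθI : θ ∈ Icc (-1 : ℝ) 1 := ⟨by linarith [hθ.1], hθ.2⟩
  set μ := gauss2 (Space d)
  set s := √(1 - θ ^ 2) with hs
  have hs2 : s ^ 2 ≤ 2 * (1 - θ) := by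
    rw [hs, Real.sq_sqrt (by nlinarith [hθ.1, hθ.2])]
    nlinarith [hθ.1, hθ.2]
  have hi1 : Integrable (fun z : Space d × Space d => ⟪a z.1, G (ouMap θ z)⟫) μ := by
    have hn : Integrable (fun z : Space d × Space d => ‖G (ouMap θ z)‖) μ :=
      ((ouMap_mp hθI).integrable_comp (g := fun x => ‖G x‖)
        hG.continuous.norm.aestronglyMeasurable).2 (hG.integrable (μ := stdGaussian (Space d))).norm
    refine (hn.const_mul α).mono'
      ((ha.continuous.comp continuous_fst).inner
        (hG.continuous.comp (continuous_ouMap.comp (Continuous.prodMk_right θ)))).aestronglyMeasurable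
      (Eventually.of_forall fun z => ?_)
    exact (norm_inner_le_norm _ _).trans (mul_le_mul_of_nonneg_right (hα _) (norm_nonneg _))
  have hi2 : Integrable (fun z : Space d × Space d => ⟪a z.1, G z.1⟫) μ := by
    refine ((hG.integrable.norm.comp_fst (stdGaussian (Space d))).const_mul α).mono'
      ((ha.continuous.comp continuous_fst).inner
        (hG.continuous.comp continuous_fst)).aestronglyMeasurable (Eventually.of_forall fun z => ?_)
    exact (norm_inner_le_norm _ _).trans (mul_le_mul_of_nonneg_right (hα _) (norm_nonneg _))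
  have e : ∫ x, ⟪a x, G x⟫ ∂stdGaussian (Space d) = ∫ z, ⟪a z.1, G z.1⟫ ∂μ := by
    rw [integral_fun_fst (fun x => ⟪a x, G x⟫)]
    simp
  rw [corrV, e, ← integral_sub hi1 hi2]
  rcases eq_or_lt_of_le hθ.2 with h1 | h1
  · subst h1; simp [ouMap]
  have hk : 0 < 1 - θ := by linarith
  set k := √((1 - θ) * d) with hkdef
  rcases Nat.eq_zero_or_pos d with rfl | hd
  · have : ∀ u : Space 0, u = 0 := fun u => Subsingleton.elim _ _
    simp [this (a _), hkdef]
  have hkpos : 0 < k := Real.sqrt_pos.2 (mul_pos hk (by exact_mod_cast hd))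
  have hsqi : ∀ c : ℝ, Integrable (fun z : Space d × Space d => c * (‖z.1‖ ^ 2 + ‖z.2‖ ^ 2)) μ := by
    intro c
    have hm : Integrable (fun x : Space d => ‖x‖ ^ 2) (stdGaussian (Space d)) :=
      (IsGaussian.memLp_id _ 2 (by simp)).integrable_norm_pow (by norm_num)
    exact ((hm.comp_fst _).add (hm.comp_snd _)).const_mul c
  refine abs_integral_le_integral_abs.trans ((integral_mono (hi1.sub hi2).abs
    ((hsqi (α * L * (1 - θ) / k)).add (integrable_const (α * L * k))) fun z => ?_).trans ?_)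
  · simp only [Pi.sub_apply, Pi.add_apply]
    rw [← inner_sub_right]
    refine (abs_real_inner_le_norm _ _).trans ((mul_le_mul (hα _) (hL _ _) (norm_nonneg _) hα0).trans ?_)
    set n := ‖ouMap θ z - z.1‖
    have hn : n ^ 2 ≤ 2 * (1 - θ) * (‖z.1‖ ^ 2 + ‖z.2‖ ^ 2) * 2 := by
      have e1 : ouMap θ z - z.1 = s • z.2 - (1 - θ) • z.1 := by
        simp only [ouMap, ← hs]; module
      have h2 : n ≤ s * ‖z.2‖ + (1 - θ) * ‖z.1‖ := by
        simp only [n, e1]
        refine (norm_sub_le _ _).trans (le_of_eq ?_)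
        rw [norm_smul, norm_smul, Real.norm_eq_abs, Real.norm_eq_abs,
          abs_of_nonneg (Real.sqrt_nonneg _), abs_of_pos hk]
      have h3 := pow_le_pow_left₀ (norm_nonneg _) h2 2
      have h4 := mul_le_mul_of_nonneg_right hs2 (sq_nonneg ‖z.2‖)
      have h5 : (1 - θ) ^ 2 * ‖z.1‖ ^ 2 ≤ 2 * (1 - θ) * ‖z.1‖ ^ 2 :=
        mul_le_mul_of_nonneg_right (by nlinarith [hθ.1]) (sq_nonneg _)
      have h6 := two_mul_le_add_sq (s * ‖z.2‖) ((1 - θ) * ‖z.1‖)
      linarith
    have hn2 : n ≤ (1 - θ) / k * (‖z.1‖ ^ 2 + ‖z.2‖ ^ 2) + k := by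
      rw [div_mul_eq_mul_div, div_add' _ _ _ hkpos.ne', le_div_iff₀ hkpos]
      have := sq_nonneg (n - 2 * k)
      linarith
    have h7 := mul_le_mul_of_nonneg_left hn2 (mul_nonneg hα0 hL0)
    have e8 : α * L * ((1 - θ) / k * (‖z.1‖ ^ 2 + ‖z.2‖ ^ 2) + k)
        = α * L * (1 - θ) / k * (‖z.1‖ ^ 2 + ‖z.2‖ ^ 2) + α * L * k := by ring
    linarith
  · simp only [Pi.add_apply]
    have hm : Integrable (fun x : Space d => ‖x‖ ^ 2) (stdGaussian (Space d)) :=
      (IsGaussian.memLp_id _ 2 (by simp)).integrable_norm_pow (by norm_num)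
    rw [integral_add (hsqi _) (integrable_const _), integral_const_mul,
      integral_add (hm.comp_fst _) (hm.comp_snd _), integral_fun_fst (fun x : Space d => ‖x‖ ^ 2),
      integral_fun_snd (fun x : Space d => ‖x‖ ^ 2), integral_norm_sq_gauss, integral_const]
    simp only [probReal_univ, one_smul]
    have hkk : k ^ 2 = (1 - θ) * d := Real.sq_sqrt (by positivity)
    have : α * L * (1 - θ) / k * ((d : ℝ) + d) = 2 * α * L * k := by
      field_simp
      rw [hkk]; ring
    rw [this]
    linarith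

theorem fdot_integral {α : Type} [MeasurableSpace α] {μ : Measure α}
    (A : Space d →L[ℝ] Space d) {B : α → Space d →L[ℝ] Space d} (hB : Integrable B μ) :
    fdot A (∫ z, B z ∂μ) = ∫ z, fdot A (B z) ∂μ := by
  set e := EuclideanSpace.basisFun (Fin d) ℝ
  have hi : ∀ i, Integrable (fun z => ⟪A (e i), B z (e i)⟫) μ := fun i =>
    ((ContinuousLinearMap.apply ℝ (Space d) (e i)).integrable_comp hB).const_inner (A (e i))
  simp only [fdot]
  rw [integral_finsetSum _ fun i _ => hi i]
  refine Finset.sum_congr rfl fun i _ => ?_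
  rw [ContinuousLinearMap.integral_apply hB (e i)]
  exact (integral_inner ((ContinuousLinearMap.apply ℝ (Space d) (e i)).integrable_comp hB) _).symm

theorem integrable_shift {G : Space d → Space d} (hG : Tame G) (θ s : ℝ) (x : Space d) :
    Integrable (fun w => G (θ • x + s • w)) (stdGaussian (Space d)) :=
  (hG.comp ((tame_const (θ • x)).add
    (tame_clm (s • ContinuousLinearMap.id ℝ (Space d))))).integrable

/-- The derivative of a weighted sum of averages against a matrix. -/
theorem fdot_fderiv_ou_sum {G : Space d → Space d} {L : ℝ} (hG : ContDiff ℝ 1 G)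
    (hL : ∀ x, ‖fderiv ℝ G x‖ ≤ L) (A : Space d →L[ℝ] Space d) (th w : Fin M → ℝ) (x : Space d) :
    fdot A (fderiv ℝ (fun y => ∑ q, w q • ou (th q) G y) x)
      = ∑ q, w q * (th q * ∫ z, fdot A (fderiv ℝ G (ouMap (th q) (x, z))) ∂stdGaussian (Space d)) := by
  have hGt := tame_of_lip hG hL
  set B : Fin M → Space d →L[ℝ] Space d := fun q =>
    ∫ z, th q • fderiv ℝ G (th q • x + √(1 - th q ^ 2) • z) ∂stdGaussian (Space d)
  have hD : fderiv ℝ (fun y => ∑ q, w q • ou (th q) G y) x = ∑ q, w q • B q :=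
    (HasFDerivAt.fun_sum fun q _ => (hasFDerivAt_ou hG hL x).const_smul (w q)).fderiv
  have hBi : ∀ q, Integrable (fun z => th q • fderiv ℝ G (th q • x + √(1 - th q ^ 2) • z))
      (stdGaussian (Space d)) := fun q => by
    have hc : Continuous fun z : Space d => th q • x + √(1 - th q ^ 2) • z := by fun_prop
    refine Integrable.of_bound ((hGt.continuous_fderiv.comp hc).const_smul (th q)).aestronglyMeasurable
      (|th q| * L) (Eventually.of_forall fun z => ?_)
    rw [norm_smul, Real.norm_eq_abs]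
    exact mul_le_mul_of_nonneg_left (hL _) (abs_nonneg _)
  rw [hD]
  have e1 : fdot A (∑ q, w q • B q) = ∑ q, w q * fdot A (B q) := by
    simp only [fdot, sum_apply, smul_apply, inner_sum, inner_smul_right, Finset.mul_sum]
    exact Finset.sum_comm
  rw [e1]
  refine Finset.sum_congr rfl fun q _ => ?_
  rw [fdot_integral A (hBi q), ← integral_const_mul (th q)]
  refine congrArg (fun t => w q * t) (integral_congr_ae (Eventually.of_forall fun z => ?_))
  simp only [fdot, smul_apply, inner_smul_right, Finset.mul_sum]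
  rfl

theorem integrable_fdot_pair {G : Space d → Space d} {L : ℝ} (hG : ContDiff ℝ 1 G)
    (hL : ∀ x, ‖fderiv ℝ G x‖ ≤ L) {a : Space d → Space d} {α β : ℝ} (ha : Field a α β) (θ : ℝ) :
    Integrable (fun z : Space d × Space d => fdot (fderiv ℝ a z.1) (fderiv ℝ G (ouMap θ z)))
      (gauss2 (Space d)) := by
  have hat := tame_field ha
  have hGt := tame_of_lip hG hL
  refine Integrable.of_bound ?_ (β * (L * √d)) (Eventually.of_forall fun z => ?_)
  · refine Continuous.aestronglyMeasurable ?_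
    simp only [fdot]
    exact continuous_finsetSum _ fun i _ =>
      ((hat.continuous_fderiv.comp continuous_fst).clm_apply continuous_const).inner
        ((hGt.continuous_fderiv.comp (continuous_ouMap.comp (Continuous.prodMk_right θ))).clm_apply
          continuous_const)
  · rw [Real.norm_eq_abs]
    exact (fdot_le (hL _)).trans (mul_le_mul_of_nonneg_right (ha.deriv _)
      (mul_nonneg (le_trans (norm_nonneg _) (hL 0)) (Real.sqrt_nonneg _)))

theorem integrable_inner_pair {G : Space d → Space d} (hG : Tame G) {a : Space d → Space d}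
    {α β : ℝ} (ha : Field a α β) {θ : ℝ} (hθ : θ ∈ Icc (-1 : ℝ) 1) :
    Integrable (fun z : Space d × Space d => ⟪a z.1, G (ouMap θ z)⟫) (gauss2 (Space d)) := by
  have hn : Integrable (fun z : Space d × Space d => ‖G (ouMap θ z)‖) (gauss2 (Space d)) :=
    ((ouMap_mp hθ).integrable_comp (g := fun x => ‖G x‖)
      hG.continuous.norm.aestronglyMeasurable).2 (hG.integrable (μ := stdGaussian (Space d))).norm
  exact (hn.const_mul α).mono'
    ((ha.smooth.continuous.comp continuous_fst).inner
      (hG.continuous.comp (continuous_ouMap.comp (Continuous.prodMk_right θ)))).aestronglyMeasurable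
    (Eventually.of_forall fun z => (norm_inner_le_norm _ _).trans
      (mul_le_mul_of_nonneg_right (ha.bound _) (norm_nonneg _)))

/-- The rule applied to a Lipschitz vector function. -/
theorem quad : QuadSpec := by
  refine ⟨5, by norm_num, fun d M R δ t0 hR G L hG hL a α β hα ha => ?_⟩
  set γ := stdGaussian (Space d) with hγ
  have hL0 : 0 ≤ L := le_trans (norm_nonneg _) (hL 0)
  have hGt := tame_of_lip hG hL
  have hat := tame_field ha
  have hlip : ∀ x y, ‖G x - G y‖ ≤ L * ‖x - y‖ := fun x y =>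
    Convex.norm_image_sub_le_of_norm_fderiv_le (s := univ)
      (fun z _ => hGt.differentiable z) (fun z _ => hL z) convex_univ (mem_univ y) (mem_univ x)
  have hth : ∀ q, R.th q ∈ Icc (0 : ℝ) 1 := fun q =>
    ⟨(Real.exp_pos _).le, Real.exp_le_one_iff.2
      (by linarith [hR.t0_pos, hR.le_time q])⟩
  have hth' : ∀ q, R.th q ∈ Icc (-1 : ℝ) 1 := fun q => ⟨by linarith [(hth q).1], (hth q).2⟩
  have hK := fun q => integrable_fdot_pair hG hL ha (R.th q)
  have hG2 := fun q => integrable_inner_pair hGt ha (hth' q)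
  set Tq : Fin M → Space d → ℝ := fun q x =>
    R.th q * (∫ w, fdot (fderiv ℝ a x) (fderiv ℝ G (ouMap (R.th q) (x, w))) ∂γ)
      + ∫ w, ⟪a x, G (ouMap (R.th q) (x, w))⟫ ∂γ
  have hGx : ∀ q x, Integrable (fun w => G (ouMap (R.th q) (x, w))) γ := fun q x =>
    integrable_shift hGt _ _ x
  have hpt : ∀ x, fdot (fderiv ℝ a x) (fderiv ℝ (fun y => ∑ q, R.weight q • ou (R.th q) G y) x)
      + ⟪a x, (∑ q, R.weight q • ou (R.th q) G x) - G x⟫
      = (∑ q, R.weight q * Tq q x) - ⟪a x, G x⟫ := by
    intro x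
    rw [fdot_fderiv_ou_sum hG hL, inner_sub_right, inner_sum, ← add_sub_assoc,
      ← Finset.sum_add_distrib]
    congr 1
    refine Finset.sum_congr rfl fun q _ => ?_
    rw [inner_smul_right, ← mul_add]
    congr 2
    exact (integral_inner (hGx q x) (a x)).symm
  have hT : ∀ q, Integrable (Tq q) γ ∧
      ∫ x, Tq q x ∂γ = R.th q * corrDV a G (R.th q) + corrV a G (R.th q) := fun q => by
    have i1 := (hK q).integral_prod_left.const_mul (R.th q)
    have i2 := (hG2 q).integral_prod_left
    refine ⟨i1.add i2, ?_⟩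
    simp only [Tq]
    rw [integral_add i1 i2, integral_const_mul, corrDV, corrV, integral_prod _ (hK q),
      integral_prod _ (hG2 q)]
  have haG : Integrable (fun x => ⟪a x, G x⟫) γ := by
    refine ((hGt.integrable (μ := γ)).norm.const_mul α).mono'
      (hat.continuous.inner hG.continuous).aestronglyMeasurable (Eventually.of_forall fun x => ?_)
    exact (norm_inner_le_norm _ _).trans (mul_le_mul_of_nonneg_right (ha.bound _) (norm_nonneg _))
  have hwT : ∀ q, Integrable (fun x => R.weight q * Tq q x) γ := fun q => (hT q).1.const_mul _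
  simp only [hpt]
  rw [integral_sub (integrable_finsetSum _ fun q _ => hwT q) haG,
    integral_finsetSum _ fun q _ => hwT q]
  simp only [integral_const_mul, (hT _).2]
  have ha2 : MemLp a 2 γ := MemLp.of_bound hat.continuous.aestronglyMeasurable α
    (Eventually.of_forall ha.bound)
  have hquad := quad_corrV hR hG hL hat ha2
  have hθ0 : Real.exp (-t0) ∈ Icc (0 : ℝ) 1 :=
    ⟨(Real.exp_pos _).le, Real.exp_le_one_iff.2 (by linarith [hR.t0_pos])⟩
  have hnear := corrV_near_one hat hGt ha.bound hlip hL0 hθ0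
  have hsa : √(∫ x, ‖a x‖ ^ 2 ∂γ) ≤ α := by
    rw [Real.sqrt_le_left hα]
    calc ∫ x, ‖a x‖ ^ 2 ∂γ ≤ ∫ _, α ^ 2 ∂γ :=
          integral_mono_of_nonneg (Eventually.of_forall fun x => sq_nonneg _) (integrable_const _)
            (Eventually.of_forall fun x => pow_le_pow_left₀ (norm_nonneg _) (ha.bound x) 2)
      _ = α ^ 2 := by simp
  have hδ : 0 ≤ δ := le_trans (abs_nonneg _) (hR.quad 0 le_rfl)
  have hroot : √((1 - Real.exp (-t0)) * d) ≤ √(t0 * d) := by
    refine Real.sqrt_le_sqrt (mul_le_mul_of_nonneg_right ?_ (Nat.cast_nonneg d))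
    linarith [Real.add_one_le_exp (-t0)]
  have h1 := mul_le_mul_of_nonneg_left hroot (mul_nonneg hα hL0)
  have h2 := mul_le_mul_of_nonneg_left hsa
    (mul_nonneg hδ (Real.sqrt_nonneg (∫ x, ‖G x‖ ^ 2 ∂γ)))
  have hsum : ∑ q, R.weight q * (R.th q * corrDV a G (R.th q) + corrV a G (R.th q))
      = ∑ q, R.weight q * (corrV a G (R.th q) + R.th q * corrDV a G (R.th q)) :=
    Finset.sum_congr rfl fun q _ => by ring
  rw [hsum]
  have hq := abs_le.1 hquad
  have hn := abs_le.1 hnear
  have p1 : 0 ≤ α * (δ * √(∫ x, ‖G x‖ ^ 2 ∂γ)) := by positivity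
  have p2 : 0 ≤ α * (L * √(t0 * d)) := by positivity
  rw [abs_le]
  constructor <;> linarith

end

end P347.Quarter
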