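import Vale.Agent.P347.Quarter.Phases

/-!
# P347: the run against the target

First `N` steps in a fixed unit from the origin, then steps whose unit halves each time, each judged
against the target smoothed at the size of the next noise.
-/

namespace P347.Quarter

open MeasureTheory ProbabilityTheory Filter Topology Finset
open scoped RealInnerProductSpace

noncomputable section

variable {d M : ℕ}

theorem integral_sub_le {α : Type} [MeasurableSpace α] (μ : Measure α) [IsProbabilityMeasure μ]
    {φ ψ θ : α → ℝ} (hφ : Test φ) (hψ : Test ψ) (hθ : Test θ) {a b : ℝ}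
    (h : ∀ x, |φ x - ψ x| ≤ a + b * θ x) :
    |∫ x, φ x ∂μ - ∫ x, ψ x ∂μ| ≤ a + b * ∫ x, θ x ∂μ := by
  rw [← integral_sub (hφ.integrable μ) (hψ.integrable μ)]
  refine (abs_integral_le_integral_abs.trans (integral_mono
    ((hφ.integrable μ).sub (hψ.integrable μ)).abs
    ((integrable_const a).add ((hθ.integrable μ).const_mul b)) h)).trans (le_of_eq ?_)
  simp only [Pi.add_apply]
  rw [integral_add (integrable_const a) ((hθ.integrable μ).const_mul b), integral_const_mul]
  simp

theorem test_line {f : Space d → ℝ} (hf : Continuous f) (hT : Test f) {X : Type}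
    [TopologicalSpace X] [MeasurableSpace X] [BorelSpace X] {g : X → Space d} (hg : Continuous g) :
    Test fun x => f (g x) :=
  ⟨(hf.comp hg).measurable, fun _ => hT.nonneg _, fun _ => hT.le_one _⟩

theorem gav_sub_le {φ ψ θ : Space d → ℝ} (hφ : Continuous φ) (tφ : Test φ) (hψ : Continuous ψ)
    (tψ : Test ψ) (hθ : Continuous θ) (tθ : Test θ) {a b : ℝ}
    (h : ∀ x, |φ x - ψ x| ≤ a + b * θ x) (s : ℝ) (y : Space d) :
    |gav s φ y - gav s ψ y| ≤ a + b * gav s θ y :=
  integral_sub_le _ (test_line hφ tφ (by fun_prop)) (test_line hψ tψ (by fun_prop))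
    (test_line hθ tθ (by fun_prop)) fun _ => h _

theorem innerMean_sub_le (R : Rule M) {p : Space d → Space d} (hp : Continuous p) (G : ℕ)
    {φ ψ θ : Space d → ℝ} (hφ : Continuous φ) (tφ : Test φ) (hψ : Continuous ψ) (tψ : Test ψ)
    (hθ : Continuous θ) (tθ : Test θ) {a b : ℝ} (h : ∀ x, |φ x - ψ x| ≤ a + b * θ x) (v : Space d) :
    |innerMean R p G φ v - innerMean R p G ψ v| ≤ a + b * innerMean R p G θ v := by
  have hc := continuous_innerOut R hp G
  have hW : ∀ z, Continuous fun W : Seeds d M => innerOut R p G v z W := fun z =>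
    hc.comp (by fun_prop : Continuous fun W : Seeds d M => (v, z, W))
  have hz : ∀ {f : Space d → ℝ}, Continuous f → Test f →
      Test fun z => ∫ W, f (innerOut R p G v z W) ∂stdGaussian (Seeds d M) := fun {f} hf tf =>
    ⟨((hf.comp hc).comp (by fun_prop : Continuous fun a : Space d × Seeds d M =>
        (v, a.1, a.2))).measurable.stronglyMeasurable.integral_prod_right'.measurable,
      fun z => ((test_line hf tf (hW z)).integral_mem _).1,
      fun z => ((test_line hf tf (hW z)).integral_mem _).2⟩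
  exact integral_sub_le _ (hz hφ tφ) (hz hψ tψ) (hz hθ tθ) fun z =>
    integral_sub_le _ (test_line hφ tφ (hW z)) (test_line hψ tψ (hW z))
      (test_line hθ tθ (hW z)) fun _ => h _

theorem continuous_far {r : ℝ} : Continuous (far (d := d) r) := by unfold far; fun_prop

/-- A step in its unit. -/
theorem stepOp_eq {V : Space d → ℝ} (hV : InClass V) (R : Rule M) (G : ℕ) {η : ℝ} (h0 : 0 < η)
    (η' : ℝ) {f : Space d → ℝ} (hf : Continuous f) (tf : Test f) (x : Space d) :
    stepOp V R G η η' f x
      = innerMean R (pOf V η) G (gav (√η' / √η) fun y => f (√η • y)) ((√η)⁻¹ • x) := by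
  have hm : Measurable fun w : MapSeed d M => f (stepMap V R G η η' w x) :=
    hf.measurable.comp ((measurable_stepMap hV.smooth R G η η').comp
      (f := fun w : MapSeed d M => ((w, x) : MapSeed d M × Space d))
      (measurable_id.prodMk measurable_const))
  have hi : Integrable (fun w : MapSeed d M => f (stepMap V R G η η' w x))
      (((stdGaussian (Space d)).prod (stdGaussian (Seeds d M))).prod (stdGaussian (Space d))) :=
    (Test.mk hm (fun _ => tf.nonneg _) fun _ => tf.le_one _).integrable _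
  rw [stepOp, mapLaw, integral_prod _ hi]
  have hi2 := hi.integral_prod_left
  rw [integral_prod _ hi2]
  refine integral_congr_ae (Eventually.of_forall fun z => integral_congr_ae
    (Eventually.of_forall fun W => integral_congr_ae (Eventually.of_forall fun ξ => ?_)))
  simp only [stepMap, smul_add, smul_smul]
  rw [mul_div_cancel₀ _ (Real.sqrt_pos.2 h0).ne']

theorem continuous_stepOp {V : Space d → ℝ} (hV : InClass V) (R : Rule M) (G : ℕ) {η : ℝ}
    (h0 : 0 < η) (η' : ℝ) {f : Space d → ℝ} (hf : Continuous f) (tf : Test f) :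
    Continuous (stepOp V R G η η' f) ∧ Test (stepOp V R G η η' f) := by
  have hp : Continuous (pOf V η) :=
    (((contDiff_gradient hV.smooth).continuous.comp (continuous_const_smul √η)).const_smul √η)
  have hh : Continuous fun y => f (√η • y) := by fun_prop
  have th : Test fun y => f (√η • y) := test_line hf tf (by fun_prop)
  obtain ⟨hc, ht⟩ := test_innerMean R hp G (continuous_gav_test hh th (√η' / √η))
    (test_gav hh th (√η' / √η))
  rw [funext (stepOp_eq hV R G h0 η' hf tf)]
  exact ⟨hc.comp (continuous_const_smul _), test_line hc ht (continuous_const_smul _)⟩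

/-- The unit of the step with index `j - 1`. -/
def sched (L : ℕ) (η₀ : ℝ) (j : ℕ) : ℝ := η₀ / 2 ^ (L + 1 - j)

/-- The run on functions. -/
def runOp (V : Space d → ℝ) (R : Rule M) (G L : ℕ) (η₀ : ℝ) : ℕ → (Space d → ℝ) → Space d → ℝ :=
  iterOp fun k => stepOp V R G (sched L η₀ (k + 1)) (sched L η₀ k)

theorem sched_pos {L : ℕ} {η₀ : ℝ} (h0 : 0 < η₀) (j : ℕ) : 0 < sched L η₀ j := by
  unfold sched; positivity

theorem sched_le {L : ℕ} {η₀ : ℝ} (h0 : 0 < η₀) (j : ℕ) : sched L η₀ j ≤ η₀ :=
  div_le_self h0.le (one_le_pow₀ one_le_two)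

theorem sched_half {L : ℕ} {η₀ : ℝ} {j : ℕ} (hj : j ≤ L) :
    sched L η₀ j = sched L η₀ (j + 1) / 2 := by
  rw [sched, sched, div_div, ← pow_succ, show L + 1 - j = L + 1 - (j + 1) + 1 by omega]

theorem sched_top {L : ℕ} {η₀ : ℝ} {j : ℕ} (hj : L < j) : sched L η₀ j = η₀ := by
  rw [sched, show L + 1 - j = 0 by omega]; simp

theorem test_run {V : Space d → ℝ} (hV : InClass V) (R : Rule M) (G L : ℕ) {η₀ : ℝ} (h0 : 0 < η₀)
    {f : Space d → ℝ} (hf : Continuous f) (tf : Test f) :
    ∀ n, Continuous (runOp V R G L η₀ n f) ∧ Test (runOp V R G L η₀ n f)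
  | 0 => ⟨hf, tf⟩
  | n + 1 => continuous_stepOp hV R G (sched_pos h0 _) _ (test_run hV R G L h0 hf tf n).1
      (test_run hV R G L h0 hf tf n).2

/-- The chance of being far out under the smoothed target, in a unit. -/
def farBound (d : ℕ) (η r L' : ℝ) : ℝ := d / (r * √η) * (L' + 1) + ballTail d L' + (1 + d) / r

theorem far_smul {a r : ℝ} (ha : 0 < a) (x : Space d) : far r (a⁻¹ • x) = far (r * a) x := by
  simp [far, norm_smul, abs_of_pos ha, div_eq_mul_inv]
  ring_nf

theorem farBound_le {V : Space d → ℝ} (hV : InClass V) (hd : 1 ≤ d) {η r L' : ℝ} (h0 : 0 < η)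
    (hr : 0 < r) (hL : 0 ≤ L') :
    ∫ x, gav 1 (far r) ((√η)⁻¹ • x) ∂gibbs V ≤ farBound d η r L' := by
  have := hV.prob
  have hs := Real.sqrt_pos.2 h0
  refine (integral_mono ((test_line (continuous_gav_test continuous_far (test_far hr) 1)
    (test_gav continuous_far (test_far hr) 1) (continuous_const_smul _)).integrable _)
    (((test_line continuous_far (test_far (mul_pos hr hs)) continuous_id).integrable _).add
      (integrable_const ((1 + d) / r))) fun x => ?_).trans ?_
  · refine (gav_far hr _).trans (le_of_eq ?_)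
    simp [far_smul hs]
  · simp only [Pi.add_apply, id_eq]
    rw [integral_add ((test_far (mul_pos hr hs)).integrable _) (integrable_const _)]
    simp only [integral_const, probReal_univ, one_smul]
    unfold farBound
    linarith [hV.far_mean hd (mul_pos hr hs) hL]

theorem Test2.mono {u : Space d → ℝ} {α β α' β' : ℝ} (hu : Test2 u α β) (ha : α ≤ α')
    (hb : β ≤ β') : Test2 u α' β' :=
  ⟨hu.smooth, fun x => (hu.grad x).trans ha, fun x => (hu.hess x).trans hb⟩

theorem descent_step {C : ℝ} (hK : Kit C) {V : Space d → ℝ} (hV : InClass V) (hd : 1 ≤ d)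
    {R : Rule M} {δ t0 : ℝ} (hR : R.Good δ t0) {η h : ℝ} {J : ℕ} (h0 : 0 < η) (h1 : η ≤ 1 / 8)
    (hF : Fine h J) (G : ℕ) {r L' : ℝ} (hr : 0 < r) (hL : 0 ≤ L') {f : Space d → ℝ}
    (hf : Continuous f) (tf : Test f) :
    |∫ x, gav √η (stepOp V R G η (η / 2) f) x ∂gibbs V - ∫ x, gav √(η / 2) f x ∂gibbs V|
      ≤ C * (stepMain d η (2 * C) (2 * C) + 8 * C * stepTiny d G δ t0 h J r)
        + 2 * farBound d η r L' := by
  have := hV.prob
  have hC0 : 0 ≤ C := zero_le_one.trans hK.one_le
  have hp := hV.pot h0 h1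
  have hpc := hp.smooth.continuous
  have hs := Real.sqrt_pos.2 h0
  set σ := √(η / 2) / √η with hσdef
  have hσ : 0 < σ := by positivity
  have hσ2 : σ ^ 2 = 1 / 2 := by
    rw [hσdef, div_pow, Real.sq_sqrt (by positivity), Real.sq_sqrt h0.le]; field_simp
  have hσ1 : 1 / 2 ≤ σ := by nlinarith
  have hh : Continuous fun y => f (√η • y) := by fun_prop
  have th : Test fun y => f (√η • y) := test_line hf tf (by fun_prop)
  set u := gav σ fun y => f (√η • y)
  have hu : Test2 u (2 * C) (2 * C) :=
    (hK.gav_test d _ hh (fun y => ⟨th.nonneg y, th.le_one y⟩) σ hσ).mono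
      ((div_le_div_of_nonneg_left hC0 (by norm_num) hσ1).trans_eq (by ring))
      (by rw [hσ2]; linarith)
  have h01 : ∀ y, u y ∈ Set.Icc (0 : ℝ) 1 := gav_mem hh th σ
  have hu' : Test u := test_of_mem hu.cont h01
  obtain ⟨hmc, hmt⟩ := test_innerMean R hpc G hu.cont hu'
  obtain ⟨hjc, hjb⟩ := hK.piJ_cont d _ hpc u hu.cont h01 h J
  have hpt := hV.test_post h0 h1 hu'
  have e1 : ∀ x, gav √η (stepOp V R G η (η / 2) f) x
      = gav 1 (innerMean R (pOf V η) G u) ((√η)⁻¹ • x) := fun x => by
    simp only [gav, stepOp_eq hV R G h0 (η / 2) hf tf, ← hσdef, smul_add, smul_smul,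
      inv_mul_cancel₀ hs.ne']
    rfl
  have e2 : ∀ x, gav √(η / 2) f x = u ((√η)⁻¹ • x) := fun x => by
    simp [u, gav, smul_add, smul_smul, mul_inv_cancel₀ hs.ne', σ, mul_div_cancel₀ _ hs.ne']
  simp only [e1, e2]
  rw [← hV.invariant h0 h1 hu']
  have hti := stepTiny_nonneg (d := d) (G := G) (t0 := t0) hF hR.delta_nonneg hr.le
  have hpc' : ∀ v, |innerMean R (pOf V η) G u v - post V η u v|
      ≤ C * (stepMain d η (2 * C) (2 * C) + 8 * C * stepTiny d G δ t0 h J r) + 2 * far r v :=
    fun v => by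
    have a1 := inner_piJ hK hR hp hF G hr (α := 2 * C) (β := 2 * C) (by positivity) (by positivity)
      hu h01 v
    have a2 := post_piJ hK hV h0 h1 hF G (t0 := t0) hR.delta_nonneg hr (α := 2 * C) (β := 2 * C)
      (by positivity) (by positivity) hu h01 v
    refine (abs_sub_le _ (piJ (pOf V η) h J u v) _).trans ?_
    rw [abs_sub_comm (piJ (pOf V η) h J u v)]
    linarith
  have hgp : Measurable (post V η u) := hpt.meas
  have hgt : ∀ y : Space d, Test fun z : Space d => post V η u (y + (1 : ℝ) • z) := fun y =>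
    ⟨hgp.comp (by fun_prop), fun _ => hpt.nonneg _, fun _ => hpt.le_one _⟩
  have hgq : Test (gav 1 (post V η u)) :=
    ⟨((hgp.comp (f := fun a : Space d × Space d => a.1 + (1 : ℝ) • a.2)
        (by fun_prop)).stronglyMeasurable.integral_prod_right').measurable,
      fun y => ((hgt y).integral_mem _).1, fun y => ((hgt y).integral_mem _).2⟩
  refine (integral_sub_le _ (θ := fun x => gav 1 (far r) ((√η)⁻¹ • x))
    (test_line (continuous_gav_test hmc hmt 1) (test_gav hmc hmt 1) (continuous_const_smul _))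
    ⟨hgq.meas.comp (measurable_const_smul _), fun _ => hgq.nonneg _, fun _ => hgq.le_one _⟩
    (test_line (continuous_gav_test continuous_far (test_far hr) 1)
      (test_gav continuous_far (test_far hr) 1) (continuous_const_smul _)) (b := 2) fun x => ?_).trans
    (add_le_add le_rfl (mul_le_mul_of_nonneg_left (farBound_le hV hd h0 hr hL) (by norm_num)))
  exact integral_sub_le _ (test_line hmc hmt (by fun_prop)) (hgt _)
    (test_line continuous_far (test_far hr) (by fun_prop)) fun z => hpc' _

theorem descent {C : ℝ} (hK : Kit C) {V : Space d → ℝ} (hV : InClass V) (hd : 1 ≤ d)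
    {R : Rule M} {δ t0 : ℝ} (hR : R.Good δ t0) {η₀ h : ℝ} {J : ℕ} (h0 : 0 < η₀) (h1 : η₀ ≤ 1 / 8)
    (hF : Fine h J) (G L : ℕ) {r L' : ℝ} (hr : 0 < r) (hL : 0 ≤ L') {f : Space d → ℝ}
    (hf : Continuous f) (tf : Test f) : ∀ m ≤ L,
    |∫ x, gav √(sched L η₀ m) (runOp V R G L η₀ m f) x ∂gibbs V
        - ∫ x, gav √(sched L η₀ 0) f x ∂gibbs V|
      ≤ ∑ k ∈ Finset.range m,
        (C * (stepMain d (sched L η₀ (k + 1)) (2 * C) (2 * C) + 8 * C * stepTiny d G δ t0 h J r)
          + 2 * farBound d (sched L η₀ (k + 1)) r L')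
  | 0, _ => by simp [runOp, iterOp]
  | m + 1, hm => by
    obtain ⟨hc, ht⟩ := test_run hV R G L h0 hf tf m
    have h2 := descent_step hK hV hd hR (sched_pos h0 (m + 1))
      ((sched_le (L := L) h0 _).trans h1) hF G hr hL hc ht
    rw [← sched_half (show m ≤ L by omega)] at h2
    rw [Finset.sum_range_succ]
    refine (abs_sub_le _ (∫ x, gav √(sched L η₀ m) (runOp V R G L η₀ m f) x ∂gibbs V) _).trans ?_
    rw [add_comm (∑ k ∈ Finset.range m, _)]
    exact add_le_add h2 (descent hK hV hd hR h0 h1 hF G L hr hL hf tf m (by omega))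

/-- One step in a fixed unit on functions. -/
def fixedOp (V : Space d → ℝ) (R : Rule M) (G : ℕ) (η : ℝ) (u : Space d → ℝ) : Space d → ℝ :=
  gav 1 (innerMean R (pOf V η) G u)

/-- The gradient bound after `k` steps. -/
def alphaAt (C : ℝ) (k : ℕ) : ℝ := if k = 0 then 2 * C else C / √k

/-- The Hessian bound after `k` steps. -/
def betaAt (C η : ℝ) (k : ℕ) : ℝ := if k = 0 then 2 * C else C * (1 / k + η)

theorem test2_qop {C : ℝ} (hK : Kit C) {p : Space d → Space d} {η h : ℝ} {J : ℕ} (hp : Pot p η)
    (hF : Fine h J) {g : Space d → ℝ} (hg : Test2 g (2 * C) (2 * C))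
    (h01 : ∀ x, g x ∈ Set.Icc (0 : ℝ) 1) (k : ℕ) :
    Test2 ((qop p h J)^[k] g) (alphaAt C k) (betaAt C η k) ∧
      (∀ x, (qop p h J)^[k] g x ∈ Set.Icc (0 : ℝ) 1) ∧
      0 ≤ alphaAt C k ∧ 0 ≤ betaAt C η k ∧ alphaAt C k + betaAt C η k ≤ 4 * C := by
  have hC := hK.one_le
  unfold alphaAt betaAt
  rcases Nat.eq_zero_or_pos k with rfl | hk
  · simp only [if_true, Function.iterate_zero, id_eq]
    exact ⟨hg, h01, by linarith, by linarith, by linarith⟩
  · rw [if_neg hk.ne', if_neg hk.ne']
    obtain ⟨h1, h2⟩ := hK.smooth d p η h J hp hF g hg.cont h01 k hk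
    have hk1 : (1 : ℝ) ≤ k := by exact_mod_cast hk
    refine ⟨h1, h2, by positivity, by have := hp.pos; positivity, ?_⟩
    have a1 : C / √k ≤ C := div_le_self (by linarith) (by rw [Real.one_le_sqrt]; exact hk1)
    have a2 : 1 / (k : ℝ) ≤ 1 := by rw [div_le_one (by linarith)]; exact hk1
    have a3 : C * (1 / k + η) ≤ C * (1 + 1) :=
      mul_le_mul_of_nonneg_left (add_le_add a2 (by linarith [hp.small])) (by linarith)
    linarith

theorem fixed_chain {C : ℝ} (hK : Kit C) {V : Space d → ℝ} (hV : InClass V) (hd : 1 ≤ d)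
    {R : Rule M} {δ t0 : ℝ} (hR : R.Good δ t0) {η h : ℝ} {J : ℕ} (h0 : 0 < η) (h1 : η ≤ 1 / 8)
    (hF : Fine h J) (G : ℕ) {r L' : ℝ} (hr : 0 < r) (hL : 0 ≤ L') {g : Space d → ℝ}
    (hg : Test2 g (2 * C) (2 * C)) (h01 : ∀ x, g x ∈ Set.Icc (0 : ℝ) 1) (N : ℕ)
    (hκ : (1 + 5 * (1 / 4 : ℝ) ^ G) ^ N ≤ 2) :
    |(fixedOp V R G η)^[N] g 0 - ∫ x, g ((√η)⁻¹ • x) ∂gibbs V|
      ≤ C * ∑ k ∈ Finset.range N, stepMain d η (alphaAt C k) (betaAt C η k)
        + N * (8 * C * C * stepTiny d G δ t0 h J r + farBound d η r L')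
        + N * ((4 * N + 1) * (1 + d) + 2 * N * growConst d M) / r
        + (2 * C * (1 + η / 2)⁻¹ ^ N * d / √η * (L' + 1) + ballTail d L') := by
  have := hV.prob
  have hC := hK.one_le
  have hp := hV.pot h0 h1
  have hpc := hp.smooth.continuous
  have hs := Real.sqrt_pos.2 h0
  set κ : ℝ := 1 + 5 * (1 / 4) ^ G
  have hκ1 : 1 ≤ κ := le_add_of_nonneg_right (by positivity)
  have hG0 : 0 ≤ growConst d M := by unfold growConst; positivity
  have hti := stepTiny_nonneg (d := d) (G := G) (t0 := t0) hF hR.delta_nonneg hr.le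
  set P : ℝ := ((4 * N + 1) * (1 + d) + 2 * N * growConst d M) / r with hPdef
  have hA : ∀ n, Continuous ((fixedOp V R G η)^[n] g) ∧ Test ((fixedOp V R G η)^[n] g) := by
    intro n
    induction n with
    | zero => exact ⟨hg.cont, test_of_mem hg.cont h01⟩
    | succ n ih =>
      rw [Function.iterate_succ_apply']
      obtain ⟨a, b⟩ := test_innerMean R hpc G ih.1 ih.2
      exact ⟨continuous_gav_test a b 1, test_gav a b 1⟩
  have key : ∀ n, n ≤ N → ∀ y, |(fixedOp V R G η)^[n] g y - (qop (pOf V η) h J)^[n] g y|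
      ≤ (∑ k ∈ Finset.range n, C * stepMain d η (alphaAt C k) (betaAt C η k))
        + n * (4 * C * C * stepTiny d G δ t0 h J r + P)
        + (∑ k ∈ Finset.range n, κ ^ k) * far r y := by
    intro n
    induction n with
    | zero => intro _ y; simp
    | succ n ih =>
      intro hn y
      obtain ⟨hu, hu01, ha, hb, hab⟩ := test2_qop hK hp hF hg h01 n
      set u := (qop (pOf V η) h J)^[n] g
      have hu' := test_of_mem hu.cont hu01
      obtain ⟨hAc, hAt⟩ := hA n
      obtain ⟨hmc, hmt⟩ := test_innerMean R hpc G hu.cont hu'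
      obtain ⟨hMc, hMt⟩ := test_innerMean R hpc G hAc hAt
      obtain ⟨hjc, hjb⟩ := hK.piJ_cont d _ hpc u hu.cont hu01 h J
      obtain ⟨hfc, hft⟩ := test_innerMean R hpc G continuous_far (test_far (d := d) hr)
      set a₀ := (∑ k ∈ Finset.range n, C * stepMain d η (alphaAt C k) (betaAt C η k))
        + n * (4 * C * C * stepTiny d G δ t0 h J r + P)
      set b₀ := ∑ k ∈ Finset.range n, κ ^ k with hb₀
      have hb0 : 0 ≤ b₀ := Finset.sum_nonneg fun k _ => by positivity
      have hb2 : b₀ ≤ 2 * N := by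
        refine (Finset.sum_le_card_nsmul _ _ 2 fun k hk => ?_).trans ?_
        · exact (pow_le_pow_right₀ hκ1 (by simp at hk; omega)).trans hκ
        · rw [Finset.card_range, nsmul_eq_mul, mul_comm]
          have : (n : ℝ) ≤ N := by exact_mod_cast (show n ≤ N by omega)
          linarith
      set e := C * (stepMain d η (alphaAt C n) (betaAt C η n)
        + 4 * C * stepTiny d G δ t0 h J r)
      have hdiff : ∀ v, |innerMean R (pOf V η) G ((fixedOp V R G η)^[n] g) v
          - piJ (pOf V η) h J u v|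
            ≤ (a₀ + b₀ * (growConst d M / r) + e) + (b₀ * κ + 1) * far r v := fun v => by
        have a1 := innerMean_sub_le R hpc G hAc hAt hu.cont hu' continuous_far (test_far hr)
          (ih (by omega)) v
        have a2 := mul_le_mul_of_nonneg_left (innerMean_far hR hp G hr v) hb0
        have a3 := inner_piJ hK hR hp hF G hr ha hb hu hu01 v
        have a4 : C * (stepTiny d G δ t0 h J r * (alphaAt C n + betaAt C η n))
            ≤ C * (4 * C * stepTiny d G δ t0 h J r) :=
          mul_le_mul_of_nonneg_left (by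
            have := mul_le_mul_of_nonneg_left hab hti; linarith) (by linarith)
        refine (abs_sub_le _ (innerMean R (pOf V η) G u v) _).trans ?_
        linarith
      have hg1 := gav_sub_le hMc hMt hjc (test_of_mem hjc hjb) continuous_far (test_far hr) hdiff 1 y
      rw [Function.iterate_succ_apply', Function.iterate_succ_apply']
      refine hg1.trans ?_
      have h2 := mul_le_mul_of_nonneg_left (gav_far hr y) (show 0 ≤ b₀ * κ + 1 by positivity)
      have hsum : ∑ k ∈ Finset.range (n + 1), κ ^ k = b₀ * κ + 1 := by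
        rw [Finset.sum_range_succ', hb₀, Finset.sum_mul]
        simp [pow_succ]
      rw [Finset.sum_range_succ, hsum]
      have h3 : b₀ * (growConst d M / r) + (b₀ * κ + 1) * ((1 + d) / r) ≤ P := by
        rw [hPdef, ← mul_div_assoc, ← mul_div_assoc, ← add_div]
        refine div_le_div_of_nonneg_right ?_ hr.le
        have hκ2 : κ ≤ 2 := by
          rcases Nat.eq_zero_or_pos N with hN | hN
          · omega
          · exact (le_self_pow₀ hκ1 hN.ne').trans hκ
        have h4 := mul_le_mul hb2 hκ2 (by linarith) (by positivity)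
        have := mul_le_mul_of_nonneg_right hb2 hG0
        have := mul_le_mul_of_nonneg_right h4 (show (0 : ℝ) ≤ 1 + d by positivity)
        linarith
      push_cast
      linarith
  have hk := key N le_rfl 0
  rw [show far (d := d) r 0 = 0 by simp [far], mul_zero, add_zero, ← Finset.mul_sum] at hk
  have hq : ∀ n, |∫ x, (qop (pOf V η) h J)^[n] g ((√η)⁻¹ • x) ∂gibbs V
      - ∫ x, g ((√η)⁻¹ • x) ∂gibbs V|
        ≤ n * (4 * C * C * stepTiny d G δ t0 h J r + farBound d η r L') := by
    intro n
    induction n with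
    | zero => simp
    | succ n ih =>
      obtain ⟨hu, hu01, ha, hb, hab⟩ := test2_qop hK hp hF hg h01 n
      set u := (qop (pOf V η) h J)^[n] g
      have hu' := test_of_mem hu.cont hu01
      obtain ⟨hjc, hjb⟩ := hK.piJ_cont d _ hpc u hu.cont hu01 h J
      have hjt := test_of_mem hjc hjb
      have hpt := hV.test_post h0 h1 hu'
      have hgt : ∀ y : Space d, Test fun z : Space d => post V η u (y + (1 : ℝ) • z) := fun y =>
        ⟨hpt.meas.comp (by fun_prop), fun _ => hpt.nonneg _, fun _ => hpt.le_one _⟩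
      have hgq : Test (gav 1 (post V η u)) :=
        ⟨((hpt.meas.comp (f := fun a : Space d × Space d => a.1 + (1 : ℝ) • a.2)
            (by fun_prop)).stronglyMeasurable.integral_prod_right').measurable,
          fun y => ((hgt y).integral_mem _).1, fun y => ((hgt y).integral_mem _).2⟩
      have h2 := integral_sub_le (gibbs V) (θ := fun x => gav 1 (far r) ((√η)⁻¹ • x))
        (φ := fun x => gav 1 (piJ (pOf V η) h J u) ((√η)⁻¹ • x))
        (ψ := fun x => gav 1 (post V η u) ((√η)⁻¹ • x))
        (a := 4 * C * C * stepTiny d G δ t0 h J r) (b := 1)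
        (test_line (continuous_gav_test hjc hjt 1) (test_gav hjc hjt 1) (continuous_const_smul _))
        ⟨hgq.meas.comp (measurable_const_smul _), fun _ => hgq.nonneg _, fun _ => hgq.le_one _⟩
        (test_line (continuous_gav_test continuous_far (test_far hr) 1)
          (test_gav continuous_far (test_far hr) 1) (continuous_const_smul _)) fun x => by
        refine integral_sub_le _ (test_line hjc hjt (by fun_prop)) (hgt _)
          (test_line continuous_far (test_far hr) (by fun_prop)) fun z => ?_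
        have a1 := post_piJ hK hV h0 h1 hF G (t0 := t0) hR.delta_nonneg hr ha hb hu hu01
          ((√η)⁻¹ • x + (1 : ℝ) • z)
        have a4 : C * (stepTiny d G δ t0 h J r * (alphaAt C n + betaAt C η n))
            ≤ C * (4 * C * stepTiny d G δ t0 h J r) :=
          mul_le_mul_of_nonneg_left (by
            have := mul_le_mul_of_nonneg_left hab hti; linarith) (by linarith)
        rw [abs_sub_comm]
        linarith
      rw [hV.invariant h0 h1 hu'] at h2
      have e : (qop (pOf V η) h J)^[n + 1] g = gav 1 (piJ (pOf V η) h J u) :=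
        Function.iterate_succ_apply' _ _ _
      rw [e]
      refine (abs_sub_le _ (∫ x, u ((√η)⁻¹ • x) ∂gibbs V) _).trans ?_
      have := farBound_le hV hd h0 hr hL (V := V)
      push_cast
      linarith
  obtain ⟨hu, hu01, -, -, -⟩ := test2_qop hK hp hF hg h01 N
  set u := (qop (pOf V η) h J)^[N] g
  set q : ℝ := (1 + η / 2)⁻¹ ^ N with hqdef
  have hq0 : 0 < q := by positivity
  have hl : ∀ y, |u 0 - u y| ≤ q * (2 * C * ‖y‖) := fun y => by
    have := hK.contract d _ η h J hp hF g (2 * C) hg.lip N 0 y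
    simpa [u, q] using this
  have hrad : 0 < √η / (2 * C * q) := by positivity
  have hmix : |u 0 - ∫ x, u ((√η)⁻¹ • x) ∂gibbs V|
      ≤ 2 * C * q * d / √η * (L' + 1) + ballTail d L' := by
    have h2 := integral_sub_le (gibbs V) (φ := fun _ : Space d => u 0)
      (ψ := fun x => u ((√η)⁻¹ • x)) (θ := far (√η / (2 * C * q))) (a := 0) (b := 1)
      ⟨measurable_const, fun _ => (hu01 0).1, fun _ => (hu01 0).2⟩
      (test_line hu.cont (test_of_mem hu.cont hu01) (continuous_const_smul _)) (test_far hrad)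
      fun x => by
      rw [zero_add, one_mul]
      refine le_min ?_ ?_
      · have a1 := hu01 0
        have a2 := hu01 ((√η)⁻¹ • x)
        rw [abs_le]; constructor <;> linarith [a1.1, a1.2, a2.1, a2.2]
      · refine (hl _).trans (le_of_eq ?_)
        rw [norm_smul, Real.norm_eq_abs, abs_inv, abs_of_pos hs]
        field_simp
    simp only [integral_const, probReal_univ, one_smul, zero_add, one_mul] at h2
    refine h2.trans ((hV.far_mean hd hrad hL).trans (le_of_eq ?_))
    field_simp
  refine (abs_sub_le _ (u 0) _).trans ((add_le_add hk ((abs_sub_le _ _ _).trans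
    (add_le_add hmix (hq N)))).trans (le_of_eq ?_))
  rw [hPdef]
  ring

theorem run_fixed {V : Space d → ℝ} (hV : InClass V) (R : Rule M) (G L : ℕ) {η₀ : ℝ}
    (h0 : 0 < η₀) {f : Space d → ℝ} (hf : Continuous f) (tf : Test f) :
    ∀ j x, runOp V R G L η₀ (L + j + 1) f x
      = innerMean R (pOf V η₀) G ((fixedOp V R G η₀)^[j]
          (gav (√(sched L η₀ L) / √η₀) fun y => runOp V R G L η₀ L f (√η₀ • y))) ((√η₀)⁻¹ • x)
  | 0, x => by
    obtain ⟨hc, ht⟩ := test_run hV R G L h0 hf tf L
    have e := stepOp_eq hV R G (η := η₀) h0 (sched L η₀ L) hc ht x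
    show stepOp V R G (sched L η₀ (L + 1)) (sched L η₀ L) (runOp V R G L η₀ L f) x = _
    rw [sched_top (Nat.lt_succ_self L), e]
    rfl
  | j + 1, x => by
    obtain ⟨hc, ht⟩ := test_run hV R G L h0 hf tf (L + j + 1)
    have e := stepOp_eq hV R G (η := η₀) h0 η₀ hc ht x
    rw [Function.iterate_succ_apply']
    show stepOp V R G (sched L η₀ (L + j + 1 + 1)) (sched L η₀ (L + j + 1))
      (runOp V R G L η₀ (L + j + 1) f) x = _
    rw [sched_top (by omega), sched_top (by omega), e]
    refine congrArg (fun u => innerMean R (pOf V η₀) G u ((√η₀)⁻¹ • x)) ?_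
    rw [div_self (Real.sqrt_pos.2 h0).ne']
    refine congrArg (gav 1) (funext fun y => ?_)
    rw [run_fixed hV R G L h0 hf tf j, smul_smul, inv_mul_cancel₀ (Real.sqrt_pos.2 h0).ne',
      one_smul]

end

end P347.Quarter
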