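import Vale.Agent.P347.Quarter.Bias
import Vale.Agent.P347.Quarter.Defect
import Vale.Agent.P347.Quarter.QuadMain
import Vale.Agent.P347.Quarter.Smoothing

/-!
# P347: one inner map against the inner chain

The noise, the bias, the quadrature and the exact defect are put together.
-/

namespace P347.Quarter

open MeasureTheory ProbabilityTheory Finset
open scoped RealInnerProductSpace BigOperators

noncomputable section

variable {d M : ℕ} {R : Rule M} {δ t0 : ℝ} {g : Space d → Space d} {ρ L : ℝ}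

theorem drift_cgrad {p : Space d → Space d} {η : ℝ} (hp : Pot p η) (c v : Space d)
    (hρ : ‖cgrad p c v 0‖ ≤ ρ) : Drift (cgrad p c v) ρ (2 * η) where
  smooth := ((hp.smooth.comp (contDiff_const.add contDiff_id)).add contDiff_const).sub
    contDiff_const
  deriv x := by
    have h : HasFDerivAt (cgrad p c v) (fderiv ℝ p (c + x)) x := by
      have h1 : HasFDerivAt (fun y => p (c + y)) (fderiv ℝ p (c + x)) x :=
        ((hp.smooth.differentiable one_ne_zero _).hasFDerivAt).comp x
          ((hasFDerivAt_id x).const_add c)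
      exact (h1.add_const c).sub_const v
    rw [h.fderiv]
    exact Defect.pot_op hp _
  zero := hρ
  small := by linarith [hp.small]

theorem Rule.Good.delta_nonneg (hR : R.Good δ t0) : 0 ≤ δ :=
  (abs_nonneg _).trans (hR.quad 0 le_rfl)

theorem tame_gmean1 (hg : Drift g ρ L) (hR : R.Good δ t0) : Tame (gmean1 (d := d) R g) :=
  tame_of_lip (contDiff_gmean1 hg hR) (fderiv_gmean1_le hg hR)

theorem sqrt_integral_gmean1_le (hg : Drift g ρ L) (hR : R.Good δ t0) :
    √(∫ x, ‖gmean1 R g x‖ ^ 2 ∂stdGaussian (Space d)) ≤ (4 * ρ + 5 * L * √d) * √d := by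
  have hL := hg.nonneg
  have hρ := hg.rho_nonneg
  set γ := stdGaussian (Space d)
  rcases Nat.eq_zero_or_pos d with h0 | h0
  · subst h0
    simp [Subsingleton.elim (α := Space 0) (gmean1 R g _) 0]
  · have h1 : 1 ≤ √(d : ℝ) := Real.one_le_sqrt.2 (by exact_mod_cast h0)
    refine le_trans ?_ (le_mul_of_one_le_right (by positivity) h1)
    refine (Real.sqrt_le_sqrt ?_).trans (Real.sqrt_sq (by positivity)).le
    have i2 : Integrable (fun x : Space d => ‖x‖ ^ 2) γ := Defect.integrable_norm_sq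
    have hi : Integrable (fun x => 12 * ρ ^ 2 + 12 * L ^ 2 * d + 12 * L ^ 2 * ‖x‖ ^ 2) γ :=
      (integrable_const _).add (i2.const_mul _)
    refine (integral_mono_of_nonneg (Filter.Eventually.of_forall fun x => sq_nonneg _) hi
      (Filter.Eventually.of_forall fun x => ?_)).trans ?_
    · dsimp only
      refine (pow_le_pow_left₀ (norm_nonneg _) (norm_gmean1_le hg hR x) 2).trans ?_
      have hs : √(d : ℝ) ^ 2 = d := Real.sq_sqrt (Nat.cast_nonneg d)
      nlinarith [sq_nonneg (2 * ρ - 2 * L * ‖x‖), sq_nonneg (2 * ρ - 2 * L * √(d : ℝ)),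
        sq_nonneg (2 * L * ‖x‖ - 2 * L * √(d : ℝ))]
    · rw [integral_add (integrable_const _) (i2.const_mul _), integral_const_mul,
        integral_norm_sq_gauss]
      simp only [integral_const, probReal_univ, one_smul]
      have hs : √(d : ℝ) ^ 2 = d := Real.sq_sqrt (Nat.cast_nonneg d)
      nlinarith [mul_nonneg (mul_nonneg hρ hL) (Real.sqrt_nonneg (d : ℝ)), sq_nonneg ρ,
        mul_nonneg (sq_nonneg L) (Nat.cast_nonneg (α := ℝ) d)]

theorem norm_psi_zero_le (hg : Drift g ρ L) (hR : R.Good δ t0) :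
    ‖psi R g (0 : Space d)‖ ≤ 4 * ρ + 4 * L * √d := by
  set μ := stdGaussian (Seeds d M)
  have hqi : ∀ q, Integrable (fun W => ‖hq R g (0 : Space d) W q‖) μ := fun q =>
    (Tame.integrable (tame_slice (tame_hq hg hR q) 0)).norm
  rw [psi_eq_integral hg hR]
  refine (norm_integral_le_integral_norm _).trans ((integral_mono
    (Tame.integrable (tame_slice (tame_disp hg hR) 0)).norm
    (integrable_finsetSum _ fun q _ => (hqi q).const_mul _)
    fun W => hR.norm_sum_le fun q => le_rfl).trans ?_)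
  rw [integral_finsetSum _ fun q _ => (hqi q).const_mul _]
  simp only [integral_const_mul]
  have := hg.rho_nonneg
  have := hg.nonneg
  refine (hR.sum_mul_le (b := 2 * ρ + 2 * L * √d) (by positivity) fun q => ?_).trans
    (le_of_eq (by ring))
  simpa using integral_hq_le hg hR q (0 : Space d)

/-- The first level against the second, point by point. -/
theorem gmean_gap (hg : Drift g ρ L) (hR : R.Good δ t0) {a : Space d → Space d} {α β : ℝ}
    (ha : Field a α β) (x : Space d) :
    |⟪a x, gmean1 R g x⟫ - ∫ W, ⟪a x, g (s2 R g x W)⟫ ∂stdGaussian (Seeds d M)|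
      ≤ 4 * α * L ^ 2 * (ρ + L * ‖x‖ + 2 * L * √d) := by
  set μ := stdGaussian (Seeds d M)
  have hα : 0 ≤ α := (norm_nonneg _).trans (ha.bound 0)
  have hL := hg.nonneg
  have hρ := hg.rho_nonneg
  have hT1 : Tame fun W : Seeds d M => g (s1 R g x fun r => slot W r none) := by
    have h := tame_slice (tame_nest (A := ContinuousLinearMap.fst ℝ (Space d) (Seeds d M))
      (B := fun r => (slotL r none).comp (ContinuousLinearMap.snd ℝ (Space d) (Seeds d M))) hg hR) x
    exact h
  have hT2 : Tame fun W : Seeds d M => g (s2 R g x W) :=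
    (tame_drift hg).comp ((tame_const x).sub (tame_slice (tame_disp hg hR) x))
  have e1 : ⟪a x, gmean1 R g x⟫
      = ∫ W, ⟪a x, g (s1 R g x fun r => slot W r none)⟫ ∂μ :=
    (integral_inner (Tame.integrable hT1) (a x)).symm
  have hA : ∀ q, Integrable (fun W : Seeds d M => 2 * (‖x‖ + ‖slot W q none‖)
      + ∑ r, R.weight r * ‖slot W q (some r)‖) μ := fun q =>
    (((integrable_const _).add (integrable_norm_slot q none)).const_mul 2).add
      (integrable_finsetSum _ fun r _ => (integrable_norm_slot q (some r)).const_mul _)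
  have hq2 : ∀ q, Integrable (fun W : Seeds d M => L * (2 * ρ + L * (2 * (‖x‖ + ‖slot W q none‖)
      + ∑ r, R.weight r * ‖slot W q (some r)‖))) μ := fun q =>
    ((integrable_const _).add ((hA q).const_mul L)).const_mul L
  set K := L * (2 * ρ + L * (2 * ‖x‖ + 4 * √d))
  have hK : 0 ≤ K := by positivity
  rw [e1, ← integral_sub ((tame_const (a x)).inner hT1).integrable
    ((tame_const (a x)).inner hT2).integrable]
  refine abs_integral_le_integral_abs.trans ((integral_mono_of_nonneg
    (Filter.Eventually.of_forall fun W => abs_nonneg _)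
    (((integrable_finsetSum Finset.univ fun q _ =>
      (hq2 q).const_mul (R.weight q)).const_mul L).const_mul α)
    (Filter.Eventually.of_forall fun W => ?_)).trans ?_)
  · dsimp only
    rw [← inner_sub_right]
    refine (abs_real_inner_le_norm _ _).trans (mul_le_mul (ha.bound x) ?_ (norm_nonneg _) hα)
    refine (hg.lip _ _).trans (mul_le_mul_of_nonneg_left ?_ hL)
    have e : (s1 R g x fun r => slot W r none) - s2 R g x W
        = ∑ q, R.weight q • (hq R g x W q - g (R.th q • x + R.sd q • slot W q none)) := by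
      simp [s1, s2, smul_sub, Finset.sum_sub_distrib]
    rw [e]
    refine hR.norm_sum_le fun q => ?_
    refine (nest_sub_le (A := nodeA R q) (B := nodeB q) hg hR (x, W)).trans ?_
    refine mul_le_mul_of_nonneg_left (add_le_add le_rfl (mul_le_mul_of_nonneg_left
      (add_le_add ?_ le_rfl) hL)) hL
    exact mul_le_mul_of_nonneg_left (hR.node_norm_le q x (slot W q none)) zero_le_two
  · rw [integral_const_mul, integral_const_mul,
      integral_finsetSum _ fun q _ => (hq2 q).const_mul _]
    simp only [integral_const_mul]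
    refine (mul_le_mul_of_nonneg_left (mul_le_mul_of_nonneg_left
      (hR.sum_mul_le hK fun q => ?_) hL) hα).trans (le_of_eq (by simp only [K]; ring))
    have i1 : Integrable (fun W : Seeds d M => 2 * (‖x‖ + ‖slot W q none‖)) μ :=
      ((integrable_const _).add (integrable_norm_slot q none)).const_mul 2
    rw [integral_add (integrable_const _) ((hA q).const_mul L)]
    simp only [integral_const_mul]
    rw [integral_add i1 (integrable_finsetSum _ fun r _ =>
        (integrable_norm_slot q (some r)).const_mul _)]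
    simp only [integral_const_mul]
    rw [integral_add (integrable_const _) (integrable_norm_slot q none),
      integral_finsetSum _ fun r _ => (integrable_norm_slot q (some r)).const_mul _]
    simp only [integral_const_mul, integral_const, probReal_univ, one_smul, K]
    have h1 := integral_norm_slot_le (d := d) q none
    have h2 : ∑ r, R.weight r * ∫ W, ‖slot W q (some r)‖ ∂μ ≤ 2 * √d :=
      hR.sum_mul_le (Real.sqrt_nonneg _) fun r => integral_norm_slot_le q (some r)
    exact mul_le_mul_of_nonneg_left (add_le_add le_rfl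
      (mul_le_mul_of_nonneg_left (by linarith) hL)) hL

/-- The linear part of the defect of the displacement. -/
theorem defLin_psi_le (hg : Drift g ρ L) (hR : R.Good δ t0) {Cq : ℝ} (hCq : 0 ≤ Cq)
    (hQ : ∀ (G : Space d → Space d) (K : ℝ), ContDiff ℝ 1 G → (∀ x, ‖fderiv ℝ G x‖ ≤ K) →
      ∀ (a : Space d → Space d) (α β : ℝ), 0 ≤ α → Field a α β →
      |∫ x, (fdot (fderiv ℝ a x) (fderiv ℝ (fun y => ∑ q, R.weight q • ou (R.th q) G y) x)
          + ⟪a x, (∑ q, R.weight q • ou (R.th q) G x) - G x⟫) ∂stdGaussian (Space d)|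
        ≤ Cq * α * (δ * √(∫ x, ‖G x‖ ^ 2 ∂stdGaussian (Space d)) + K * √(t0 * d)))
    (a : Space d → Space d) (α β : ℝ) (hα : 0 ≤ α) (ha : Field a α β) :
    |defLin g (psi R g) a| ≤ (Cq * (δ * ((4 * ρ + 5 * L * √d) * √d) + 2 * L * √(t0 * d))
      + (104 * L ^ 2 * ρ + 332 * L ^ 3 * √d)) * α + 16 * L ^ 3 * √d * β := by
  set γ := stdGaussian (Space d)
  set μ := stdGaussian (Seeds d M)
  have hat := ha.tame
  have hψ := tame_psi (d := d) hg hR
  have hG := tame_gmean1 (d := d) hg hR
  have hgt := tame_drift hg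
  set X : Space d → ℝ := fun x => fdot (fderiv ℝ a x) (fderiv ℝ (psi R g) x)
    + ⟪a x, psi R g x - gmean1 R g x⟫
  set Y : Space d → ℝ := fun x => ⟪a x, gmean1 R g x⟫ - ∫ W, ⟪a x, g (s2 R g x W)⟫ ∂μ
  set Z : Space d → ℝ := fun x => (∫ W, ⟪a x, g (s2 R g x W)⟫ ∂μ) - ⟪a x, g (x - psi R g x)⟫
  have hfd : Integrable (fun x => fdot (fderiv ℝ a x) (fderiv ℝ (psi R g) x)) γ := by
    refine (integrable_const (β * (√d * (3 * L)))).mono' ?_
      (Filter.Eventually.of_forall fun x => ?_)
    · have h1 := hat.continuous_fderiv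
      have h2 := hψ.continuous_fderiv
      refine Continuous.aestronglyMeasurable ?_
      unfold fdot
      fun_prop
    · refine (Defect.abs_fdot_le _ _).trans ?_
      exact mul_le_mul (ha.deriv x) ((Defect.frob_le_norm _).trans (mul_le_mul_of_nonneg_left
        (fderiv_psi_le hg hR x) (Real.sqrt_nonneg _))) (frob_nonneg _)
        ((frob_nonneg _).trans (ha.deriv x))
  have hX : Integrable X γ := hfd.add (hat.inner (hψ.sub hG)).integrable
  have hF : Tame fun z : Space d × Seeds d M => ⟪a z.1, g (s2 R g z.1 z.2)⟫ :=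
    (hat.comp (tame_clm (.fst ℝ (Space d) (Seeds d M)))).inner
      (hgt.comp ((tame_clm (.fst ℝ (Space d) (Seeds d M))).sub (tame_disp hg hR)))
  have hI : Integrable (fun x => ∫ W, ⟪a x, g (s2 R g x W)⟫ ∂μ) γ :=
    (Tame.integrable (μ := γ.prod μ) hF).integral_prod_left
  have hY : Integrable Y γ := (hat.inner hG).integrable.sub hI
  have hT : Tame fun x => ⟪a x, g (x - psi R g x)⟫ :=
    hat.inner (hgt.comp ((tame_clm (ContinuousLinearMap.id ℝ (Space d))).sub hψ))
  have hZ : Integrable Z γ := hI.sub hT.integrable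
  have e : defLin g (psi R g) a = ∫ x, X x ∂γ + ∫ x, Y x ∂γ + ∫ x, Z x ∂γ := by
    have hXY : Integrable (fun x => X x + Y x) γ := hX.add hY
    rw [← integral_add hX hY, ← integral_add hXY hZ]
    refine integral_congr_ae (Filter.Eventually.of_forall fun x => ?_)
    simp only [X, Y, Z, inner_sub_right]
    ring
  have bX : |∫ x, X x ∂γ|
      ≤ Cq * α * (δ * ((4 * ρ + 5 * L * √d) * √d) + 2 * L * √(t0 * d)) := by
    refine (hQ (gmean1 R g) (2 * L) (contDiff_gmean1 hg hR) (fderiv_gmean1_le hg hR) a α β hα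
      ha).trans ?_
    exact mul_le_mul_of_nonneg_left (add_le_add (mul_le_mul_of_nonneg_left
      (sqrt_integral_gmean1_le hg hR) hR.delta_nonneg) le_rfl) (by positivity)
  have bY : |∫ x, Y x ∂γ| ≤ 4 * α * L ^ 2 * (ρ + 3 * L * √d) := by
    have hL := hg.nonneg
    have hxi : Integrable (fun x : Space d => ‖x‖) γ := IsGaussian.integrable_id.norm
    have i1 : Integrable (fun x : Space d => ρ + L * ‖x‖) γ :=
      (integrable_const _).add (hxi.const_mul _)
    refine abs_integral_le_integral_abs.trans ((integral_mono_of_nonneg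
      (Filter.Eventually.of_forall fun x => abs_nonneg _)
      ((i1.add (integrable_const (2 * L * √d))).const_mul (4 * α * L ^ 2))
      (Filter.Eventually.of_forall fun x => gmean_gap hg hR ha x)).trans ?_)
    rw [integral_const_mul, integral_add' i1 (integrable_const _),
      integral_add (integrable_const _) (hxi.const_mul _), integral_const_mul]
    simp only [integral_const, probReal_univ, one_smul]
    have hn : ∫ x : Space d, ‖x‖ ∂γ ≤ √d := by simpa using integral_norm_le (κ := Fin d)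
    refine mul_le_mul_of_nonneg_left ?_ (by positivity)
    linarith [mul_le_mul_of_nonneg_left hn hL]
  have bZ := bias hg hR ha
  rw [e]
  refine (abs_add_three _ _ _).trans ((add_le_add (add_le_add bX bY) bZ).trans (le_of_eq ?_))
  ring

/-- The error terms of a step. -/
theorem collect {Cd Cq η ρ δ s w E E' α β A B : ℝ} (hCd : 0 ≤ Cd) (hCq : 0 ≤ Cq) (hη : 0 ≤ η)
    (h8 : η ≤ 1 / 8) (hρ : 0 ≤ ρ) (hδ : 0 ≤ δ) (hs : 0 ≤ s) (hw : 0 ≤ w) (hE : 0 ≤ E)
    (hα : 0 ≤ α) (hβ : 0 ≤ β)
    (hA : A = Cq * (δ * ((4 * ρ + 5 * (2 * η) * w) * w) + 2 * (2 * η) * (s * w))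
      + (104 * (2 * η) ^ 2 * ρ + 332 * (2 * η) ^ 3 * w))
    (hB : B = 16 * (2 * η) ^ 3 * w) (hE' : E' ≤ 216 * E) :
    16 * (2 * η) ^ 2 * w * β
        + Cd * (A * α + (B + η ^ 2 * w) * (β + η * α) + E' * (α + β))
      ≤ (Cd * (16 * Cq + 4000) + 64) * (η ^ 3 * w * α + η ^ 2 * w * (β + η * α)
        + (ρ + η * w + 1) * (δ + s) * w * α + (ρ + η * ρ * w) * (α + β) + E * (α + β)) := by
  set T1 := η ^ 3 * w * α
  set T2 := η ^ 2 * w * (β + η * α)
  set T3 := (ρ + η * w + 1) * (δ + s) * w * α
  set T4 := (ρ + η * ρ * w) * (α + β)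
  set T5 := E * (α + β)
  have t1 : 0 ≤ T1 := by positivity
  have t2 : 0 ≤ T2 := by positivity
  have t3 : 0 ≤ T3 := by positivity
  have t4 : 0 ≤ T4 := by positivity
  have t5 : 0 ≤ T5 := by positivity
  have e1 : (4 * ρ + 5 * (2 * η) * w) * δ + 2 * (2 * η) * s ≤ 16 * ((ρ + η * w + 1) * (δ + s)) := by
    nlinarith [mul_nonneg hρ hδ, mul_nonneg (mul_nonneg hη hw) hδ, mul_nonneg hρ hs,
      mul_nonneg (mul_nonneg hη hw) hs, mul_le_mul_of_nonneg_right h8 hs]
  have b1 : (δ * ((4 * ρ + 5 * (2 * η) * w) * w) + 2 * (2 * η) * (s * w)) * α ≤ 16 * T3 := by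
    have h := mul_le_mul_of_nonneg_right e1 (mul_nonneg hw hα)
    simp only [T3]
    linarith
  have b2 : 104 * (2 * η) ^ 2 * ρ * α ≤ 10 * T4 := by
    have e2 : 104 * (2 * η) ^ 2 ≤ 10 := by nlinarith
    have e3 : ρ * α ≤ (ρ + η * ρ * w) * (α + β) :=
      mul_le_mul (le_add_of_nonneg_right (by positivity)) (le_add_of_nonneg_right hβ) hα
        (by positivity)
    rw [mul_assoc _ ρ α]
    exact mul_le_mul e2 e3 (mul_nonneg hρ hα) (by norm_num)
  have b3 : 332 * (2 * η) ^ 3 * w * α = 2656 * T1 := by simp only [T1]; ring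
  have b4 : (B + η ^ 2 * w) * (β + η * α) ≤ 17 * T2 := by
    have h : B + η ^ 2 * w ≤ 17 * (η ^ 2 * w) := by
      rw [hB]
      nlinarith [mul_le_mul_of_nonneg_right h8 (show 0 ≤ η ^ 2 * w by positivity)]
    exact (mul_le_mul_of_nonneg_right h (by positivity)).trans (le_of_eq (mul_assoc _ _ _))
  have b5 : 16 * (2 * η) ^ 2 * w * β ≤ 64 * T2 := by
    have h : β ≤ β + η * α := le_add_of_nonneg_right (by positivity)
    have h' := mul_le_mul_of_nonneg_left h (show 0 ≤ 64 * (η ^ 2 * w) by positivity)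
    simp only [T2]
    linarith
  have b6 : E' * (α + β) ≤ 216 * T5 :=
    (mul_le_mul_of_nonneg_right hE' (by positivity)).trans (le_of_eq (mul_assoc _ _ _))
  have hAα : A * α ≤ 16 * Cq * T3 + 10 * T4 + 2656 * T1 := by
    have h := mul_le_mul_of_nonneg_left b1 hCq
    rw [hA]
    linarith
  have hsum : A * α + (B + η ^ 2 * w) * (β + η * α) + E' * (α + β)
      ≤ (16 * Cq + 4000) * (T1 + T2 + T3 + T4 + T5) := by
    linarith [mul_nonneg hCq t1, mul_nonneg hCq t2, mul_nonneg hCq t4, mul_nonneg hCq t5]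
  have h := mul_le_mul_of_nonneg_left hsum hCd
  linarith

/-- The step from the defect and the quadrature. -/
theorem step_of (hD : DefectSpec) (hQ : QuadSpec) : StepSpec := by
  obtain ⟨Cd, hCd, hD⟩ := hD
  obtain ⟨Cq, hCq, hQ⟩ := hQ
  refine ⟨Cd * (16 * Cq + 4000) + 64, by positivity,
    fun d M R δ t0 hR p η h J hp hJ v c ρ hρ u α β hα hβ hu => ?_⟩
  set g := cgrad p c v with hg0
  have hg : Drift g ρ (2 * η) := drift_cgrad hp c v hρ
  have hη := hp.pos.le
  have hρ0 := hg.rho_nonneg
  have hδ := hR.delta_nonneg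
  have ht := hR.t0_pos.le
  set w := √(d : ℝ) with hw
  have hw0 : 0 ≤ w := Real.sqrt_nonneg _
  set A := Cq * (δ * ((4 * ρ + 5 * (2 * η) * w) * w) + 2 * (2 * η) * √(t0 * d))
      + (104 * (2 * η) ^ 2 * ρ + 332 * (2 * η) ^ 3 * w) with hA
  set B := 16 * (2 * η) ^ 3 * w with hB
  have hA0 : 0 ≤ A := by positivity
  have hB0 : 0 ≤ B := by positivity
  have hΨ : ∀ x, ‖fderiv ℝ (psi R g) x‖ ≤ 8 * η := fun x =>
    (fderiv_psi_le hg hR x).trans (by linarith)
  have hdef := hD d p η h J hp hJ v c (psi R g) (contDiff_psi hg hR) hΨ A B hA0 hB0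
    (fun a α' β' hα' _ ha => defLin_psi_le hg hR hCq.le
      (hQ d M R δ t0 hR) a α' β' hα' ha) u α β hα hβ hu
  set γ := stdGaussian (Space d)
  set μ := stdGaussian (Seeds d M)
  have hu1 : ContDiff ℝ 1 u := hu.smooth.of_le (by norm_num)
  have hut : Tame u := tame_of_lip hu1 (Defect.fderiv_norm_le hu)
  have hf : Tame fun z : Space d × Seeds d M => u (c + s2 R g z.1 z.2) :=
    hut.comp ((tame_const c).add
      ((tame_clm (.fst ℝ (Space d) (Seeds d M))).sub (tame_disp hg hR)))
  have i1 : Integrable (fun x => ∫ W, u (c + s2 R g x W) ∂μ) γ :=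
    (Tame.integrable (μ := γ.prod μ) hf).integral_prod_left
  have i2 : Integrable (fun x => u (c + (x - psi R g x))) γ :=
    Tame.integrable (hut.comp ((tame_const c).add
      ((tame_clm (ContinuousLinearMap.id ℝ (Space d))).sub (tame_psi hg hR))))
  have hnoise : |(∫ x, ∫ W, u (c + s2 R g x W) ∂μ ∂γ) - ∫ x, u (c + (x - psi R g x)) ∂γ|
      ≤ 16 * (2 * η) ^ 2 * w * β := by
    rw [← integral_sub i1 i2, ← Real.norm_eq_abs]
    exact (norm_integral_le_of_norm_le_const (Filter.Eventually.of_forall fun x =>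
      (Real.norm_eq_abs _).trans_le (noise_weak hg hR hu c x))).trans (by simp [hw])
  refine (abs_sub_le _ (∫ x, u (c + (x - psi R g x)) ∂γ) _).trans
    ((add_le_add hnoise hdef).trans ?_)
  set E := chainErr d h J (‖v‖ + ‖c‖ + ρ) with hE
  have hJ0 : 0 ≤ √h + (1 - h / 2) ^ J := by
    have := pow_nonneg (show (0 : ℝ) ≤ 1 - h / 2 by linarith [hJ.small]) J
    positivity
  have hE0 : 0 ≤ E := mul_nonneg (pow_nonneg (by positivity) 3) hJ0
  have hwd : w ≤ 1 + d := by
    rw [hw, Real.sqrt_le_left (by positivity)]; nlinarith [Nat.cast_nonneg (α := ℝ) d]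
  have hce : chainErr d h J (‖v‖ + ‖c‖ + ‖psi R g 0‖) ≤ 216 * E := by
    simp only [hE, chainErr]
    rw [← mul_assoc]
    refine mul_le_mul_of_nonneg_right ?_ hJ0
    rw [show (216 : ℝ) * (1 + d + (‖v‖ + ‖c‖ + ρ)) ^ 3 = (6 * (1 + d + (‖v‖ + ‖c‖ + ρ))) ^ 3 by ring]
    refine pow_le_pow_left₀ (by positivity) ?_ 3
    have h1 : ‖psi R g 0‖ ≤ 4 * ρ + 4 * (2 * η) * w := norm_psi_zero_le hg hR
    linarith [norm_nonneg v, norm_nonneg c,
      mul_le_mul_of_nonneg_right (show 4 * (2 * η) ≤ 1 by linarith [hp.small]) hw0]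
  have hsq : √(t0 * d) = √t0 * w := Real.sqrt_mul ht _
  rw [hsq] at hA
  exact collect hCd.le hCq.le hη hp.small hρ0 hδ (Real.sqrt_nonneg t0) hw0 hE0 hα hβ hA hB hce

/-- L2, L4 and L3 together. -/
theorem step : StepSpec := step_of (Defect.defect steinSum) quad

end

end P347.Quarter
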