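import Vale.Agent.P347.Any.Pre
import Vale.Agent.P347.Quarter.GaussNoise
import Vale.Agent.P347.Quarter.Machine

/-!
# P347: the potential in units, its proximal chain, moments and translations
-/

namespace P347.Quarter

open MeasureTheory ProbabilityTheory Filter Topology
open scoped RealInnerProductSpace

noncomputable section

variable {d : ℕ} {V : Space d → ℝ}

/-- The hypotheses on the potential. -/
structure InClass (V : Space d → ℝ) : Prop where
  smooth : ContDiff ℝ 2 V
  zero : V 0 = 0
  grad0 : gradient V 0 = 0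
  hess : ∀ x h : Space d, ‖h‖ ^ 2 ≤ iteratedFDeriv ℝ 2 V x ![h, h] ∧
    iteratedFDeriv ℝ 2 V x ![h, h] ≤ 2 * ‖h‖ ^ 2

theorem InClass.model (hV : InClass V) : Model V (id : Fin d → Fin d) :=
  model_of_hessian hV.smooth hV.zero hV.grad0 hV.hess fun _ _ _ h1 h2 => absurd h2 h1

theorem InClass.prob (hV : InClass V) : IsProbabilityMeasure (gibbs V) :=
  ⟨gibbs_univ hV.model.block⟩

theorem gradient_zero_le (hV : InClass V) (x : Space d) : ‖gradient V x‖ ≤ 2 * ‖x‖ := by
  simpa [hV.grad0] using hV.model.lip 0 x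

theorem contDiff_gradient (hV : ContDiff ℝ 2 V) : ContDiff ℝ 1 (gradient V) :=
  (InnerProductSpace.toDual ℝ (Space d)).symm.toContinuousLinearEquiv.contDiff.comp
    (hV.fderiv_right (m := 1) (by norm_num))

theorem inner_fderiv_gradient (hV : ContDiff ℝ 2 V) (x a b : Space d) :
    ⟪fderiv ℝ (gradient V) x a, b⟫ = fderiv ℝ (fderiv ℝ V) x a b := by
  have h1 : HasFDerivAt (fun y => ⟪gradient V y, b⟫)
      ((innerSL ℝ b).comp (fderiv ℝ (gradient V) x)) x := by
    have := (innerSL ℝ b).hasFDerivAt.comp x
      ((contDiff_gradient hV).differentiable (by norm_num) x).hasFDerivAt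
    refine this.congr_of_eventuallyEq (Eventually.of_forall fun y => ?_)
    simp [real_inner_comm]
  have h2 : HasFDerivAt (fun y => fderiv ℝ V y b) ((fderiv ℝ (fderiv ℝ V) x).flip b) x := by
    simpa using (((hV.fderiv_right (m := 1) (by norm_num)).differentiable (by norm_num)
      x).hasFDerivAt).clm_apply (hasFDerivAt_const b x)
  have e : (fun y => ⟪gradient V y, b⟫) = fun y => fderiv ℝ V y b :=
    funext fun y => inner_gradient V y b
  rw [e] at h1
  have h := congrArg (fun L : Space d →L[ℝ] ℝ => L a) (h1.unique h2)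
  simp only [ContinuousLinearMap.comp_apply, ContinuousLinearMap.flip_apply] at h
  rw [real_inner_comm]
  simpa using h

theorem InClass.pot (hV : InClass V) {η : ℝ} (h0 : 0 < η) (h1 : η ≤ 1 / 8) :
    Pot (pOf V η) η := by
  have hg := contDiff_gradient hV.smooth
  have hd : ∀ x a, fderiv ℝ (pOf V η) x a = η • fderiv ℝ (gradient V) (√η • x) a := fun x a => by
    have h : HasFDerivAt (pOf V η) _ x :=
      ((hg.differentiable (by norm_num) (√η • x)).hasFDerivAt.comp x
        ((hasFDerivAt_id x).const_smul √η)).const_smul √η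
    rw [h.fderiv]
    simp [smul_smul, Real.mul_self_sqrt h0.le]
  refine ⟨?_, by simp [pOf, hV.grad0], h0, h1, fun x a b => ?_, fun x a => ?_, fun x a => ?_⟩
  · exact ((hg.comp (contDiff_id.const_smul √η)).const_smul √η)
  · rw [hd, hd, real_inner_smul_left, real_inner_smul_right, real_inner_comm _ a,
      inner_fderiv_gradient hV.smooth, inner_fderiv_gradient hV.smooth]
    exact congrArg (η * ·) ((hV.smooth.contDiffAt.isSymmSndFDerivAt (by simp)).eq a b)
  all_goals
    rw [hd, real_inner_smul_left, inner_fderiv_gradient hV.smooth]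
    have h := hV.hess (√η • x) a
    simp [iteratedFDeriv_two_apply] at h
  · exact mul_le_mul_of_nonneg_left h.1 h0.le
  · have := mul_le_mul_of_nonneg_left h.2 h0.le; linarith

/-- The potential in the unit of `η`. -/
def unitPot (V : Space d → ℝ) (η : ℝ) (y : Space d) : ℝ := V (√η • y)

theorem InClass.unit_smooth (hV : InClass V) (η : ℝ) : ContDiff ℝ 2 (unitPot V η) :=
  hV.smooth.comp (contDiff_id.const_smul √η)

theorem InClass.gradient_unit (hV : InClass V) (η : ℝ) :
    gradient (unitPot V η) = pOf V η := by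
  funext y
  refine ext_inner_right ℝ fun w => ?_
  have h : HasFDerivAt (unitPot V η) _ y :=
    ((hV.smooth.differentiable (by norm_num)) (√η • y)).hasFDerivAt.comp y
      ((hasFDerivAt_id y).const_smul √η)
  rw [inner_gradient, h.fderiv, pOf, real_inner_smul_left, inner_gradient]
  simp

theorem InClass.chain (hV : InClass V) {η : ℝ} (h0 : 0 < η) (h1 : η ≤ 1 / 8) :
    Chain (reg V √η) (1 + 3 / 2 * √η ^ 2) (√η ^ 2 / 2) (η / 8) := by
  have hs : √η ^ 2 = η := Real.sq_sqrt h0.le
  refine ⟨potential_reg hV.model hV.smooth (by rw [hs]; linarith), fun u => ?_, by linarith,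
    by linarith, by rw [hs]; linarith⟩
  have := (hV.model.block.bounds (√η • u)).1
  rw [norm_smul, mul_pow, Real.norm_eq_abs, sq_abs, hs] at this
  simp only [reg, halfSq]
  linarith

/-- The mean under the law of the step started at `v`. -/
def post (V : Space d → ℝ) (η : ℝ) (u : Space d → ℝ) (v : Space d) : ℝ :=
  tiltMean (reg V √η) u v

theorem InClass.post_eq (hV : InClass V) {η : ℝ} (h0 : 0 < η) (h1 : η ≤ 1 / 8)
    (u : Space d → ℝ) (v : Space d) :
    post V η u v = (∫ x, u x * Real.exp (-(unitPot V η x + ‖x - v‖ ^ 2 / 2)))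
      / ∫ x, Real.exp (-(unitPot V η x + ‖x - v‖ ^ 2 / 2)) := by
  have e : ∀ x, Real.exp (-(unitPot V η x + ‖x - v‖ ^ 2 / 2))
      = Real.exp (-(‖v‖ ^ 2 / 2)) * Real.exp (-tilt (reg V √η) v x) := fun x => by
    rw [← Real.exp_add]
    congr 1
    simp only [unitPot, tilt, reg, norm_sub_sq_real, real_inner_comm v x]
    ring
  have e2 : ∀ x, u x * Real.exp (-(unitPot V η x + ‖x - v‖ ^ 2 / 2))
      = Real.exp (-(‖v‖ ^ 2 / 2)) * (u x * Real.exp (-tilt (reg V √η) v x)) := fun x => by
    rw [e]; ring
  simp only [e2]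
  simp only [e, integral_const_mul]
  rw [mul_div_mul_left _ _ (Real.exp_ne_zero _), post, tiltMean,
    (hV.chain h0 h1).potential.integral_tilt, integral_div]

theorem InClass.test_post (hV : InClass V) {η : ℝ} (h0 : 0 < η) (h1 : η ≤ 1 / 8)
    {u : Space d → ℝ} (hu : Test u) : Test (post V η u) :=
  (hV.chain h0 h1).test_prox hu

theorem InClass.unit_law (hV : InClass V) {η : ℝ} (h0 : 0 < η) (F : Space d → ℝ) :
    ∫ y, F y ∂chainLaw (reg V √η) = ∫ x, F ((√η)⁻¹ • x) ∂gibbs V := by
  have hr : √η ≠ 0 := (Real.sqrt_pos.2 h0).ne'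
  have hs : ∀ y, (scaleEquiv d (√η)⁻¹ (inv_ne_zero hr)).symm y = √η • y := fun y => by
    rw [ContinuousLinearEquiv.symm_apply_eq]
    simp [scaleEquiv, smul_smul, inv_mul_cancel₀ hr, mul_inv_cancel₀ hr]
  have e : chainLaw (reg V √η)
      = gibbs fun y => V ((scaleEquiv d (√η)⁻¹ (inv_ne_zero hr)).symm y) :=
    congrArg gibbs (funext fun y => by rw [hs]; simp [reg, halfSq])
  rw [e, gibbs_equiv hV.smooth.continuous]
  rfl

/-- One exact step preserves the target. -/
theorem InClass.invariant (hV : InClass V) {η : ℝ} (h0 : 0 < η) (h1 : η ≤ 1 / 8)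
    {u : Space d → ℝ} (hu : Test u) :
    ∫ x, gav 1 (post V η u) ((√η)⁻¹ • x) ∂gibbs V = ∫ x, u ((√η)⁻¹ • x) ∂gibbs V := by
  rw [← hV.unit_law h0, ← hV.unit_law h0, ← (hV.chain h0 h1).outer_invariant hu]
  simp [gav, chainOp, post, noise_eq_stdGaussian]

theorem far_add {r : ℝ} (hr : 0 < r) (a b : Space d) : far r (a + b) ≤ far r a + ‖b‖ / r := by
  have h : ‖a + b‖ / r ≤ ‖a‖ / r + ‖b‖ / r := by
    rw [← add_div]; exact div_le_div_of_nonneg_right (norm_add_le _ _) hr.le
  have hb : 0 ≤ ‖b‖ / r := by positivity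
  unfold far
  rcases le_total (1 : ℝ) (‖a‖ / r) with h1 | h1
  · rw [min_eq_left h1]; linarith [min_le_left (1 : ℝ) (‖a + b‖ / r)]
  · rw [min_eq_right h1]; linarith [min_le_right (1 : ℝ) (‖a + b‖ / r)]

theorem far_scale {r c : ℝ} (hc : 1 ≤ c) {a b : Space d} (h : ‖b‖ ≤ c * ‖a‖) (hr : 0 < r) :
    far r b ≤ c * far r a := by
  unfold far
  rw [mul_min_of_nonneg _ _ (by linarith : 0 ≤ c), mul_one]
  refine min_le_min hc ?_
  rw [← mul_div_assoc]
  exact div_le_div_of_nonneg_right h hr.le

theorem one_le_far {r : ℝ} (hr : 0 < r) {x : Space d} (h : r ≤ ‖x‖) : 1 ≤ far r x :=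
  le_min le_rfl ((one_le_div hr).2 h)

/-- A Gaussian vector has norm at most one plus twice the dimension on average. -/
theorem gauss_norm {E : Type} [NormedAddCommGroup E] [InnerProductSpace ℝ E]
    [FiniteDimensional ℝ E] [MeasurableSpace E] [BorelSpace E] :
    Integrable (fun w : E => ‖w‖) (stdGaussian E) ∧
      ∫ w, ‖w‖ ∂stdGaussian E ≤ 1 + Module.finrank ℝ E := by
  set b := stdOrthonormalBasis ℝ E
  have h2 : ∀ i, Integrable (fun w : E => ⟪b i, w⟫ ^ 2) (stdGaussian E) ∧
      ∫ w, ⟪b i, w⟫ ^ 2 ∂stdGaussian E = 1 := fun i => by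
    have hm : MemLp (fun w : E => ⟪b i, w⟫) 2 (stdGaussian E) :=
      IsGaussian.memLp_dual (stdGaussian E) (innerSL ℝ (b i)) 2 (by simp)
    refine ⟨hm.integrable_sq, ?_⟩
    have hv := variance_dual_stdGaussian (E := E) (innerSL ℝ (b i))
    rw [variance_of_integral_eq_zero (innerSL ℝ (b i)).continuous.measurable.aemeasurable
      (integral_strongDual_stdGaussian (innerSL ℝ (b i)))] at hv
    simpa using hv
  have e : ∀ w : E, ‖w‖ ^ 2 = ∑ i, ⟪b i, w⟫ ^ 2 := fun w => by
    rw [← real_inner_self_eq_norm_sq, ← b.sum_inner_mul_inner w w]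
    exact Finset.sum_congr rfl fun i _ => by rw [real_inner_comm, sq]
  have hi : Integrable (fun w : E => ‖w‖ ^ 2) (stdGaussian E) := by
    simp only [e]; exact integrable_finsetSum _ fun i _ => (h2 i).1
  have hb : ∀ w : E, ‖w‖ ≤ 1 + ‖w‖ ^ 2 := fun w => by nlinarith [sq_nonneg (‖w‖ - 1)]
  have hI : Integrable (fun w : E => ‖w‖) (stdGaussian E) :=
    ((integrable_const 1).add hi).mono' (by fun_prop) (Eventually.of_forall fun w => by
      simpa using hb w)
  refine ⟨hI, (integral_mono hI ((integrable_const 1).add hi) hb).trans (le_of_eq ?_)⟩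
  simp only [Pi.add_apply, e]
  rw [integral_add (integrable_const _) (integrable_finsetSum _ fun i _ => (h2 i).1),
    integral_finsetSum _ fun i _ => (h2 i).1]
  simp [h2]

/-- The chance of being far out under the target. -/
theorem InClass.far_mean (hV : InClass V) (hd : 1 ≤ d) {r L : ℝ} (hr : 0 < r) (hL : 0 ≤ L) :
    ∫ x, far r x ∂gibbs V ≤ d / r * (L + 1) + ballTail d L :=
  have : NeZero d := ⟨by omega⟩
  far_mean_colours hV.model hr hL

/-- Translating the target costs the size of the gradient. -/
theorem InClass.translate_le (hV : InClass V) {f : Space d → ℝ} (hf : Test f) (a : Space d) {R : ℝ}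
    (hR : 0 < R) :
    |∫ x, f (x + a) ∂gibbs V - ∫ x, f x ∂gibbs V|
      ≤ 2 * ((∫ x, far R x ∂gibbs V) + (2 * R + 2 * ‖a‖) * ‖a‖) := by
  have := hV.prob
  have hc := hV.smooth.continuous
  have hi : Integrable fun x => Real.exp (-V x) :=
    (integrable_gauss (E := Space d) (a := 1 / 2) (by norm_num)).mono'
      (Real.continuous_exp.comp hc.neg).aestronglyMeasurable (Eventually.of_forall fun x => by
        rw [Real.norm_eq_abs, abs_of_pos (Real.exp_pos _), Real.exp_le_exp]
        have := (hV.model.block.bounds x).1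
        linarith)
  set q := fun y : Space d => Real.exp (-V y)
  set p := fun y : Space d => Real.exp (-V (y - a))
  have hp : Integrable p := hi.comp_sub_right a
  have hpq : ∫ y, p y = ∫ y, q y := integral_sub_right_eq_self q a
  have hZ : 0 < ∫ y, q y := integral_exp_pos hi
  have hfb : ∀ (g : Space d → ℝ), Integrable g → Integrable fun y => f y * g y := fun g hg =>
    hg.bdd_mul hf.meas.aestronglyMeasurable (Eventually.of_forall hf.norm_le)
  have e1 : ∫ x, f (x + a) ∂gibbs V = (∫ y, f y * p y) / ∫ y, q y := by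
    rw [gibbs_integral_cont hc,
      ← integral_add_right_eq_self (μ := (volume : Measure (Space d))) (fun y => f y * p y) a]
    simp [p, q]
  rw [e1, gibbs_integral_cont hc, gibbs_integral_cont hc, ← sub_div, abs_div, abs_of_pos hZ,
    div_le_iff₀ hZ, ← integral_sub (hfb p hp) (hfb q hi)]
  have hfar : Integrable fun y => far R y * q y :=
    hi.bdd_mul (test_far hR).meas.aestronglyMeasurable (Eventually.of_forall (test_far hR).norm_le)
  set c := (2 * R + 2 * ‖a‖) * ‖a‖
  have hpt : ∀ y, |f y * p y - f y * q y| ≤ (p y - q y) + 2 * (far R y * q y + c * q y) := fun y => by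
    have hq0 : 0 < q y := Real.exp_pos _
    have hp0 : 0 < p y := Real.exp_pos _
    have hf0 := (test_far (d := d) hR).nonneg y
    have hc0 : 0 ≤ c := by positivity
    have h1 : q y - p y ≤ far R y * q y + c * q y := by
      rcases le_or_gt R ‖y‖ with h | h
      · have := mul_le_mul_of_nonneg_right (one_le_far hR h) hq0.le
        have := mul_nonneg hc0 hq0.le
        linarith
      · have hseg : ∀ z ∈ segment ℝ y (y - a), ‖fderiv ℝ V z‖ ≤ 2 * R + 2 * ‖a‖ := fun z hz => by
          rw [← (InnerProductSpace.toDual ℝ (Space d)).symm.norm_map]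
          refine (gradient_zero_le hV z).trans ?_
          have h2 := norm_sub_le_of_mem_segment hz
          have h3 := norm_le_norm_add_norm_sub' z y
          rw [sub_sub_cancel_left, norm_neg] at h2
          have h6 : ‖z - y‖ ≤ ‖a‖ := by
            first
              | exact h2
              | rwa [norm_sub_rev]
          linarith
        have hmv := (convex_segment y (y - a)).norm_image_sub_le_of_norm_fderiv_le
          (fun z _ => (hV.smooth.differentiable (by norm_num)) z) hseg (left_mem_segment ℝ _ _)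
          (right_mem_segment ℝ _ _)
        rw [sub_sub_cancel_left, norm_neg, Real.norm_eq_abs] at hmv
        have h4 : q y - p y ≤ q y * (V (y - a) - V y) := by
          have e : p y = q y * Real.exp (-(V (y - a) - V y)) := by
            simp only [p, q, ← Real.exp_add]; ring_nf
          rw [e]
          have := mul_le_mul_of_nonneg_left (Real.add_one_le_exp (-(V (y - a) - V y))) hq0.le
          linarith
        have h5 := mul_le_mul_of_nonneg_left ((le_abs_self _).trans hmv) hq0.le
        have := mul_nonneg hf0 hq0.le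
        linarith
    rw [← mul_sub, abs_mul, abs_of_nonneg (hf.nonneg y)]
    refine (mul_le_of_le_one_left (abs_nonneg _) (hf.le_one y)).trans ?_
    rw [abs_le]
    have := mul_nonneg hf0 hq0.le
    have := mul_nonneg hc0 hq0.le
    constructor <;> linarith
  refine abs_integral_le_integral_abs.trans ((integral_mono ((hfb p hp).sub (hfb q hi)).abs
    ((hp.sub hi).add ((hfar.add (hi.const_mul c)).const_mul 2)) hpt).trans (le_of_eq ?_))
  simp only [Pi.add_apply, Pi.sub_apply]
  rw [integral_add, integral_sub hp hi, integral_const_mul, integral_add hfar (hi.const_mul c),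
    integral_const_mul, hpq]
  · simp only [q] at hZ ⊢
    field_simp
    ring
  · exact hp.sub hi
  · exact (hfar.add (hi.const_mul c)).const_mul 2

/-- A bound on continuous tests bounds the total variation. -/
theorem set_bound {μ ν : Measure (Space d)} [IsProbabilityMeasure μ] [IsProbabilityMeasure ν]
    {ε : ℝ}
    (h : ∀ f : Space d → ℝ, Continuous f → (∀ x, f x ∈ Set.Icc (0 : ℝ) 1) →
      |∫ x, f x ∂μ - ∫ x, f x ∂ν| ≤ ε)
    {S : Set (Space d)} (hS : MeasurableSet S) : |μ.real S - ν.real S| ≤ ε := by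
  refine le_of_forall_pos_le_add fun t ht => ?_
  obtain ⟨F, hFS, hFc, hF⟩ := hS.exists_isClosed_sdiff_lt (μ := μ + ν) (measure_ne_top _ _)
    (ε := ENNReal.ofReal t) (by simpa using ht)
  have hlim : ∀ m : Measure (Space d), IsProbabilityMeasure m → Tendsto
      (fun n : ℕ => ∫ x, (thickenedIndicator (δ := 1 / ((n : ℝ) + 1)) (by positivity) F x : ℝ) ∂m)
      atTop (𝓝 (m.real F)) := fun m _ => by
    rw [show m.real F = ∫ x, F.indicator (fun _ => (1 : ℝ)) x ∂m by
      rw [integral_indicator_const _ hFc.measurableSet, smul_eq_mul, mul_one]]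
    refine tendsto_integral_of_dominated_convergence (fun _ => (1 : ℝ))
      (fun n => (NNReal.continuous_coe.comp (thickenedIndicator _ F).continuous).aestronglyMeasurable)
      (integrable_const _) (fun n => Eventually.of_forall fun x => ?_)
      (Eventually.of_forall fun x => ?_)
    · rw [Real.norm_eq_abs, abs_of_nonneg NNReal.zero_le_coe]
      exact_mod_cast thickenedIndicator_le_one _ F x
    · have hT := thickenedIndicator_tendsto_indicator_closure
        (fun n : ℕ => (by positivity : (0 : ℝ) < 1 / ((n : ℝ) + 1)))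
        tendsto_one_div_add_atTop_nhds_zero_nat F
      rw [hFc.closure_eq] at hT
      have := (NNReal.continuous_coe.tendsto _).comp ((tendsto_pi_nhds.1 hT) x)
      simpa [Set.indicator, apply_ite, Function.comp_def] using this
  have hFF : |μ.real F - ν.real F| ≤ ε :=
    le_of_tendsto (((hlim μ inferInstance).sub (hlim ν inferInstance)).abs)
      (Eventually.of_forall fun n => h _
        (NNReal.continuous_coe.comp (thickenedIndicator _ F).continuous)
        fun x => ⟨NNReal.zero_le_coe, by exact_mod_cast thickenedIndicator_le_one _ F x⟩)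
  have hd : μ.real (S \ F) + ν.real (S \ F) ≤ t := by
    have := ENNReal.toReal_le_of_le_ofReal ht.le hF.le
    rwa [Measure.add_apply, ENNReal.toReal_add (measure_ne_top _ _) (measure_ne_top _ _)] at this
  have e : ∀ m : Measure (Space d), IsProbabilityMeasure m → m.real S = m.real F + m.real (S \ F) :=
    fun m _ => by rw [measureReal_sdiff hFS hFc.measurableSet]; ring
  rw [e μ inferInstance, e ν inferInstance]
  have := measureReal_nonneg (μ := μ) (s := S \ F)
  have := measureReal_nonneg (μ := ν) (s := S \ F)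
  rw [abs_le] at hFF ⊢
  constructor <;> linarith

end

end P347.Quarter
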